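import Vale.Agent.P284Z.Spec
import Vale.Agent.P284Z.J.Spec

/-!
# P284Z, block K: the wandering case, statements of the parts and assembly
-/

open scoped ContDiff Topology ComplexOrder ENNReal
open Filter Set Function Metric MeasureTheory Asymptotics

noncomputable section

namespace Vale.Agent.P284Z

open Vale.Agent.P272.K J

section defs
variable {n : ℕ} {Γ E : Type} [Group Γ] [TopologicalSpace E] [MulAction Γ E] {C : Cov n Γ E}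

/-- `F j y ≥ κ` for large `j` -/
def LD.Lw (D : LD C) (κ : ℝ) (y : E) : Prop := ∀ᶠ j in atTop, κ ≤ D.F j y

/-- `g` is a smooth truncation of `log (F j)` at the level `-T` -/
structure LD.Tr (D : LD C) (j : ℕ) (T : ℝ) (g : E → ℝ) : Prop where
  psh : C.SmPsh D.A g
  eq : ∀ y, Real.exp (-T) < D.F j y → g y = Real.log (D.F j y)
  le : ∀ y, D.F j y ≤ Real.exp (-T) → g y ≤ -T
  ge : ∀ y, -T - 2 ≤ g y

/-- the masses of the deep windows are small, for infinitely many `j` -/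
def LD.Tail (D : LD C) : Prop := ∀ ε > (0 : ℝ≥0∞), ∃ m : ℝ, 1 ≤ m ∧ ∀ T : ℝ, ∃ᶠ j in atTop,
  ∀ T' g, T < T' → D.Tr j T' g → ∀ a, C.mass (2 * D.A) a (fun z => g (C.pt 1 a z))
    {z ∈ C.B 2 a | g (C.pt 1 a z) ∈ Icc (-T) (-m)} ≤ ε

variable {D : LD C} {L : Lim D} {Z : ZD L}

/-- `h` vanishes on the complement of the set of nice points -/
structure FD.Th (Φ : FD Z) (a : C.I) (h : Cm n → ℂ) : Prop where
  an : AnalyticOnNhd ℂ h (C.B 2 a)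
  ne : ∃ z ∈ C.B 2 a, h z ≠ 0
  le : ∀ z ∈ C.B (7 / 4) a, ‖h z‖ ≤ 1
  en : ∀ z ∈ C.B 2 a, h z ≠ 0 → C.pt 1 a z ∈ Φ.En

namespace TD
variable {Φ : FD Z} {N : NC Z Φ.d Φ.q Φ.l₁} (T : TD Φ N)

/-- the slice -/
def sg (t : Cm Φ.q) : E := N.Ψ.symm (T.a₀, t)

/-- the window -/
def Win (h : Cm n → ℂ) (γ : Γ) (a : C.I) (m₀ r k T' : ℝ) (j : ℕ) : Set (Cm n) :=
  {z ∈ C.B (7 / 4) a | C.pt γ a z ∈ T.Ω ∧ ‖T.s (C.pt γ a z) - T.t₀‖ < r ∧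
    Real.exp (-m₀) < D.F j (T.sg (T.s (C.pt γ a z))) ∧ Real.exp (-k) < ‖h z‖ ^ 2 ∧
    Real.exp (-T') < D.F j (C.pt 1 a z)}

/-- the glued functions exist -/
def Glue : Prop := ∀ m₀ : ℝ, ∃ r ∈ Ioo 0 T.R, ∃ L : ℝ, ∀ a h, Φ.Th a h → ∀ (γ : Γ) (k T' : ℝ),
  0 < k → ∀ᶠ j in atTop, ∀ g, D.Tr j T' g → ∃ F, C.Near D.A L g a F ∧
    ∀ z ∈ T.Win h γ a m₀ r k T' j, (cHess F z - C.pbs T.s γ a z).PosSemidef

/-- the good parameters -/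
def A (κ r : ℝ) : Set (Cm Φ.q) := {t ∈ ball T.t₀ r | D.Lw κ (T.sg t)}

/-- the part of the tube over `S` in a chart -/
def Tub (S : Set (Cm Φ.q)) (γ : Γ) (a : C.I) : Set (Cm n) :=
  {z ∈ C.B 1 a | C.pt γ a z ∈ T.Ω ∧ T.s (C.pt γ a z) ∈ S}

/-- the tube over `S` meets essentially only finitely many sheets -/
def Bdd (S : Set (Cm Φ.q)) : Prop :=
  ∃ G : Set Γ, G.Finite ∧ ∀ γ ∉ G, ∀ a, volume (T.Tub S γ a) = 0

/-- the leaves over `S` have locally finite volume -/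
def Fv (S : Set (Cm Φ.q)) : Prop := ∀ (e : Fin Φ.d ⊕ Fin Φ.q ≃ Fin n) γ a,
  ∫⁻ z in T.Tub S γ a, ENNReal.ofReal (md (blk e (cHess (C.ρ a) z) (C.pbs T.s γ a z))) < ⊤

end TD

/-- a combination of coordinates of `V` in the nice chart, with coefficients constant on plaques -/
def NC.cmb {P : Pol C} {J : IX Γ} {m : ℕ} (V : HSec P J m) {d q l₁ : ℕ} (N : NC Z d q l₁) {M : ℕ}
    (i : Fin M → J.ι) (g : Fin M → Cm q → ℂ) (u : Cm d × Cm q) : ℂ :=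
  ∑ k, g k u.2 * V.val N.g N.a (C.co N.g N.a (N.Ψ.symm u)) (i k)

/-- combinations vanishing to a high order along a slice -/
def NC.Cram {P : Pol C} {J : IX Γ} {m : ℕ} (V : HSec P J m) {d q l₁ : ℕ} (N : NC Z d q l₁) : Prop :=
  ∀ a₀ ∈ ball (0 : Cm d) N.R, ∀ ν : ℕ, ∃ (M : ℕ) (i : Fin M → J.ι) (g : Fin M → Cm q → ℂ),
    (∀ k, AnalyticOnNhd ℂ (g k) (ball 0 N.R)) ∧
    (∀ t ∈ ball (0 : Cm q) N.R,
      (fun a => N.cmb V i g (a, t)) =O[𝓝 a₀] fun a => ‖a - a₀‖ ^ ν) ∧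
    ∀ᵐ t, t ∈ ball (0 : Cm q) N.R → ∃ᶠ a in 𝓝 a₀, N.cmb V i g (a, t) ≠ 0

end defs

/-- **K0**: truncations, and the tails (pigeonhole on `M0`) -/
def StK0 : Prop :=
  ∀ (n : ℕ) (Γ E : Type) [Group Γ] [Countable Γ] [TopologicalSpace E] [T2Space E] [MulAction Γ E]
    (C : Cov n Γ E) (D : LD C), (∀ j T, ∃ g, D.Tr j T g) ∧ (JM C → D.Tail)

/-- **K1**: the glued functions -/
def StK1 : Prop :=
  ∀ (n : ℕ) (Γ E : Type) [Group Γ] [Countable Γ] [TopologicalSpace E] [T2Space E] [MulAction Γ E]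
    (C : Cov n Γ E) (D : LD C) (L : Lim D) (Z : ZD L), JB → Z.SB →
    ∀ (Φ : FD Z) (N : NC Z Φ.d Φ.q Φ.l₁) (T : TD Φ N), T.Glue

/-- **K2**: the tube over the good parameters is bounded -/
def StK2 : Prop :=
  ∀ (n : ℕ) (Γ E : Type) [Group Γ] [Countable Γ] [TopologicalSpace E] [T2Space E] [MulAction Γ E]
    (C : Cov n Γ E) (D : LD C) (L : Lim D) (Z : ZD L), JB → JMV → JM C →
    (∀ j T, ∃ g, D.Tr j T g) → D.Tail →
    ∀ (Φ : FD Z) (N : NC Z Φ.d Φ.q Φ.l₁) (T : TD Φ N), T.Glue → ¬ T.Rec →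
    ∀ κ > (0 : ℝ), ∃ r ∈ Ioo 0 T.R, T.Bdd (T.A κ r)

/-- **K3**: the good parameters have positive measure, and the leaves have finite volume -/
def StK3 : Prop :=
  ∀ (n : ℕ) (Γ E : Type) [Group Γ] [Countable Γ] [TopologicalSpace E] [T2Space E] [MulAction Γ E]
    (C : Cov n Γ E) (D : LD C) (L : Lim D) (Z : ZD L), JB → JM C → (∀ j T, ∃ g, D.Tr j T g) →
    ∀ (Φ : FD Z) (N : NC Z Φ.d Φ.q Φ.l₁) (T : TD Φ N), T.Glue →
    ∃ κ > (0 : ℝ), ∃ r₀ ∈ Ioo 0 T.R, ∀ r ∈ Ioc 0 r₀,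
      MeasurableSet (T.A κ r) ∧ 0 < volume (T.A κ r) ∧ T.Fv (T.A κ r)

/-- **K4**: Cramer -/
def StK4 : Prop :=
  ∀ (n : ℕ) (Γ E : Type) [Group Γ] [Countable Γ] [TopologicalSpace E] [T2Space E]
    [ConnectedSpace E] [MulAction Γ E] (C : Cov n Γ E) (P : Pol C) (J : IX Γ) (m : ℕ)
    (V : HSec P J m) (p : ℕ), V.VD p → ∀ (D : LD C) (L : Lim D) (Z : ZD L) (d q l₁ : ℕ)
    (N : NC Z d q l₁), d + q = n → Moves V N → N.Cram V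

/-- **K5**: Jensen at a point -/
def StK5 : Prop := ∀ (d : ℕ) (R : ℝ), 0 < R → ∃ c > (0 : ℝ), ∀ (a₀ : Cm d) (G : Cm d → ℂ)
  (φ : Cm d → ℝ) (ν : ℕ), AnalyticOnNhd ℂ G (closedBall a₀ R) → Sm (closedBall a₀ R) φ →
    (∀ a ∈ closedBall a₀ R, (cHess φ a).PosSemidef) →
    (G =O[𝓝 a₀] fun a => ‖a - a₀‖ ^ ν) → (∃ᶠ a in 𝓝 a₀, G a ≠ 0) →
    ∀ b < ENNReal.ofReal (c * ν), ∀ᶠ ε in 𝓝[>] (0 : ℝ), b < ∫⁻ a in ball a₀ R, ENNReal.ofReal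
      (cHess (fun w => Real.log (‖G w‖ ^ 2 + ε * Real.exp (φ w))) a).trace.re

/-- **K6**: Jensen on the leaves -/
def StK6 : Prop :=
  ∀ (n : ℕ) (Γ E : Type) [Group Γ] [Countable Γ] [TopologicalSpace E] [T2Space E] [MulAction Γ E]
    (C : Cov n Γ E) (P : Pol C) (J : IX Γ) (m : ℕ) (V : HSec P J m) (D : LD C) (L : Lim D)
    (Z : ZD L), JA → JB → (∀ [MeasurableSpace E] [BorelSpace E], JG C) → StK5 →
    ∀ (Φ : FD Z) (N : NC Z Φ.d Φ.q Φ.l₁) (T : TD Φ N), N.Cram V →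
    ∀ (S : Set (Cm Φ.q)) (r : ℝ), r < T.R → S ⊆ ball T.t₀ r → MeasurableSet S → 0 < volume S →
    T.Bdd S → T.Fv S → False

theorem stK_of (hJ : StJ) (h0 : StK0) (h1 : StK1) (h2 : StK2) (h3 : StK3) (h4 : StK4) (h5 : StK5)
    (h6 : StK6) : StK := by
  intro n Γ E _ _ _ _ _ _ C P J m V p hV D L Z hSB Φ N _ hM T hR
  obtain ⟨ja, jb, jmv, hj⟩ := hJ
  obtain ⟨jm, jg⟩ := hj n Γ E C
  obtain ⟨htr, htail⟩ := h0 n Γ E C D
  have hg := h1 n Γ E C D L Z jb hSB Φ N T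
  obtain ⟨κ, hκ, r₀, hr₀, hA⟩ := h3 n Γ E C D L Z jb jm htr Φ N T hg
  obtain ⟨r, hr, G, hG, hB⟩ := h2 n Γ E C D L Z jb jmv jm htr (htail jm) Φ N T hg hR κ hκ
  obtain ⟨hm, hpos, hfin⟩ := hA (min r r₀) ⟨lt_min hr.1 hr₀.1, min_le_right _ _⟩
  refine h6 n Γ E C P J m V D L Z ja jb jg h5 Φ N T (h4 n Γ E C P J m V p hV D L Z _ _ _ N Φ.dim hM)
    _ (min r r₀) ((min_le_left _ _).trans_lt hr.2) (fun t ht => ht.1) hm hpos
    ⟨G, hG, fun γ hγ a => measure_mono_null (fun z hz => ?_) (hB γ hγ a)⟩ hfin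
  exact ⟨hz.1, hz.2.1, ball_subset_ball (min_le_left _ _) hz.2.2.1, hz.2.2.2⟩

end Vale.Agent.P284Z
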