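import Vale.Agent.P284Z.K.Glue
import Vale.Agent.P284Z.K.Spec
import Vale.Agent.P284Z.F0.Cov
import Vale.Agent.P284Z.F0.Levi
import Vale.Agent.P284Z.F0.Three
import Vale.Agent.P284Z.S.Base
import Vale.Agent.P284Z.H.Bas

/-!
# P284Z, block K: basic facts used by all the parts
-/

set_option linter.all false

open scoped ContDiff Topology ComplexOrder ENNReal
open Filter Set Function Metric MeasureTheory

noncomputable section

namespace Vale.Agent.P284Z.K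

open Vale.Agent.P272.K J Real

/-- the quadratic form of a matrix -/
def qf {n : ℕ} (M : Mx n) (x : Cm n) : ℝ := (star x ⬝ᵥ M.mulVec x).re

theorem qf_cont {n : ℕ} : Continuous fun p : Mx n × Cm n => qf p.1 p.2 :=
  Complex.continuous_re.comp ((continuous_star.comp continuous_snd).dotProduct
    (continuous_fst.matrix_mulVec continuous_snd))

theorem qf_smul {n : ℕ} (M : Mx n) (c : ℝ) (x : Cm n) :
    qf M ((c : ℂ) • x) = c * (c * qf M x) := by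
  simp only [qf, star_smul, Matrix.mulVec_smul, smul_dotProduct, dotProduct_smul, smul_eq_mul,
    Complex.star_def, Complex.conj_ofReal, Complex.re_ofReal_mul]

theorem qf_sub {n : ℕ} (A B : Mx n) (c : ℝ) (x : Cm n) :
    qf ((c : ℂ) • B - A) x = c * qf B x - qf A x := by
  simp only [qf, Matrix.sub_mulVec, Matrix.smul_mulVec, dotProduct_sub, dotProduct_smul,
    smul_eq_mul, Complex.sub_re, Complex.re_ofReal_mul]

theorem psd_of_qf {n : ℕ} {M : Mx n} (hM : M.IsHermitian) (h : ∀ x, x ≠ 0 → 0 ≤ qf M x) :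
    M.PosSemidef :=
  Matrix.PosSemidef.of_dotProduct_mulVec_nonneg hM fun x => by
    have him : (star x ⬝ᵥ M.mulVec x).im = 0 := by
      refine Complex.conj_eq_iff_im.1 ?_
      change star (star x ⬝ᵥ _) = _
      rw [← Matrix.star_dotProduct, Matrix.star_mulVec, hM.eq, Matrix.dotProduct_mulVec]
    refine Complex.nonneg_iff.2 ⟨?_, him.symm⟩
    by_cases hx : x = 0
    · simp [hx]
    · exact h x hx

/-- hermitian forms are dominated by positive forms, uniformly on compact sets -/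
theorem exists_dom {n : ℕ} {Y : Type} [TopologicalSpace Y] {K : Set Y} (hK : IsCompact K)
    {A B : Y → Mx n} (hA : ContinuousOn A K) (hB : ContinuousOn B K)
    (h1 : ∀ z ∈ K, (A z).IsHermitian) (h2 : ∀ z ∈ K, (B z).PosDef) :
    ∃ c : ℝ, 1 ≤ c ∧ ∀ z ∈ K, ((c : ℂ) • B z - A z).PosSemidef := by
  have hc : ∀ {X : Y → Mx n}, ContinuousOn X K →
      ContinuousOn (fun p : Y × Cm n => qf (X p.1) p.2) (K ×ˢ sphere 0 1) := fun {X} hX =>
    qf_cont.comp_continuousOn' (f := fun p : Y × Cm n => (X p.1, p.2))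
      ((hX.comp continuousOn_fst fun _ h => h.1).prodMk continuousOn_snd)
  have hp : ∀ z ∈ K, ∀ x : Cm n, x ≠ 0 → 0 < qf (B z) x := fun z hz x hx =>
    (Complex.pos_iff.1 ((h2 z hz).dotProduct_mulVec_pos hx)).1
  obtain ⟨c, hc⟩ := (hK.prod (isCompact_sphere (0 : Cm n) 1)).bddAbove_image
    ((hc hA).div (hc hB) fun p h => (hp _ h.1 _ (ne_zero_of_mem_unit_sphere ⟨_, h.2⟩)).ne')
  refine ⟨max c 1, le_max_right _ _, fun z hz => psd_of_qf
    ((psd_smul (h2 z hz).posSemidef (le_max_of_le_right zero_le_one)).isHermitian.sub (h1 z hz))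
    fun x hx => ?_⟩
  have hn : 0 < ‖x‖⁻¹ := inv_pos.2 (norm_pos_iff.2 hx)
  have hm : ((‖x‖⁻¹ : ℝ) : ℂ) • x ∈ sphere (0 : Cm n) 1 := by
    rw [mem_sphere_zero_iff_norm, norm_smul, Complex.norm_real, Real.norm_of_nonneg hn.le,
      inv_mul_cancel₀ (norm_ne_zero_iff.2 hx)]
  have h3 : qf (A z) (((‖x‖⁻¹ : ℝ) : ℂ) • x) / qf (B z) (((‖x‖⁻¹ : ℝ) : ℂ) • x) ≤ c :=
    hc ⟨(z, ((‖x‖⁻¹ : ℝ) : ℂ) • x), ⟨hz, hm⟩, rfl⟩
  rw [qf_smul, qf_smul, mul_div_mul_left _ _ hn.ne', mul_div_mul_left _ _ hn.ne',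
    div_le_iff₀ (hp z hz x hx)] at h3
  rw [qf_sub]
  exact sub_nonneg.2 (h3.trans (mul_le_mul_of_nonneg_right (le_max_left c 1) (hp z hz x hx).le))

theorem cont_cHess {n : ℕ} {f : Cm n → ℝ} {z : Cm n} (h : ContDiffAt ℝ ∞ f z) :
    ContinuousAt (cHess f) z :=
  continuousAt_pi.2 fun i => continuousAt_pi.2 fun j => (INT.smooth_cHess h i j).continuousAt

theorem det_mono {n : ℕ} {A B : Mx n} (hA : A.PosSemidef) (h : (B - A).PosSemidef) :
    A.det.re ≤ B.det.re := by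
  have := md_mono (X := fun _ => A) (Y := fun _ => B) (fun _ => hA) fun _ => h
  rw [md_const, md_const] at this
  exact le_of_mul_le_mul_left this (by positivity)

variable {n : ℕ} {Γ E : Type} [Group Γ] [TopologicalSpace E] [MulAction Γ E] {C : Cov n Γ E}
  {γ : Γ} {a : C.I} {z : Cm n}

theorem sp_rho (hz : z ∈ C.B 4 a) : SP (C.ρ a) z := ⟨C.ρ_sm a z hz, (C.ρ_pos a z hz).posSemidef⟩

variable (C) in
theorem rho_bd : ∃ M : ℝ, 0 ≤ M ∧ ∀ a, ∀ z ∈ C.cB 3 a, |C.ρ a z| ≤ M := by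
  have h : ∀ a, ∃ M : ℝ, ∀ z ∈ C.cB 3 a, |C.ρ a z| ≤ M := fun a =>
    (C.isCompact_cB 3 a).exists_bound_of_continuousOn fun z hz =>
      (sp_rho (C.cB_sub_B (by norm_num) a hz)).cont.continuousWithinAt
  choose M hM using h
  refine ⟨∑ a, |M a|, Finset.sum_nonneg fun _ _ => abs_nonneg _, fun a z hz => (hM a z hz).trans
    ((le_abs_self _).trans (Finset.single_le_sum (f := fun a => |M a|) (fun _ _ => abs_nonneg _)
      (Finset.mem_univ a)))⟩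

/-- smooth hermitian forms are dominated by the Kähler form -/
theorem rho_dom (a : C.I) {K : Set (Cm n)} (hK : IsCompact K) (hKB : K ⊆ C.B 4 a)
    {A : Cm n → Mx n} (hA : ContinuousOn A K) (h1 : ∀ z ∈ K, (A z).IsHermitian) :
    ∃ c : ℝ, 1 ≤ c ∧ ∀ z ∈ K, ((c : ℂ) • cHess (C.ρ a) z - A z).PosSemidef :=
  exists_dom hK hA (fun z hz => (cont_cHess (C.ρ_sm a z (hKB hz))).continuousWithinAt) h1
    fun z hz => C.ρ_pos a z (hKB hz)

theorem sp_of_lpsh {P : Cm n → ℝ} {A c : ℝ} (hz : z ∈ C.B 4 a)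
    (h : LPsh (fun w => P w * exp (c + A * C.ρ a w)) (C.B 4 a)) (hs : ContDiffAt ℝ ∞ P z)
    (h0 : 0 < P z) : SP (fun w => A * C.ρ a w + log (P w)) z := by
  have h1 : ContDiffAt ℝ ∞ (fun w => c + A * C.ρ a w) z :=
    contDiffAt_const.add (contDiffAt_const.mul (C.ρ_sm a z hz))
  have h2 := hs.mul h1.exp
  have h3 : SP (fun w => log (P w * exp (c + A * C.ρ a w))) z :=
    ⟨h2.log (mul_pos h0 (exp_pos _)).ne', h.cHess_psd ((C.isOpen_B 4 a).mem_nhds hz)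
      (mul_pos h0 (exp_pos _)) (two h2)⟩
  refine (h3.sub_const c).congr ?_
  filter_upwards [hs.continuousAt.eventually (lt_mem_nhds h0)] with w hw
  rw [log_mul hw.ne' (exp_pos _).ne', log_exp]
  ring

theorem F_pt (D : LD C) (j : ℕ) (γ : Γ) (a : C.I) (z : Cm n) :
    D.F j (C.pt γ a z) = D.F j (C.pt 1 a z) := by rw [C.pt_eq γ, D.F_inv]

theorem spF (D : LD C) (j : ℕ) (hz : z ∈ C.B 4 a) (h : 0 < D.F j (C.pt γ a z)) :
    SP (fun w => D.A * C.ρ a w + log (D.F j (C.pt γ a w))) z := by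
  simp only [F_pt D j γ] at h ⊢
  exact sp_of_lpsh (c := 0) hz (by simpa using D.F_psh j a) (D.F_sm j a z hz h) h

theorem spW (D : LD C) (l j : ℕ) (x : E) (hz : z ∈ C.B 4 a) (h : 0 < D.W l j x (C.pt γ a z)) :
    SP (fun w => D.A * C.ρ a w + log (D.W l j x (C.pt γ a w))) z := by
  have hs := D.W_sm l j x γ a z hz h
  obtain ⟨g, b, z₀, hz₀, rfl⟩ := C.exists_pt x
  have e : ∀ w, D.W l j (C.pt g b z₀) (C.pt γ a w) =
      D.W l j (C.pt 1 b z₀) (C.pt (g⁻¹ * γ) a w) := fun w => by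
    rw [← D.W_inv l j g⁻¹, C.smul_pt, C.smul_pt, inv_mul_cancel]
  refine sp_of_lpsh (c := D.A * C.ρ b z₀) hz ?_ hs h
  simp only [e]
  exact (D.W_psh l j (g⁻¹ * γ) b a).right (C.B_mono (by norm_num) b hz₀)

theorem sp_psh {A : ℝ} {g : E → ℝ} (hg : C.SmPsh A g) (γ : Γ) (hz : z ∈ C.B 4 a) :
    SP (fun w => A * C.ρ a w + g (C.pt γ a w)) z := by
  refine ⟨(contDiffAt_const.mul (C.ρ_sm a z hz)).add (hg.sm _ γ a z hz rfl), ?_⟩
  have e : ∀ w, g (C.pt γ a w) = g (C.pt 1 a w) := fun w => by rw [C.pt_eq γ, hg.inv]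
  simp only [e]
  exact hg.psd a z hz

theorem log_F_le (D : LD C) (j : ℕ) (y : E) : log (D.F j y) ≤ 0 :=
  log_nonpos (D.F_nonneg j y) (D.F_le j y)

theorem log_le_tr {D : LD C} {j : ℕ} {T : ℝ} {g : E → ℝ} (h : D.Tr j T g) {y : E}
    (hy : 0 < D.F j y) : log (D.F j y) ≤ g y + 2 := by
  rcases lt_or_ge (exp (-T)) (D.F j y) with h1 | h1
  · linarith [h.eq y h1]
  · linarith [h.ge y, (log_le_iff_le_exp hy).2 h1]

theorem tr_ev {D : LD C} {j : ℕ} {T : ℝ} {g : E → ℝ} (h : D.Tr j T g) {y : E} (hy : -T < g y) :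
    exp (-T) < D.F j y ∧ g =ᶠ[𝓝 y] fun y => log (D.F j y) := by
  have h1 : exp (-T) < D.F j y := lt_of_not_ge fun h' => (h.le y h').not_gt hy
  exact ⟨h1, ((D.F_cont j).continuousAt.eventually (lt_mem_nhds h1)).mono h.eq⟩

variable {D : LD C} {L : Lim D} {Z : ZD L}

theorem W_zero {l : ℕ} {p : E × E} (h : p ∈ Z.Z l) : L.W l p.1 p.2 = 0 := by
  obtain ⟨x, y⟩ := p
  obtain ⟨K, -, hK⟩ := S.bound₂ Z l
  obtain ⟨γ₁, a, z₁, h₁, rfl⟩ := C.exists_pt x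
  obtain ⟨γ₂, b, z₂, h₂, rfl⟩ := C.exists_pt y
  have := hK γ₁ γ₂ a b z₁ z₂ z₁ z₂ 0 (C.B_mono (by norm_num) a h₁) (C.B_mono (by norm_num) b h₂) h
    (C.B_mono (by norm_num) a h₁) (C.B_mono (by norm_num) b h₂) (by simp) (by simp)
  rw [zero_rpow (Z.c'_pos l).ne', mul_zero] at this
  exact le_antisymm this (L.W_nonneg _ _ _)

/-- the lemma of Hartogs on a compact part of `Z` -/
theorem W_small (l : ℕ) {K : Set (E × E)} (hK : IsCompact K) (h : K ⊆ Z.Z l) {θ : ℝ} (hθ : 0 < θ) :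
    ∀ᶠ j in atTop, ∀ p ∈ K, D.W l j p.1 p.2 < θ :=
  hartogs_of_rat (w := fun _ => θ) hK (fun p _ => (L.W_lim l).rat p) continuousOn_const
    fun p hp => (W_zero (h hp)).trans_lt hθ

theorem exists_th (Φ : FD Z) (a : C.I) : ∃ h, Φ.Th a h := by
  obtain ⟨h, h1, ⟨z₀, hz₀, h2⟩, h3⟩ := Φ.thin a
  obtain ⟨M, hM⟩ := (C.isCompact_cB (7 / 4) a).exists_bound_of_continuousOn
    (h1.continuousOn.mono (C.cB_sub_B (by norm_num) a))
  have h0 : (0 : ℝ) < |M| + 1 := by positivity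
  have h0' : ((|M| + 1 : ℝ) : ℂ) ≠ 0 := Complex.ofReal_ne_zero.2 h0.ne'
  refine ⟨fun z => h z / ((|M| + 1 : ℝ) : ℂ), fun z hz => (h1 z hz).div analyticAt_const h0',
    ⟨z₀, hz₀, div_ne_zero h2 h0'⟩, fun z hz => ?_, fun z hz e => h3 z hz fun e' => e ?_⟩
  · rw [norm_div, Complex.norm_real, Real.norm_of_nonneg h0.le, div_le_one h0]
    linarith [hM z (C.B_sub_cB _ a hz), le_abs_self M]
  · rw [e', zero_div]

theorem th_ae {Φ : FD Z} {h : Cm n → ℂ} (hh : Φ.Th a h) : ∀ᵐ z, z ∈ C.B 2 a → h z ≠ 0 :=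
  ae_ne_zero volume (C.isOpen_B 2 a) (C.preconn_B 2 a) hh.an hh.ne

variable {Φ : FD Z} {N : NC Z Φ.d Φ.q Φ.l₁} (T : TD Φ N)

/-- the slice in the chart of `N` -/
def cs (t : Cm Φ.q) : Cm n := C.co N.g N.a (T.sg t)

variable {T} {t : Cm Φ.q} {y : E}

theorem sg_src (ht : t ∈ closedBall T.t₀ T.R) : T.sg t ∈ N.Ψ.source :=
  N.Ψ.map_target (N.tgt ▸ T.sub t ht)

theorem sg_snd (ht : t ∈ closedBall T.t₀ T.R) : (N.Ψ (T.sg t)).2 = t :=
  congrArg Prod.snd (N.Ψ.right_inv (N.tgt ▸ T.sub t ht))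

theorem sg_cont (ht : t ∈ closedBall T.t₀ T.R) : ContinuousAt T.sg t :=
  (N.Ψ.continuousAt_symm (N.tgt ▸ T.sub t ht)).comp (f := fun t => (T.a₀, t)) (by fun_prop)

theorem cs_mem (ht : t ∈ closedBall T.t₀ T.R) : cs T t ∈ C.B 2 N.a := (H.inch (sg_src ht)).1

theorem pt_cs (ht : t ∈ closedBall T.t₀ T.R) : C.pt N.g N.a (cs T t) = T.sg t :=
  (H.inch (sg_src ht)).2

theorem cs_an (ht : t ∈ closedBall T.t₀ T.R) : AnalyticAt ℂ (cs T) t :=
  (N.hol' _ (T.sub t ht)).comp (f := fun t => (T.a₀, t)) (analyticAt_const.prod analyticAt_id)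

theorem s_mem (hy : y ∈ T.Ω) : T.s y ∈ closedBall T.t₀ T.R := ball_subset_closedBall (T.mem y hy).1

theorem s_cont (hy : y ∈ T.Ω) : ContinuousAt T.s y := Cov.HolOn.continuousAt C T.hol hy

theorem ev_mem (hz : z ∈ C.B 4 a) (hy : C.pt γ a z ∈ T.Ω) : ∀ᶠ w in 𝓝 z, C.pt γ a w ∈ T.Ω :=
  (C.continuousAt_pt hz γ).eventually (T.opn.mem_nhds hy)

/-- the potential on the slice, pulled back to the tube -/
theorem spΦ (jb : JB) (j : ℕ) (hz : z ∈ C.B 4 a) (hy : C.pt γ a z ∈ T.Ω)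
    (h : 0 < D.F j (T.sg (T.s (C.pt γ a z)))) :
    SP (fun w => D.A * C.ρ N.a (cs T (T.s (C.pt γ a w))) +
      log (D.F j (T.sg (T.s (C.pt γ a w))))) z := by
  have h1 := spF (γ := N.g) D j (C.B_mono (by norm_num) _ (cs_mem (s_mem hy)))
    ((pt_cs (s_mem hy)).symm ▸ h)
  refine (SP.comp jb (s := fun w => cs T (T.s (C.pt γ a w))) h1
    ((cs_an (s_mem hy)).comp (f := fun w => T.s (C.pt γ a w)) (T.hol γ a z hz hy))).congr ?_
  filter_upwards [ev_mem hz hy] with w hw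
  rw [pt_cs (s_mem hw)]

/-- the part of the closed tube in a chart, away from the bad set -/
def cT (T : TD Φ N) (h : Cm n → ℂ) (γ : Γ) (a : C.I) (k η r : ℝ) : Set (Cm n) :=
  {z ∈ C.cB k a | η ≤ ‖h z‖ ∧ C.pt γ a z ∈ T.Ω ∧ ‖T.s (C.pt γ a z) - T.t₀‖ ≤ r}

theorem th_compact {h : Cm n → ℂ} (hh : Φ.Th a h) {k η : ℝ} (hk : k < 2) (hη : 0 < η) (γ : Γ) :
    IsCompact {z ∈ C.cB k a | η ≤ ‖h z‖} ∧ C.pt γ a '' {z ∈ C.cB k a | η ≤ ‖h z‖} ⊆ Φ.En := by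
  refine ⟨(C.isCompact_cB k a).of_isClosed_subset ?_ (sep_subset _ _), ?_⟩
  · exact (hh.an.continuousOn.mono (C.cB_sub_B hk a)).norm.preimage_isClosed_of_isClosed
      isClosed_closedBall (isClosed_Ici (a := η))
  · rintro _ ⟨z, hz, rfl⟩
    rw [C.pt_eq]
    exact Φ.inv γ _ (hh.en z (C.cB_sub_B hk a hz.1) (norm_pos_iff.1 (hη.trans_le hz.2)))

theorem cT_compact {h : Cm n → ℂ} (hh : Φ.Th a h) {k η r : ℝ} (hk : k < 2) (hη : 0 < η)
    (hr : r < T.R) (γ : Γ) : IsCompact (cT T h γ a k η r) := by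
  obtain ⟨h1, h2⟩ := th_compact hh hk hη γ
  have hB : ∀ z ∈ C.cB k a, z ∈ C.B 4 a := fun z hz => C.cB_sub_B (by linarith) a hz
  have h3 := T.clos _ (C.isCompact_image_pt γ h1 fun z hz => hB z hz.1) h2 r hr
  have h4 := h3.image_of_continuousOn (f := C.co γ a) (by
    rintro _ ⟨⟨z, hz, rfl⟩, -⟩
    exact (C.continuousAt_co (hB z hz.1) γ).continuousWithinAt)
  refine (congrArg IsCompact ?_).mp h4
  ext z
  constructor
  · rintro ⟨_, ⟨⟨w, hw, rfl⟩, h5⟩, rfl⟩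
    rw [C.co_pt (hB w hw.1)]
    exact ⟨hw.1, hw.2, h5⟩
  · rintro ⟨h5, h6, h7⟩
    exact ⟨_, ⟨⟨z, ⟨h5, h6⟩, rfl⟩, h7⟩, C.co_pt (hB z h5) γ⟩

end Vale.Agent.P284Z.K
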