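import Vale.Agent.P284Z.K.Op
import Mathlib.Geometry.Manifold.PartitionOfUnity

/-!
# P284Z, block K: integration by parts along the leaves
-/

set_option linter.all false

open scoped ContDiff Topology ComplexOrder ENNReal
open Filter Set Function Metric MeasureTheory

noncomputable section

namespace Vale.Agent.P284Z.K

open Vale.Agent.P272.K J Real

variable {n : ℕ} {Γ E : Type} [Group Γ] [Countable Γ] [TopologicalSpace E] [T2Space E]
  [MulAction Γ E] [MeasurableSpace E] [BorelSpace E] {C : Cov n Γ E} {D : LD C} {L : Lim D}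
  {Z : ZD L} {Φ : FD Z} {N : NC Z Φ.d Φ.q Φ.l₁}

namespace A6

/-- dominated convergence for the powers of a cut-off function -/
theorem lim_pow {μ : Measure E} {Ω U : Set E} {u φ : E → ℝ} (hU : MeasurableSet U)
    (h0 : ∀ y, u y ∈ Icc (0 : ℝ) 1) (h1 : ∀ y, y ∈ U ↔ y ∈ Ω ∧ u y = 1)
    (h2 : ∀ i : ℕ, Integrable (Ω.indicator fun y => u y ^ (i + 1) * φ y) μ) :
    Integrable φ (μ.restrict U) ∧ Tendsto (fun i : ℕ => ∫ y, Ω.indicator
      (fun y => u y ^ (i + 1) * φ y) y ∂μ) atTop (𝓝 (∫ y in U, φ y ∂μ)) := by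
  refine ⟨IntegrableOn.congr_fun (h2 0).integrableOn (fun y hy => ?_) hU, ?_⟩
  · rw [indicator_of_mem ((h1 y).1 hy).1, ((h1 y).1 hy).2, one_pow, one_mul]
  rw [← integral_indicator hU]
  refine tendsto_integral_of_dominated_convergence _ (fun i => (h2 i).1) (h2 0).norm
    (fun i => ae_of_all _ fun y => ?_) (ae_of_all _ fun y => ?_)
  · by_cases hy : y ∈ Ω
    · rw [indicator_of_mem hy, indicator_of_mem hy, norm_mul, norm_mul, norm_pow, norm_pow,
        Real.norm_of_nonneg (h0 y).1]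
      exact mul_le_mul_of_nonneg_right
        (pow_le_pow_of_le_one (h0 y).1 (h0 y).2 (Nat.le_add_left _ _)) (norm_nonneg _)
    · rw [indicator_of_notMem hy, indicator_of_notMem hy]
  · by_cases hy : y ∈ Ω
    · simp only [indicator_of_mem hy]
      by_cases e : u y = 1
      · simp [e, indicator_of_mem ((h1 y).2 ⟨hy, e⟩)]
      · rw [indicator_of_notMem fun o => e ((h1 y).1 o).2, ← zero_mul (φ y)]
        exact ((tendsto_pow_atTop_nhds_zero_of_lt_one (h0 y).1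
          (lt_of_le_of_ne (h0 y).2 e)).comp (tendsto_add_atTop_nat 1)).mul_const _
    · simp [indicator_of_notMem hy, indicator_of_notMem fun o => hy ((h1 y).1 o).1]

variable (jg : JG C) (T : TD Φ N) (e : Fin Φ.d ⊕ Fin Φ.q ≃ Fin n)

theorem XT_at (γ : Γ) (a : C.I) (z : Cm n) :
    (fun i => XT T e i γ a z) = blk e (cHess (C.ρ a) z) (C.pbs T.s γ a z) := by
  funext i
  unfold XT blk
  rcases e.symm i with l | b
  · exact congrArg (cHess · z) (funext fun w => by simp)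
  · rfl

theorem tube_meas {S : Set (Cm Φ.q)} (hS : IsClosed S) : MeasurableSet {y ∈ T.Ω | T.s y ∈ S} := by
  have h := ContinuousOn.isOpen_inter_preimage (fun y hy => (s_cont (T := T) hy).continuousWithinAt)
    T.opn hS.isOpen_compl
  refine (congrArg MeasurableSet (Set.ext fun y => ?_)).mp (T.opn.measurableSet.diff h.measurableSet)
  simp only [mem_diff, mem_inter_iff, mem_preimage, mem_compl_iff, mem_setOf_eq]
  tauto

theorem van (ja : JA) (jb : JB) (l₀ : Fin Φ.d) {u : Cm Φ.q → ℝ} (hu : Differentiable ℝ u)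
    (f : E → ℝ) {y : E} (hy : y ∈ T.Ω) :
    Xi (XT T e) (e (.inl l₀)) (C.gg (fun x => u (T.s x)) f) y = 0 := by
  have h1 := T.hol _ _ _ (ch_mem (C := C) y) ((ch_pt (C := C) y).symm ▸ hy)
  have h2 := (jb.dz_comp n _ _ (fun t => (u t : ℂ)) _ h1
    (Complex.ofRealCLM.differentiableAt.comp _ (hu _))).1
  have h3 := fun x => (ja.vanish n _ _ (fun i => fa (XT T e i) y) (fun b => e (.inr b)) (e (.inl l₀))
    (e.injective.comp Sum.inr_injective) (fun b o => Sum.inr_ne_inl (e.injective o))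
    (fun b => ⟨1, by simp only [XT, blk, Equiv.symm_apply_apply, Sum.elim_inr]; rfl⟩) x
    (P284.H650.dzbv (lc C f y) (C.ch₀ y).2.2)).1
  have h4 := h2 ▸ h3 _
  rw [Xi_eq]
  exact mul_eq_zero_of_right _ (congrArg Complex.re h4)

include jg

theorem cf {O : Set E} (hO : IsOpen O) (h : O ⊆ T.Ω) (i : Fin n) : C.CFOn (XT T e i) O := by
  unfold XT blk
  rcases e.symm i with l | b
  · exact jg.cf_om 1 0 O hO fun y _ => Cov.SmAt.const 0 y
  · exact jg.cf_pbs _ _ O hO fun γ a z hz hy => T.hol γ a z hz (h hy)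

theorem cont (k : Fin n) {H : C.Fm} (hH : C.CFOn H T.Ω) : ContinuousOn (Xi (XT T e) k H) T.Ω := by
  have h : ∀ i, C.CFOn (update (XT T e) k H i) T.Ω := fun i => by
    by_cases hi : i = k
    · rwa [hi, update_self]
    · rw [update_of_ne hi]
      exact cf jg T e T.opn Subset.rfl i
  exact Complex.continuous_re.comp_continuousOn (jg.mD_cont _ _ T.opn (fun i => (h i).1)
    fun i γ a z hz => (continuousAt_pi.2 fun j => continuousAt_pi.2 fun l =>
      (((h i).2 γ a).sm z hz j l).continuousAt).continuousWithinAt)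

theorem int {μ : Measure E} (hμ : C.Vol μ) (l₀ : Fin Φ.d) {S : Set (Cm Φ.q)} (hS : IsClosed S)
    (hB : T.Bdd S) (hF : T.Fv S)
    (hp : ∀ y ∈ T.Ω, 0 ≤ Xi (XT T e) (e (.inl l₀)) (C.om 1 0) y) :
    Integrable (Xi (XT T e) (e (.inl l₀)) (C.om 1 0)) (μ.restrict {y ∈ T.Ω | T.s y ∈ S}) := by
  classical
  have hU := tube_meas T hS
  have h1 := (cont jg T e (e (.inl l₀))
    (jg.cf_om 1 0 _ T.opn fun y _ => Cov.SmAt.const 0 y)).mono (sep_subset _ fun y => T.s y ∈ S)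
  refine ⟨(h1.aemeasurable hU).aestronglyMeasurable, (hasFiniteIntegral_iff_ofReal
    ((ae_restrict_mem hU).mono fun y hy => hp y hy.1)).2 ?_⟩
  rw [← lintegral_indicator hU]
  have h0 := ContinuousOn.measurable_piecewise (g := 0)
    (ENNReal.continuous_ofReal.comp_continuousOn' h1) continuousOn_const hU
  rw [piecewise_eq_indicator] at h0
  refine (jg.le_sum μ hμ _ h0).trans_lt ?_
  obtain ⟨G, hG, hB⟩ := hB
  have h2 : ∀ γ a, ∫⁻ z in C.B 1 a, {y ∈ T.Ω | T.s y ∈ S}.indicator (fun y => ENNReal.ofReal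
      (Xi (XT T e) (e (.inl l₀)) (C.om 1 0) y)) (C.pt γ a z) *
        ENNReal.ofReal (cHess (C.ρ a) z).det.re ≤ ∫⁻ z in T.Tub S γ a,
          ENNReal.ofReal (md (blk e (cHess (C.ρ a) z) (C.pbs T.s γ a z))) := fun γ a => by
    refine le_trans ?_ ((setLIntegral_le_lintegral (C.B 1 a) _).trans (lintegral_indicator_le _ _))
    refine setLIntegral_mono' (C.isOpen_B 1 a).measurableSet fun z hz => ?_
    by_cases hy : C.pt γ a z ∈ {y ∈ T.Ω | T.s y ∈ S}
    · obtain ⟨h3, h4⟩ := det_real (C.ρ_pos a z (C.B14 hz))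
      have h5 : update (XT T e) (e (.inl l₀)) (C.om 1 0) = XT T e :=
        update_eq_self_iff.2 (by simp [XT, blk])
      rw [indicator_of_mem hy, indicator_of_mem (show z ∈ T.Tub S γ a from ⟨hz, hy⟩),
        ← ENNReal.ofReal_mul' h3.le, Xi, h5, jg.mD_pt _ γ a z (C.B14 hz) fun i =>
          (cf jg T e T.opn Subset.rfl i).1 _ hy.1, XT_at, h4, Complex.div_ofReal_re,
        Complex.ofReal_re, div_mul_cancel₀ _ h3.ne', md]
    · rw [indicator_of_notMem hy, zero_mul]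
      exact zero_le
  refine (ENNReal.tsum_le_tsum fun γ => Finset.sum_le_sum fun a _ => h2 γ a).trans_lt ?_
  rw [tsum_eq_sum (s := hG.toFinset) fun γ hγ => Finset.sum_eq_zero fun a _ =>
    setLIntegral_measure_zero _ _ (hB γ (by simpa using hγ) a)]
  exact ENNReal.sum_lt_top.2 fun γ _ => ENNReal.sum_lt_top.2 fun a _ => hF e γ a

theorem bdd {μ : Measure E} (hμ : C.Vol μ) {S : Set (Cm Φ.q)} (hS : IsClosed S) (hB : T.Bdd S) :
    ∃ K, IsCompact K ∧ ∀ᵐ y ∂μ.restrict {y ∈ T.Ω | T.s y ∈ S}, y ∈ T.Ω ∧ y ∈ K := by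
  obtain ⟨G, hG, hB⟩ := hB
  refine ⟨⋃ γ ∈ G, ⋃ a, C.pt γ a '' C.cB 1 a, hG.isCompact_biUnion fun γ _ => isCompact_iUnion
    fun a => C.isCompact_image_pt γ (C.isCompact_cB 1 a) (C.cB_sub_B (by norm_num) a),
    (ae_restrict_iff' (tube_meas T hS)).2 (ae_iff.2 ((jg.ae μ hμ _).2 fun γ a => ?_))⟩
  refine measure_eq_zero_iff_ae_notMem.2 ((C.ae_of_B1
    (Q := fun y => y ∈ {y ∈ T.Ω | T.s y ∈ S} →
      y ∈ T.Ω ∧ y ∈ ⋃ γ ∈ G, ⋃ a, C.pt γ a '' C.cB 1 a) (fun γ a => ?_) γ a).mono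
    fun z o hz => hz.2 (o hz.1))
  by_cases hγ : γ ∈ G
  · exact ae_of_all _ fun z hz hy =>
      ⟨hy.1, mem_biUnion hγ (mem_iUnion.2 ⟨a, z, C.B_sub_cB 1 a hz, rfl⟩)⟩
  · exact (measure_eq_zero_iff_ae_notMem.1 (hB γ hγ a)).mono fun z o hz hy => (o ⟨hz, hy⟩).elim

end A6

open A6

/-- K6a -/
theorem lf_of (ja : JA) (jb : JB) (jg : JG C) {μ : Measure E} (hμ : C.Vol μ) (T : TD Φ N)
    (e : Fin Φ.d ⊕ Fin Φ.q ≃ Fin n) (l₀ : Fin Φ.d) {S : Set (Cm Φ.q)} (hS : IsCompact S)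
    (hS' : S ⊆ ball T.t₀ T.R) (hB : T.Bdd S) (hF : T.Fv S) :
    LF T.Ω Φ.En (μ.restrict {y ∈ T.Ω | T.s y ∈ S}) (XT T e) (e (.inl l₀)) := by
  have hU := tube_meas T hS.isClosed
  have hp : ∀ i γ a, ∀ z ∈ C.B 4 a, (XT T e i γ a z).PosSemidef := fun i γ a z hz => by
    rw [congrFun (XT_at T e γ a z) i, blk]
    rcases e.symm i with l | b
    exacts [(sp_rho hz).psd, pb_psd _ Matrix.PosSemidef.one]
  refine ⟨T.opn, fun i _ γ a z hz _ => hp i γ a z hz, bdd jg T hμ hS.isClosed hB,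
    fun A hA => le_antisymm ((Measure.restrict_le_self A).trans ((jg.ae μ hμ A).2 hA).le) zero_le,
    int jg T e hμ l₀ hS.isClosed hB hF fun y _ => w_nonneg fun i _ => hp i _ _ _ (ch_mem y),
    fun A f hf => ((cont jg T e _ (jg.cf_om A f _ T.opn hf)).mono (sep_subset _ _)).aemeasurable hU,
    fun O K f h hO hK hKO hs h0 => ?_⟩
  obtain ⟨r, hr, hSr⟩ := exists_lt_subset_ball hS.isClosed hS'
  obtain ⟨η, h1, h2, h3, h4⟩ := exists_contMDiff_support_eq_eq_one_iff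
    (modelWithCornersSelf ℝ (Cm Φ.q)) isOpen_ball hS.isClosed hSr
  rw [contMDiff_iff_contDiff] at h1
  have hK' := T.clos K hK (fun y hy => (hKO hy).2) r hr
  have h5 : ∀ y ∉ K ∩ {y ∈ T.Ω | ‖T.s y - T.t₀‖ ≤ r}, y ∈ T.Ω → y ∈ K → η (T.s y) = 0 :=
    fun y hy o o' => notMem_support.1 (h3 ▸ fun o'' => hy ⟨o', o, (mem_ball_iff_norm.1 o'').le⟩)
  have h6 : ∀ i : ℕ, ∀ y ∈ T.Ω, C.SmAt (fun x => η (T.s x) ^ (i + 1)) y := fun i y hy γ a z hz o =>
    (h1.contDiffAt.comp z (an_sm (T.hol γ a z hz (o ▸ hy)))).pow _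
  have h7 : ∀ i : ℕ, ∀ y ∈ T.Ω, (T.Ω.indicator fun x => η (T.s x) ^ (i + 1) * h x) =ᶠ[𝓝 y]
      fun x => η (T.s x) ^ (i + 1) * h x := fun i y hy =>
    (T.opn.eventually_mem hy).mono fun x hx => indicator_of_mem hx _
  have h8 : ∀ i : ℕ, ∀ y ∉ K ∩ {y ∈ T.Ω | ‖T.s y - T.t₀‖ ≤ r},
      T.Ω.indicator (fun x => η (T.s x) ^ (i + 1) * h x) y = 0 := fun i y hy =>
    indicator_apply_eq_zero.2 fun o => by
      by_cases o' : y ∈ K
      · rw [h5 y hy o o', zero_pow i.succ_ne_zero, zero_mul]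
      · rw [h0 y o', mul_zero]
  have h9 := fun i : ℕ => jg.ibp μ hμ (O ∩ T.Ω) _ (XT T e) (e (.inl l₀)) f _ (hO.inter T.opn) hK'
    (fun y hy => ⟨(hKO hy.1).1, hy.2.1⟩) (fun i _ => cf jg T e (hO.inter T.opn) inter_subset_right i)
    (fun y hy => ⟨(hs y hy).1, ((h6 i y hy.2).mul (hs y hy).2).congr (h7 i y hy.2)⟩) (h8 i)
  have e1 : ∀ (i : ℕ) (φ : E → ℝ), (fun y => T.Ω.indicator (fun x => η (T.s x) ^ (i + 1) * h x) y *
      φ y) = T.Ω.indicator fun y => η (T.s y) ^ (i + 1) * (h y * φ y) := fun i φ => funext fun y => by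
    rw [← indicator_mul_left]
    simp only [mul_assoc]
  have e2 : ∀ i : ℕ, Xi (XT T e) (e (.inl l₀))
      (C.gg (T.Ω.indicator fun x => η (T.s x) ^ (i + 1) * h x) f) = T.Ω.indicator fun y =>
        η (T.s y) ^ (i + 1) * Xi (XT T e) (e (.inl l₀)) (C.gg h f) y := fun i => funext fun y => by
    by_cases hy : y ∈ K ∩ {y ∈ T.Ω | ‖T.s y - T.t₀‖ ≤ r}
    · rw [indicator_of_mem hy.2.1, Q_congr (h7 i y hy.2.1), Q_mul (h6 i y hy.2.1)
        (hs y ⟨(hKO hy.1).1, hy.2.1⟩).2, van T e ja jb l₀ (u := fun t => η t ^ (i + 1))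
          ((h1.differentiable (by simp)).pow _) f hy.2.1, mul_zero, add_zero]
    · rw [Q_congr (g := fun _ => 0) ((hK'.isClosed.isOpen_compl.eventually_mem hy).mono (h8 i)),
        Q_const]
      refine (indicator_apply_eq_zero.2 fun o => ?_).symm
      by_cases o' : y ∈ K
      · rw [h5 y hy o o', zero_pow i.succ_ne_zero, zero_mul]
      · rw [Q_congr (g := fun _ => 0) ((hK.isClosed.isOpen_compl.eventually_mem o').mono h0),
          Q_const, mul_zero]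
  have k0 : ∀ y, η (T.s y) ∈ Icc (0 : ℝ) 1 := fun y => h2 ⟨_, rfl⟩
  have k1 : ∀ y, y ∈ {y ∈ T.Ω | T.s y ∈ S} ↔ y ∈ T.Ω ∧ η (T.s y) = 1 := fun y =>
    and_congr_right fun _ => h4 _
  obtain ⟨k2, k3⟩ := lim_pow hU k0 k1 fun i => e1 i _ ▸ (h9 i).1
  obtain ⟨k4, k5⟩ := lim_pow hU k0 k1 fun i => (integrable_congr (.of_eq (e2 i))).1 (h9 i).2.1
  refine ⟨k2, k4, tendsto_nhds_unique k3 (k5.neg.congr fun i => ?_)⟩
  rw [← e2, ← e1]
  exact (h9 i).2.2.symm

end Vale.Agent.P284Z.K
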