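import Vale.Agent.P284Z.K.Op

/-!
# P284Z, block K: cut-off functions with small energy
-/

set_option linter.all false

open scoped ContDiff Topology ComplexOrder ENNReal
open Filter Set Function Metric MeasureTheory

noncomputable section

namespace Vale.Agent.P284Z.K

open Vale.Agent.P272.K J Real

/-- `1` on `[-(i+1), ∞)`, `0` on `(-∞, -2 (i+1)]` -/
def ct (i : ℕ) (x : ℝ) : ℝ := smoothTransition (x / (i + 1) + 2)

theorem ct_sm (i : ℕ) : ContDiff ℝ ∞ (ct i) :=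
  smoothTransition.contDiff.comp ((contDiff_id.div_const _).add contDiff_const)

theorem ct_one {i : ℕ} {x : ℝ} (h : -(i + 1 : ℝ) ≤ x) : ct i x = 1 :=
  smoothTransition.one_of_one_le (by
    linarith [(le_div_iff₀ (a := -1) (b := x) i.cast_add_one_pos).2 (by linarith)])

theorem ct_zero {i : ℕ} {x : ℝ} (h : x ≤ -(2 * (i + 1 : ℝ))) : ct i x = 0 :=
  smoothTransition.zero_of_nonpos (by
    linarith [(div_le_iff₀ (a := -2) (b := x) i.cast_add_one_pos).2 (by linarith)])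

theorem ct_der : ∃ B : ℝ, 0 ≤ B ∧ ∀ i x, 0 ≤ deriv (ct i) x ∧
    deriv (ct i) x ^ 2 ≤ B * (1 / (i + 1)) * ct (2 * i + 1) x := by
  have hs : ContDiff ℝ 1 smoothTransition := smoothTransition.contDiff
  obtain ⟨B, hB⟩ := (isCompact_Icc (a := (0 : ℝ)) (b := 1)).bddAbove_image
    ((hs.continuous_deriv le_rfl).pow 2).continuousOn
  have h1 : ∀ t, deriv smoothTransition t ^ 2 ≤ |B| * smoothTransition (t / 2 + 1) := fun t => by
    by_cases ht : t ∈ Icc (0 : ℝ) 1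
    · rw [smoothTransition.one_of_one_le (by linarith [ht.1]), mul_one]
      exact (hB ⟨t, ht, rfl⟩).trans (le_abs_self B)
    · have : deriv smoothTransition t = 0 := by
        rcases not_and_or.1 ht with h | h
        · exact (EventuallyEq.deriv_eq ((gt_mem_nhds (not_le.1 h)).mono fun _ h =>
            smoothTransition.zero_of_nonpos h.le)).trans (deriv_const _ _)
        · exact (EventuallyEq.deriv_eq ((lt_mem_nhds (not_le.1 h)).mono fun _ h =>
            smoothTransition.one_of_one_le h.le)).trans (deriv_const _ _)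
      rw [this, zero_pow two_ne_zero]
      exact mul_nonneg (abs_nonneg B) (smoothTransition.nonneg _)
  refine ⟨|B|, abs_nonneg B, fun i x => ?_⟩
  have h2 : deriv (ct i) x = deriv smoothTransition (x / (i + 1) + 2) * (1 / (i + 1)) :=
    ((hs.differentiable one_ne_zero _).hasDerivAt.comp x
      (((hasDerivAt_id x).div_const _).add_const 2)).deriv
  have h3 : (0 : ℝ) ≤ 1 / (i + 1) := by positivity
  have h4 : (1 : ℝ) / (i + 1) ≤ 1 := (div_le_one i.cast_add_one_pos).2 (by simp)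
  have h5 : ct (2 * i + 1) x = smoothTransition ((x / (i + 1) + 2) / 2 + 1) := by
    rw [ct]
    congr 1
    push_cast
    field_simp
    ring
  rw [h2, h5, mul_pow, mul_right_comm]
  exact ⟨mul_nonneg smoothTransition.monotone.deriv_nonneg h3, mul_le_mul (h1 _) (by nlinarith)
    (sq_nonneg _) (mul_nonneg (abs_nonneg B) (smoothTransition.nonneg _))⟩

variable {n : ℕ} {Γ E : Type} [Group Γ] [Countable Γ] [TopologicalSpace E] [T2Space E]
  [MulAction Γ E] [MeasurableSpace E] [BorelSpace E] {C : Cov n Γ E} {D : LD C} {L : Lim D}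
  {Z : ZD L} {Ω En : Set E} {ν : Measure E} {X : Fin n → C.Fm} {k : Fin n} {f g : E → ℝ} {y : E}

theorem Q_mul_le (hp : Ps X k y) (hf : C.SmAt f y) (hg : C.SmAt g y) :
    Xi X k (C.gg (fun x => f x * g x) fun x => f x * g x) y ≤
      2 * (f y ^ 2 * Xi X k (C.gg g g) y) + 2 * (g y ^ 2 * Xi X k (C.gg f f) y) := by
  rw [Q_mul hf hg, Q_symm hp f, Q_symm hp g, Q_mul hf hg, Q_mul hf hg, Q_symm hp g f]
  linarith [Q_cs hp f g (g y) (f y)]

theorem Q_comp₂ (hp : Ps X k y) (hf : C.SmAt f y) {φ : ℝ → ℝ} (hφ : DifferentiableAt ℝ φ (f y)) :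
    Xi X k (C.gg (fun x => φ (f x)) fun x => φ (f x)) y =
      deriv φ (f y) ^ 2 * Xi X k (C.gg f f) y := by
  rw [Q_comp hf hφ, Q_symm hp, Q_comp hf hφ, sq, mul_assoc]

theorem sml_sum {ι : Type} (hp : ∀ᵐ y ∂ν, Ps X k y) (F : Finset ι) (u : ι → ℕ → E → ℝ)
    (hs : ∀ p i y, C.SmAt (u p i) y) (h : ∀ p, Sml ν X k (u p)) :
    Sml ν X k fun i y => 1 + ∑ p ∈ F, u p i y := by
  classical
  induction F using Finset.induction_on with
  | empty => exact ⟨0, fun _ => integrable_zero _ _ _, fun _ => ae_of_all _ fun _ => by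
      simp only [Finset.sum_empty, Q_const, Pi.zero_apply, le_refl],
      by simpa using tendsto_const_nhds⟩
  | insert p F hF ih =>
    obtain ⟨g, h1, h2, h3⟩ := ih
    obtain ⟨g', k1, k2, k3⟩ := h p
    simp only [Finset.sum_insert hF, add_left_comm (1 : ℝ)]
    refine ⟨fun i y => 2 * g' i y + 2 * g i y,
      fun i => ((k1 i).const_mul 2).add ((h1 i).const_mul 2), fun i => ?_, ?_⟩
    · filter_upwards [hp, h2 i, k2 i] with y e1 e2 e3
      linarith [Q_add_le e1 (hs p i y) ((Cov.SmAt.const 1 y).add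
        (Cov.SmAt.sum F fun p _ => hs p i y))]
    · simp only [fun i => integral_add ((k1 i).const_mul 2) ((h1 i).const_mul 2),
        integral_const_mul]
      simpa using (k3.const_mul 2).add (h3.const_mul 2)

/-- cutting off near the poles of `f` -/
theorem cut_one (hL : LF Ω En ν X k) {O : Set E} (hO : IsOpen O) {ψ : E → ℝ}
    (hψ : ∀ y, C.SmAt ψ y) (hf : ∀ y ∈ O, C.SmAt f y)
    (hQ : ∀ y ∈ O, Ps X k y → Xi X k (C.om 0 f) y = Xi X k (C.gg f f) y)
    (hK : ∀ c : ℝ, ∃ K, IsCompact K ∧ K ⊆ O ∩ En ∧ ∀ y ∈ O, ψ y ≠ 0 → -c ≤ f y → y ∈ K)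
    (hae : ∀ᵐ y ∂ν, y ∈ O ∨ ψ =ᶠ[𝓝 y] fun _ => 0) :
    ∃ τ : ℕ → E → ℝ, (∀ i y, τ i y ∈ Icc (0 : ℝ) 1) ∧ (∀ i y, C.SmAt (fun x => ψ x * τ i x) y) ∧
      (∀ i, ∃ K, IsCompact K ∧ K ⊆ En ∧ ∀ y ∉ K, ψ y * τ i y = 0) ∧
      (∀ᵐ y ∂ν, Tendsto (fun i => ψ y * τ i y) atTop (𝓝 (ψ y))) ∧
      Sml ν X k fun i y => ψ y * τ i y - ψ y := by
  obtain ⟨K₀, hK₀, h0⟩ := hL.bdd
  obtain ⟨c, hc, hd⟩ := Q_dom (X := X) (k := k) hK₀ hψ
  obtain ⟨B, hB, hB'⟩ := ct_der
  choose K k1 k2 k3 using fun i : ℕ => hK (2 * (i + 1))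
  let τ : ℕ → E → ℝ := fun i => O.indicator fun y => ct i (f y)
  have t0 : ∀ i, ∀ y ∈ O, τ i y = ct i (f y) := fun i y hy => indicator_of_mem hy _
  have t1 : ∀ i, ∀ y ∈ O, τ i =ᶠ[𝓝 y] fun y => ct i (f y) := fun i y hy =>
    (hO.eventually_mem hy).mono (t0 i)
  have t2 : ∀ i, ∀ y ∈ O, C.SmAt (τ i) y := fun i y hy =>
    ((hf y hy).comp (ct_sm i).contDiffAt).congr (t1 i y hy)
  have t3 : ∀ i y, τ i y ∈ Icc (0 : ℝ) 1 := fun i y =>
    ⟨indicator_nonneg (fun _ _ => smoothTransition.nonneg _) y,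
      indicator_apply_le' (fun _ => smoothTransition.le_one _) fun _ => zero_le_one⟩
  have t4 : ∀ i, ∀ y ∉ K i, ψ y * τ i y = 0 := fun i y hy => by
    by_cases h : y ∈ O
    · by_cases h' : ψ y = 0
      · rw [h', zero_mul]
      · rw [t0 i y h, ct_zero (not_le.1 fun e => hy (k3 i y h h' e)).le, mul_zero]
    · exact mul_eq_zero_of_right _ (indicator_of_notMem h _)
  have t5 : ∀ i, ∀ y ∉ O, (fun x => ψ x * τ i x) =ᶠ[𝓝 y] fun _ => 0 := fun i y hy =>
    ((k1 i).isClosed.isOpen_compl.eventually_mem fun h => hy (k2 i h).1).mono (t4 i)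
  have t6 : ∀ i y, C.SmAt (fun x => ψ x * τ i x) y := fun i y => by
    by_cases h : y ∈ O
    exacts [(hψ y).mul (t2 i y h), (Cov.SmAt.const 0 y).congr (t5 i y h)]
  have t7 : ∀ i, ∀ y ∈ O, ∀ g, Xi X k (C.gg (τ i) g) y = deriv (ct i) (f y) * Xi X k (C.gg f g) y :=
    fun i y hy g => (Q_congr (t1 i y hy) g).trans
      (Q_comp (hf y hy) ((ct_sm i).differentiable (by simp) _) g)
  have t8 : ∀ y ∈ O, ∀ᶠ i : ℕ in atTop, -(i + 1 : ℝ) ≤ f y := fun y _ =>
    (tendsto_natCast_atTop_atTop.eventually_ge_atTop (-f y)).mono fun i hi => by linarith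
  have hI := fun i => hL.ibp O (K i) f (fun x => ψ x * (ψ x * τ i x)) hO (k1 i) (k2 i)
    (fun y hy => ⟨hf y hy.1, (hψ y).mul (t6 i y)⟩) fun y hy => mul_eq_zero_of_right _ (t4 i y hy)
  have p0 : ∀ i y, Ps X k y → 0 ≤ ψ y * (ψ y * τ i y) * Xi X k (C.om 0 f) y := fun i y hp => by
    by_cases h : y ∈ O
    · rw [hQ y h hp, ← mul_assoc]
      exact mul_nonneg (mul_nonneg (mul_self_nonneg _) (t3 i y).1) (Q_nonneg hp f)
    · rw [show ψ y * τ i y = 0 from (t5 i y h).self_of_nhds, mul_zero, zero_mul]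
  have p1 : ∀ i, ∫ y, ψ y * (ψ y * τ i y) * Xi X k (C.om 0 f) y ∂ν ≤
      4 * c * ∫ y, Xi X k (C.om 1 0) y ∂ν := fun i => by
    obtain ⟨e1, e2, e3⟩ := hI i
    have e4 := integral_mono_ae e2.neg ((e1.const_mul (1 / 2)).add (hL.int.const_mul (2 * c))) (by
      filter_upwards [h0] with y hy
      have hp := hL.ps hy.1
      have e5 := mul_nonneg hc (w_nonneg hp)
      simp only [Pi.neg_apply, Pi.add_apply]
      by_cases h : y ∈ O
      · rw [Q_mul (hψ y) (t6 i y), Q_mul (hψ y) (t2 i y h), t7 i y h, hQ y h hp]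
        nlinarith [mul_le_mul_of_nonneg_left (Q_cs hp ψ f (-2) (ψ y)) (t3 i y).1,
          mul_nonneg (mul_self_nonneg (ψ y)) (mul_nonneg (hB' i (f y)).1 (Q_nonneg hp f)),
          mul_le_mul (t3 i y).2 (hd y hy.2 hp) (Q_nonneg hp ψ) zero_le_one]
      · rw [Q_congr (g := fun _ => 0) ((t5 i y h).mono fun x hx => mul_eq_zero_of_right _ hx),
          Q_const]
        linarith [p0 i y hp])
    simp only [Pi.neg_apply, Pi.add_apply] at e4
    rw [integral_neg, integral_add (e1.const_mul _) (hL.int.const_mul _), integral_const_mul,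
      integral_const_mul] at e4
    linarith
  let A : ℕ → Set E := fun i => O ∩ f ⁻¹' Iio (-(i + 1 : ℝ))
  have a1 : ∀ i, Integrable ((A i).indicator (Xi X k (C.om 1 0))) ν := fun i =>
    hL.int.indicator (ContinuousOn.isOpen_inter_preimage
      (fun y hy => (hf y hy).cont.continuousWithinAt) hO isOpen_Iio).measurableSet
  have a2 := tendsto_integral_of_dominated_convergence (f := fun _ => (0 : ℝ)) _ (fun i => (a1 i).1)
    hL.int.norm (fun i => ae_of_all _ (norm_indicator_le_norm_self _)) (ae_of_all _ fun y =>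
      tendsto_const_nhds.congr' (by
        by_cases h : y ∈ O
        · exact (t8 y h).mono fun i hi => (indicator_of_notMem (fun e => hi.not_gt e.2) _).symm
        · exact Eventually.of_forall fun i => (indicator_of_notMem (fun e => h e.1) _).symm))
  refine ⟨τ, t3, t6, fun i => ⟨K i, k1 i, fun y hy => (k2 i hy).2, t4 i⟩,
    hae.mono fun y hy => tendsto_const_nhds.congr' ?_,
    fun i y => 2 * (B * (1 / (i + 1))) * (ψ y * (ψ y * τ (2 * i + 1) y) * Xi X k (C.om 0 f) y) +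
      2 * c * (A i).indicator (Xi X k (C.om 1 0)) y,
    fun i => ((hI _).1.const_mul _).add ((a1 i).const_mul _), fun i => ?_, ?_⟩
  · rcases hy with h | h
    · exact (t8 y h).mono fun i hi => by simp only [t0 i y h, ct_one hi, mul_one]
    · exact Eventually.of_forall fun i => by simp only [h.self_of_nhds, zero_mul]
  · filter_upwards [h0, hae] with y hy hy'
    have hp := hL.ps hy.1
    have e1 : 0 ≤ (A i).indicator (Xi X k (C.om 1 0)) y := indicator_apply_nonneg fun _ => w_nonneg hp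
    rcases hy' with h | h
    · have e2 := Q_mul_le hp (hψ y) ((t2 i y h).sub (Cov.SmAt.const 1 y))
      have e3 : Xi X k (C.gg (fun x => τ i x - 1) fun x => τ i x - 1) y =
          deriv (ct i) (f y) ^ 2 * Xi X k (C.gg f f) y := by
        rw [Q_congr₂ hp (g := fun x => ct i (f x) - 1) ((t1 i y h).mono fun _ => congrArg (· - 1)),
          Q_comp₂ hp (hf y h) (φ := fun t => ct i t - 1)
            (((ct_sm i).differentiable (by simp) _).sub_const 1), deriv_sub_const_fun]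
      have e4 : (τ i y - 1) ^ 2 * Xi X k (C.gg ψ ψ) y ≤ c * (A i).indicator (Xi X k (C.om 1 0)) y := by
        by_cases e : y ∈ A i
        · rw [indicator_of_mem e]
          exact (mul_le_of_le_one_left (Q_nonneg hp ψ)
            (by nlinarith [(t3 i y).1, (t3 i y).2])).trans (hd y hy.2 hp)
        · rw [t0 i y h, ct_one (not_lt.1 fun e' => e ⟨h, e'⟩), indicator_of_notMem e]
          simp
      simp only [mul_sub_one, e3] at e2
      rw [hQ y h hp, t0 _ y h]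
      nlinarith [mul_le_mul_of_nonneg_left (hB' i (f y)).2
        (mul_nonneg (mul_self_nonneg (ψ y)) (Q_nonneg hp f))]
    · rw [Q_congr (g := fun _ => 0) (h.mono fun x hx => by simp only [hx, zero_mul, sub_self]),
        Q_const]
      have := p0 (2 * i + 1) y hp
      positivity
  · simp only [fun i : ℕ => integral_add ((hI (2 * i + 1)).1.const_mul (2 * (B * (1 / (i + 1)))))
      ((a1 i).const_mul (2 * c)), integral_const_mul]
    have e1 := ((tendsto_one_div_add_atTop_nhds_zero_nat.const_mul B).const_mul 2).mul_const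
      (4 * c * ∫ y, Xi X k (C.om 1 0) y ∂ν)
    simp only [mul_zero, zero_mul] at e1
    simpa using (squeeze_zero (fun i => mul_nonneg (by positivity) (integral_nonneg_of_ae
      (h0.mono fun y hy => p0 (2 * i + 1) y (hL.ps hy.1))))
      (fun i => mul_le_mul_of_nonneg_left (p1 _) (by positivity)) e1).add (a2.const_mul (2 * c))

theorem cut_chart (jb : JB) (Φ : FD Z) (hL : LF Ω Φ.En ν X k) (γ : Γ) (a : C.I) {ψ : E → ℝ}
    (hψ : ∀ y, C.SmAt ψ y) (hs : ∀ y, ψ y ≠ 0 → y ∈ C.pt γ a '' C.B 1 a) :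
    ∃ τ : ℕ → E → ℝ, (∀ i y, τ i y ∈ Icc (0 : ℝ) 1) ∧ (∀ i y, C.SmAt (fun x => ψ x * τ i x) y) ∧
      (∀ i, ∃ K, IsCompact K ∧ K ⊆ Φ.En ∧ ∀ y ∉ K, ψ y * τ i y = 0) ∧
      (∀ᵐ y ∂ν, Tendsto (fun i => ψ y * τ i y) atTop (𝓝 (ψ y))) ∧
      Sml ν X k fun i y => ψ y * τ i y - ψ y := by
  obtain ⟨h, hh⟩ := exists_th Φ a
  have b1 : C.B (7 / 4) a ⊆ C.B 2 a := C.B_mono (by norm_num) a
  have b2 : C.B (7 / 4) a ⊆ C.B 4 a := C.B_mono (by norm_num) a
  have b3 : C.cB 1 a ⊆ C.B (7 / 4) a := C.cB_sub_B (by norm_num) a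
  let l := fun y => log (‖h (C.co γ a y)‖ ^ 2)
  have l1 : ∀ z ∈ C.B (7 / 4) a, l (C.pt γ a z) = log (‖h z‖ ^ 2) := fun z hz => by
    simp only [l, C.co_pt (b2 hz)]
  have l2 : ∀ z ∈ C.B (7 / 4) a, 1 ≤ 1 - l (C.pt γ a z) := fun z hz => by
    linarith [l1 z hz, log_nonpos (sq_nonneg _) (pow_le_one₀ (n := 2) (norm_nonneg _) (hh.le z hz))]
  have l3 : ∀ z ∈ C.B (7 / 4) a, h z ≠ 0 → C.SmAt l (C.pt γ a z) := fun z hz e =>
    .of_chart (b2 hz) ((sm_log (hh.an z (b1 hz)) e).congr_of_eventuallyEq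
      (((C.isOpen_B _ a).eventually_mem hz).mono l1))
  have d0 : ∀ t : ℝ, 1 ≤ 1 - t → ContDiffAt ℝ ∞ (fun t => -log (1 - t)) t := fun t ht =>
    ((contDiffAt_const.sub contDiffAt_id).log (one_pos.trans_le ht).ne').neg
  have d1 : deriv (fun t => -log (1 - t)) = fun t => (1 - t)⁻¹ := funext fun t => by
    rw [deriv.fun_neg, deriv_comp_const_sub, deriv_log, neg_neg]
  refine cut_one hL (O := C.pt γ a '' {z ∈ C.B (7 / 4) a | h z ≠ 0}) (f := fun y => -log (1 - l y))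
    (C.isOpen_image_pt γ ((hh.an.continuousOn.mono b1).isOpen_inter_preimage (C.isOpen_B _ a)
      isOpen_ne) fun z hz => b2 hz.1) hψ ?_ ?_ (fun c => ?_) ?_
  · rintro _ ⟨z, hz, rfl⟩
    exact (l3 z hz.1 hz.2).comp (d0 _ (l2 z hz.1))
  · rintro _ ⟨z, hz, rfl⟩ hp
    have e1 := d0 _ (l2 z hz.1)
    have e2 : Xi X k (C.om 0 l) (C.pt γ a z) = 0 := by
      have e3 := C.holOn_co γ a _ _ _ (ch_mem (C.pt γ a z))
        (by rw [ch_pt]; exact C.pt_mem (b2 hz.1) γ)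
      have e4 := (congrArg (C.co γ a) (ch_pt (C := C) (C.pt γ a z))).trans (C.co_pt (b2 hz.1) γ)
      rw [Xi_eq, fa_om0]
      exact (congrArg _ ((jb.hess_re n _ _ ((hh.an z (b1 hz.1)).comp_of_eq e3 e4)).2.2
        fun e => hz.2 ((congrArg h e4).symm.trans e))).trans (map_zero _)
    rw [L_comp (l3 z hz.1 hz.2) (e1.of_le two_le), Q_comp₂ hp (l3 z hz.1 hz.2)
      (e1.differentiableAt (by simp)), e2, d1, deriv_comp_const_sub (f := fun t : ℝ => t⁻¹),
      deriv_inv, neg_neg, mul_zero, zero_add, inv_pow]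
  · obtain ⟨e1, e2⟩ := th_compact hh (k := 1) (by norm_num) (exp_pos (-exp c)) γ
    refine ⟨_, C.isCompact_image_pt γ e1 fun z hz => b2 (b3 hz.1), subset_inter (image_mono fun z hz =>
      ⟨b3 hz.1, norm_pos_iff.1 ((exp_pos _).trans_le hz.2)⟩) e2, ?_⟩
    rintro _ ⟨z, hz, rfl⟩ e3 e4
    obtain ⟨z', e5, e6⟩ := hs _ e3
    obtain rfl := C.injOn_pt γ a (C.B14 e5) (b2 hz.1) e6
    have e7 := (log_le_iff_le_exp (one_pos.trans_le (l2 _ hz.1))).1 (neg_le_neg_iff.1 e4)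
    have e8 := (le_log_iff_exp_le (x := -exp c) (pow_pos (norm_pos_iff.2 hz.2) 2)).1
      (by linarith [l1 _ hz.1])
    exact ⟨_, ⟨C.B_sub_cB _ a e5, by nlinarith [hh.le _ hz.1, norm_nonneg (h z')]⟩, rfl⟩
  · have e1 := hL.ac (C.pt γ a '' {z ∈ C.B (7 / 4) a | h z = 0}) fun γ' b => measure_mono_null
      ?_ (ae_iff.1 (C.ae_tr (γ⁻¹ * γ') b a (Q := fun z => z ∈ C.B 2 a → h z ≠ 0)
        ((th_ae hh).mono fun _ e _ => e)))
    · refine (measure_eq_zero_iff_ae_notMem.1 e1).mono fun y hy => or_iff_not_imp_left.2 fun e => ?_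
      refine ((C.isCompact_image_pt γ (C.isCompact_cB 1 a) fun z hz =>
        b2 (b3 hz)).isClosed.isOpen_compl.eventually_mem ?_).mono fun x hx => by_contra fun e' =>
          hx (image_mono (C.B_sub_cB _ a) (hs x e'))
      rintro ⟨z, hz, rfl⟩
      exact e ⟨z, ⟨b3 hz, fun e' => hy ⟨z, ⟨b3 hz, e'⟩, rfl⟩⟩, rfl⟩
    · rintro z ⟨hz, z', hz', e⟩ e'
      obtain ⟨e2, e3⟩ := C.Ov_of_eq hz (b2 hz'.1) e.symm
      exact e' e2 (e3.symm ▸ b1 hz'.1) (e3.symm ▸ hz'.2)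

/-- K6b -/
theorem cut_of (jb : JB) (jg : JG C) (Φ : FD Z) {Ω : Set E} {ν : Measure E} {X : Fin n → C.Fm}
    {k : Fin n} (hL : LF Ω Φ.En ν X k) : Cut Φ.En ν X k := by
  classical
  obtain ⟨ψ, h1, h2, h3, h4⟩ := jg.pu
  obtain ⟨K₀, hK₀, h0⟩ := hL.bdd
  choose S hS using h4
  obtain ⟨t, -, ht⟩ := hK₀.elim_nhds_subcover _ fun y _ => eventually_eventually_nhds.2 (hS y)
  let F := t.biUnion S ×ˢ (Finset.univ : Finset C.I)
  have s1 : ∀ p : Γ × C.I, ∀ y, C.SmAt (fun x => ψ p.2 (p.1⁻¹ • x)) y := fun p y =>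
    (h1 p.2 _).smul p.1⁻¹
  have s2 : ∀ y₀ y, ((∀ γ ∉ S y₀, ∀ a, ψ a (γ⁻¹ • y) = 0) ∧ ∑ γ ∈ S y₀, ∑ a, ψ a (γ⁻¹ • y) = 1) →
      ∀ G, S y₀ ⊆ G → ∑ γ ∈ G, ∑ a, ψ a (γ⁻¹ • y) = 1 := fun y₀ y e G hG =>
    (Finset.sum_subset hG fun γ _ hγ => Finset.sum_eq_zero fun a _ => e.1 γ hγ a).symm.trans e.2
  have s3 : ∀ y ∈ K₀, ∀ᶠ x in 𝓝 y, ∑ p ∈ F, ψ p.2 (p.1⁻¹ • x) = 1 := fun y hy => by
    obtain ⟨y₀, e1, e2⟩ := mem_iUnion₂.1 (ht hy)
    exact e2.mono fun x hx => (Finset.sum_product _ _ _).trans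
      (s2 y₀ x hx _ (Finset.subset_biUnion_of_mem S e1))
  have s4 : ∀ y, ∑ p ∈ F, ψ p.2 (p.1⁻¹ • y) ≤ 1 := fun y => (Finset.sum_product _ _ _).trans_le
    ((Finset.sum_le_sum_of_subset_of_nonneg Finset.subset_union_left fun _ _ _ =>
      Finset.sum_nonneg fun _ _ => h2 _ _).trans_eq
        (s2 y y (hS y).self_of_nhds _ Finset.subset_union_right))
  choose τ t1 t2 t3 t4 t5 using fun p : Γ × C.I => cut_chart jb Φ hL p.1 p.2 (s1 p) fun y hy => by
    obtain ⟨z, hz, e⟩ := (h3 _ _).1 hy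
    exact ⟨z, hz, by rw [C.pt_eq, e, smul_inv_smul]⟩
  have hp : ∀ᵐ y ∂ν, Ps X k y := h0.mono fun y hy => hL.ps hy.1
  refine ⟨fun i y => ∑ p ∈ F, ψ p.2 (p.1⁻¹ • y) * τ p i y,
    fun i y => Cov.SmAt.sum F fun p _ => t2 p i y, fun i y => ?_, fun i => ?_, ?_, ?_⟩
  · rw [abs_of_nonneg (Finset.sum_nonneg fun p _ => mul_nonneg (h2 _ _) (t1 p i y).1)]
    exact (Finset.sum_le_sum fun p _ => mul_le_of_le_one_right (h2 _ _) (t1 p i y).2).trans (s4 y)
  · choose K k1 k2 k3 using fun p => t3 p i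
    exact ⟨⋃ p ∈ F, K p, F.isCompact_biUnion fun p _ => k1 p, iUnion₂_subset fun p _ => k2 p,
      fun y hy => Finset.sum_eq_zero fun p e => k3 p y fun e' => hy (mem_biUnion e e')⟩
  · filter_upwards [h0, (eventually_all_finset F).2 fun p _ => t4 p] with y hy e
    exact (s3 y hy.2).self_of_nhds ▸ tendsto_finset_sum F e
  · obtain ⟨g, e1, e2, e3⟩ := sml_sum hp F _ (fun p i y => (t2 p i y).sub (s1 p y)) t5
    refine ⟨g, e1, fun i => ?_, e3⟩
    filter_upwards [h0, e2 i] with y hy e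
    refine (Q_congr₂ (hL.ps hy.1) ((s3 y hy.2).mono fun x hx => ?_)).trans_le e
    simp only [Finset.sum_sub_distrib, hx, add_sub_cancel]

end Vale.Agent.P284Z.K
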