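import Vale.Agent.P284Z.K.Op

/-!
# P284Z, block K: the lower bound of the mass along the leaves in a flow box
-/

set_option linter.all false

open scoped ContDiff Topology ComplexOrder ENNReal
open Filter Set Function Metric MeasureTheory

noncomputable section

namespace Vale.Agent.P284Z.K

open Vale.Agent.P272.K J Real

namespace K6e

section lin
variable {n d q : ℕ} (e : Fin d ⊕ Fin q ≃ Fin n)

/-- the coordinates of the product, glued together -/
def gq : (Cm d × Cm q) ≃L[ℂ] Cm n :=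
  ((LinearEquiv.sumArrowLequivProdArrow (Fin d) (Fin q) ℂ ℂ).symm.trans
    (LinearEquiv.funCongrLeft ℂ ℂ e.symm)).toContinuousLinearEquiv

theorem gq_apply (p : Cm d × Cm q) (i : Fin n) : gq e p i = Sum.elim p.1 p.2 (e.symm i) := rfl

theorem mp : MeasurePreserving (gq e).symm volume volume := by
  have h1 := (volume_measurePreserving_sumPiEquivProdPi fun _ : Fin d ⊕ Fin q => ℂ).comp
    (volume_preserving_arrowCongr' e.symm (MeasurableEquiv.refl ℂ) (.id _))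
  exact h1

theorem slots {α β : Type} (R : α → β → Prop) {A B H : α} {A' B' H' : β} (k : Fin n)
    (hA : R A A') (hB : R B B') (hH : R H H') (i : Fin n) :
    R (update (blk e A B) k H i) (update (blk e A' B') k H' i) := by
  by_cases hi : i = k
  · subst hi
    simpa using hH
  · simp only [update_of_ne hi, blk]
    cases e.symm i
    · exact hA
    · exact hB

theorem sub_self_psd {M : Mx n} (hM : M.PosSemidef) {c : ℝ} (hc : 1 ≤ c) :
    ((c : ℂ) • M - M).PosSemidef := by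
  have := psd_smul hM (sub_nonneg.2 hc)
  rwa [Complex.ofReal_sub, sub_smul, Complex.ofReal_one, one_smul] at this

/-- the algebraic inequality -/
theorem alg (ja : JA) (l₀ : Fin d) {T : Matrix (Fin d) (Fin n) ℂ} {S : Matrix (Fin q) (Fin n) ℂ}
    {P H : Mx n} {c : ℝ} (hc : 1 ≤ c) (hP : ((c : ℂ) • P - pb T 1).PosSemidef)
    (hH : (pb (stk e T S) H).PosSemidef) :
    ((d - 1).factorial * q.factorial / c ^ n) *
      (‖(stk e T S).det‖ ^ 2 * (∑ l, H (e (.inl l)) (e (.inl l))).re) ≤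
      md (update (blk e P (pb S 1)) (e (.inl l₀)) (pb (stk e T S) H)) := by
  have hT := pb_psd T (Matrix.PosSemidef.one (n := Fin d) (R := ℂ))
  have hS := pb_psd S (Matrix.PosSemidef.one (n := Fin q) (R := ℂ))
  have h1 := md_mono (X := update (blk e (pb T 1) (pb S 1)) (e (.inl l₀)) (pb (stk e T S) H))
    (Y := fun i => (c : ℂ) • update (blk e P (pb S 1)) (e (.inl l₀)) (pb (stk e T S) H) i)
    (slots e (fun M (_ : Unit) => Matrix.PosSemidef M) (A' := ()) (B' := ()) (H' := ()) _ hT hS hH)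
    (slots e (fun M N : Mx n => ((c : ℂ) • N - M).PosSemidef) _ hP (sub_self_psd hS hc)
      (sub_self_psd hH hc))
  rw [md_smul fun _ => c, md, ja.block, Complex.re_ofReal_mul, Finset.prod_const, Finset.card_univ,
    Fintype.card_fin] at h1
  rw [div_mul_eq_mul_div, div_le_iff₀' (by positivity), ← mul_assoc]
  exact h1

theorem jm_congr {s s' : Cm n → Cm q} {z : Cm n} (h : s =ᶠ[𝓝 z] s') : jm s z = jm s' z := by
  rw [jm, jm, h.fderiv_eq]

theorem jm_gq {ψ : Cm n → Cm d × Cm q} {z : Cm n} (h : AnalyticAt ℂ ψ z) :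
    jm (fun w => gq e (ψ w)) z = stk e (jm (fun w => (ψ w).1) z) (jm (fun w => (ψ w).2) z) := by
  have h1 := h.differentiableAt.hasFDerivAt
  have h2 : HasFDerivAt (fun w => gq e (ψ w)) _ z := (gq e).hasFDerivAt.comp z h1
  rw [jm, h2.fderiv, jm, h1.fst.fderiv, jm, h1.snd.fderiv]
  rfl

theorem trace_gq (jb : JB) {u : Cm n → ℝ} {p : Cm d × Cm q} (h : ContDiffAt ℝ 2 u (gq e p)) :
    (cHess (fun w => u (gq e (w, p.2))) p.1).trace =
      ∑ l, cHess u (gq e p) (e (.inl l)) (e (.inl l)) := by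
  have h1 : HasFDerivAt (fun w : Cm d => gq e (w, p.2))
      ((gq e : (Cm d × Cm q) →L[ℂ] Cm n).comp (ContinuousLinearMap.inl ℂ (Cm d) (Cm q))) p.1 :=
    (gq e).hasFDerivAt.comp p.1 (hasFDerivAt_prodMk_left p.1 p.2)
  have h2 : ∀ i l, jm (fun w : Cm d => gq e (w, p.2)) p.1 i l = if i = e (.inl l) then 1 else 0 := by
    intro i l
    obtain ⟨i, rfl⟩ := e.surjective i
    rw [jm, h1.fderiv]
    cases i <;> simp [gq_apply, Pi.single_apply]
  rw [jb.hess_comp d n (fun w => gq e (w, p.2)) u p.1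
    (((gq e).analyticAt _).comp (analyticAt_id.prod analyticAt_const)) h, Matrix.trace]
  refine Finset.sum_congr rfl fun l _ => ?_
  simp [pb, Matrix.mul_apply, h2, apply_ite (starRingEnd ℂ)]

theorem cf_cont {U : Set (Cm n)} {X : Cm n → Mx n} (h : CF U X) : ContinuousOn X U := fun z hz =>
  (continuousAt_pi.2 fun i => continuousAt_pi.2 fun j =>
    (h.sm z hz i j).continuousAt).continuousWithinAt

end lin

variable {n : ℕ} {Γ E : Type} [Group Γ] [TopologicalSpace E] [MulAction Γ E] {C : Cov n Γ E}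
  {D : LD C} {L : Lim D} {Z : ZD L}

section nc
variable {d q l : ℕ} (N : NC Z d q l) (e : Fin d ⊕ Fin q ≃ Fin n)

/-- the domain of the flow box in the chart -/
def U : Set (Cm n) := {z ∈ C.B 4 N.a | C.pt N.g N.a z ∈ N.Ψ.source}

/-- from the flow box to the chart -/
def cz (p : Cm d × Cm q) : Cm n := C.co N.g N.a (N.Ψ.symm p)

/-- from the chart to the flow box -/
def Θ (z : Cm n) : Cm n := gq e (N.Ψ (C.pt N.g N.a z))

/-- the potential in the flow box -/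
def u (A : ℝ) (f : E → ℝ) (p : Cm d × Cm q) : ℝ := A * C.ρ N.a (cz N p) + f (N.Ψ.symm p)

theorem U_open : IsOpen (U N) := C.isOpen_preimage_pt N.g N.a N.Ψ.open_source

variable {N} {z : Cm n} {p : Cm d × Cm q} {A : ℝ} {f : E → ℝ}

theorem pt_cz (hp : p ∈ N.Ψ.target) : C.pt N.g N.a (cz N p) = N.Ψ.symm p :=
  (H.inch (N.Ψ.map_target hp)).2

theorem cz_mem (hp : p ∈ N.Ψ.target) : cz N p ∈ U N :=
  ⟨C.B_mono (by norm_num) _ (H.inch (N.Ψ.map_target hp)).1, pt_cz hp ▸ N.Ψ.map_target hp⟩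

theorem cz_Ψ (hz : z ∈ U N) : cz N (N.Ψ (C.pt N.g N.a z)) = z := by
  rw [cz, N.Ψ.left_inv hz.2, C.co_pt hz.1]

theorem Θ_an : AnalyticOnNhd ℂ (Θ N e) (U N) := fun z hz =>
  ((gq e).analyticAt _).comp (N.hol N.g N.a z hz.1 hz.2)

theorem Θ_inj : InjOn (Θ N e) (U N) := fun z hz w hw h => by
  rw [← cz_Ψ hz, ← cz_Ψ hw, (gq e).injective h]

theorem Θ_cz (hp : p ∈ N.Ψ.target) : Θ N e (cz N p) = gq e p := by
  rw [Θ, pt_cz hp, N.Ψ.right_inv hp]

theorem u_sm (hp : p ∈ N.Ψ.target) (hf : C.SmAt f (N.Ψ.symm p)) :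
    ContDiffAt ℝ ∞ (fun x => u N A f ((gq e).symm x)) (gq e p) := by
  have h1 : AnalyticAt ℂ (fun x => cz N ((gq e).symm x)) (gq e p) :=
    (N.hol' p (N.tgt ▸ hp)).comp_of_eq ((gq e).symm.analyticAt _) ((gq e).symm_apply_apply p)
  have h2 : ContDiffAt ℝ ∞ (fun w => A * C.ρ N.a w + f (C.pt N.g N.a w))
      (cz N ((gq e).symm (gq e p))) := by
    rw [(gq e).symm_apply_apply]
    exact (contDiffAt_const.mul (C.ρ_sm _ _ (cz_mem hp).1)).add
      (hf _ _ _ (cz_mem hp).1 (pt_cz hp))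
  refine (h2.comp (gq e p) (an_sm h1)).congr_of_eventuallyEq ?_
  have h3 : ∀ᶠ x in 𝓝 (gq e p), (gq e).symm x ∈ N.Ψ.target :=
    (gq e).symm.continuous.continuousAt.eventually_mem (N.Ψ.open_target.mem_nhds (by simpa using hp))
  filter_upwards [h3] with x hx
  rw [comp_apply, pt_cz hx, u]

theorem om_eq (jb : JB) (hz : z ∈ U N) (hf : C.SmAt f (C.pt N.g N.a z)) :
    C.om A f N.g N.a z =
      pb (jm (Θ N e) z) (cHess (fun x => u N A f ((gq e).symm x)) (Θ N e z)) := by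
  rw [← jb.hess_comp n n _ _ z (Θ_an e z hz)
    (two (u_sm e (N.Ψ.map_source hz.2) (by rwa [N.Ψ.left_inv hz.2])))]
  refine C2.cHess_congr ?_
  filter_upwards [(U_open N).mem_nhds hz] with w hw
  rw [Θ, (gq e).symm_apply_apply, u, cz_Ψ hw, N.Ψ.left_inv hw.2]

theorem tr_eq (jb : JB) (hp : p ∈ N.Ψ.target) (hf : C.SmAt f (N.Ψ.symm p)) :
    (cHess (fun w => u N A f (w, p.2)) p.1).trace =
      ∑ l, cHess (fun x => u N A f ((gq e).symm x)) (gq e p) (e (.inl l)) (e (.inl l)) := by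
  simpa only [ContinuousLinearEquiv.symm_apply_apply] using trace_gq e jb (two (u_sm e hp hf))

end nc

variable {Φ : FD Z} {N : NC Z Φ.d Φ.q Φ.l₁} (T : TD Φ N) (e : Fin Φ.d ⊕ Fin Φ.q ≃ Fin n)
  {R₁ : ℝ} {S : Set (Cm Φ.q)} {A : ℝ} {f : E → ℝ}

theorem box (hR : closedBall T.a₀ R₁ ⊆ ball 0 N.R) (hS : S ⊆ ball T.t₀ T.R)
    {p : Cm Φ.d × Cm Φ.q} (hp : p ∈ closedBall T.a₀ R₁ ×ˢ S) :
    p ∈ N.Ψ.target ∧ N.Ψ.symm p ∈ T.Ω := by
  have h0 : (T.a₀, p.2) ∈ N.Ψ.target := N.tgt ▸ T.sub _ (ball_subset_closedBall (hS hp.2))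
  have h1 : p ∈ N.Ψ.target :=
    (H.tgt_iff N).2 ⟨mem_ball_zero_iff.1 (hR hp.1), ((H.tgt_iff N).1 h0).2⟩
  exact ⟨h1, (T.base _ (N.Ψ.map_target h1) (by rw [N.Ψ.right_inv h1]; exact hS hp.2)).1⟩

theorem pbs_eq {z : Cm n} (hz : z ∈ U N) (h : (N.Ψ (C.pt N.g N.a z)).2 ∈ ball T.t₀ T.R) :
    C.pbs T.s N.g N.a z = pb (jm (fun w => (N.Ψ (C.pt N.g N.a w)).2) z) 1 := by
  rw [Cov.pbs, jm_congr]
  filter_upwards [(U_open N).mem_nhds hz,
    (N.hol _ _ z hz.1 hz.2).continuousAt.snd.eventually_mem (isOpen_ball.mem_nhds h)] with w h1 h2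
  exact (T.base _ h1.2 h2).2

variable [MeasurableSpace E]

theorem cf_X (jg : JG C) (k : Fin n) (hf : ∀ y ∈ T.Ω, C.SmAt f y) (i : Fin n) :
    C.CFOn (update (XT T e) k (C.om A f) i) T.Ω :=
  slots e (fun M (_ : Unit) => C.CFOn M T.Ω) (A' := ()) (B' := ()) (H' := ()) k
    (jg.cf_om 1 0 _ T.opn fun y _ => Cov.SmAt.const 0 y) (jg.cf_pbs _ _ _ T.opn T.hol)
    (jg.cf_om A f _ T.opn hf) i

/-- the pointwise inequality -/
theorem ptw (ja : JA) (jb : JB) (jg : JG C) (l₀ : Fin Φ.d) (hR : closedBall T.a₀ R₁ ⊆ ball 0 N.R)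
    (hS : IsCompact S) (hS' : S ⊆ ball T.t₀ T.R) : ∃ c > (0 : ℝ), ∀ (A : ℝ) (f : E → ℝ),
      (∀ y ∈ T.Ω, C.SmAt f y) → ∀ z ∈ U N, ∀ p ∈ closedBall T.a₀ R₁ ×ˢ S,
        N.Ψ (C.pt N.g N.a z) = p → (C.om A f N.g N.a z).PosSemidef →
        c * (‖(jm (Θ N e) z).det‖ ^ 2 * (cHess (fun w => u N A f (w, p.2)) p.1).trace.re) ≤
          Xi (XT T e) (e (.inl l₀)) (C.om A f) (C.pt N.g N.a z) * (cHess (C.ρ N.a) z).det.re := by
  have h1 := (jg.cf_pbs _ (fun y => (N.Ψ y).1) _ N.Ψ.open_source fun γ a z hz h =>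
    analyticAt_fst.comp (N.hol γ a z hz h)).2 N.g N.a
  have h2 : cz N '' (closedBall T.a₀ R₁ ×ˢ S) ⊆ U N := by
    rintro _ ⟨p, hp, rfl⟩
    exact cz_mem (box T hR hS' hp).1
  obtain ⟨c, hc, h3⟩ := rho_dom N.a (((isCompact_closedBall T.a₀ R₁).prod hS).image_of_continuousOn
    (f := cz N) fun p hp => (N.hol' p (N.tgt ▸ (box T hR hS' hp).1)).continuousAt.continuousWithinAt)
    (fun z hz => (h2 hz).1) ((cf_cont h1).mono h2) fun z hz => h1.herm z (h2 hz)
  refine ⟨(Φ.d - 1).factorial * Φ.q.factorial / c ^ n, by positivity, ?_⟩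
  rintro A f hf z hz _ hp rfl hom
  obtain ⟨h4, h5⟩ := box T hR hS' hp
  have h6 : C.pt N.g N.a z ∈ T.Ω := N.Ψ.left_inv hz.2 ▸ h5
  have h7 := jm_gq e (N.hol _ _ z hz.1 hz.2)
  have h8 := om_eq e (A := A) jb hz (hf _ h6)
  obtain ⟨h9, h10⟩ := det_real (C.ρ_pos _ _ hz.1)
  rw [tr_eq e jb h4 (hf _ h5), Xi, jg.mD_pt _ _ _ z hz.1 fun i => (cf_X T e jg _ hf i).1 _ h6, h10,
    Complex.div_ofReal_re, Complex.ofReal_re, div_mul_cancel₀ _ h9.ne']
  change jm (Θ N e) z = _ at h7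
  rw [h7] at h8
  rw [h7]
  refine (alg e ja l₀ hc (h3 z ⟨_, hp, cz_Ψ hz⟩) (h8 ▸ hom)).trans_eq (congrArg md (funext fun i => ?_))
  exact (slots e (fun (M : C.Fm) M' => M N.g N.a z = M') _
    (congrArg (cHess · z) (funext fun w => by simp)) (pbs_eq T hz (hS' hp.2)) h8 i).symm

end K6e

open K6e

variable {n : ℕ} {Γ E : Type} [Group Γ] [Countable Γ] [TopologicalSpace E] [T2Space E]
  [MulAction Γ E] [MeasurableSpace E] [BorelSpace E] {C : Cov n Γ E} {D : LD C} {L : Lim D}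
  {Z : ZD L} {Φ : FD Z} {N : NC Z Φ.d Φ.q Φ.l₁}

/-- K6e -/
theorem lower (ja : JA) (jb : JB) (jg : JG C) {μ : Measure E} (hμ : C.Vol μ) (T : TD Φ N)
    (e : Fin Φ.d ⊕ Fin Φ.q ≃ Fin n) (l₀ : Fin Φ.d) {R₁ : ℝ}
    (hR : closedBall T.a₀ R₁ ⊆ ball 0 N.R) {S : Set (Cm Φ.q)} (hS : IsCompact S)
    (hS' : S ⊆ ball T.t₀ T.R) : ∃ c > (0 : ℝ), ∀ (A : ℝ) (f : E → ℝ) (J : Cm Φ.q → ℝ≥0∞),
      (∀ y ∈ T.Ω, C.SmAt f y) →
      (∀ γ a, ∀ z ∈ C.B 4 a, C.pt γ a z ∈ T.Ω → (C.om A f γ a z).PosSemidef) →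
      (∀ t, J t = ∫⁻ a in ball T.a₀ R₁, ENNReal.ofReal (cHess (fun w =>
        A * C.ρ N.a (C.co N.g N.a (N.Ψ.symm (w, t))) + f (N.Ψ.symm (w, t))) a).trace.re) →
      AEMeasurable J (volume.restrict S) ∧ ENNReal.ofReal c * ∫⁻ t in S, J t ≤
        ∫⁻ y in {y ∈ T.Ω | T.s y ∈ S},
          ENNReal.ofReal (Xi (XT T e) (e (.inl l₀)) (C.om A f) y) ∂μ := by
  classical
  obtain ⟨c, hc, hp⟩ := ptw T e ja jb jg l₀ hR hS hS'
  refine ⟨c, hc, fun A f J hf hom hJ => ?_⟩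
  obtain rfl := funext hJ
  set g : Cm Φ.d × Cm Φ.q → ℝ≥0∞ := fun p =>
    ENNReal.ofReal (cHess (fun w => u N A f (w, p.2)) p.1).trace.re with hg
  set P := ball T.a₀ R₁ ×ˢ S
  set M := {y ∈ T.Ω | T.s y ∈ S}
  have hP : MeasurableSet P := measurableSet_ball.prod hS.measurableSet
  have hP' : P ⊆ closedBall T.a₀ R₁ ×ˢ S := prod_mono ball_subset_closedBall Subset.rfl
  have hb := fun p (h : p ∈ P) => box T hR hS' (hP' h)
  have h1 : AEMeasurable g ((volume.prod volume).restrict P) := by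
    refine ContinuousOn.aemeasurable (ContinuousOn.congr (fun p h => ?_) fun p h =>
      congrArg (fun x : ℂ => ENNReal.ofReal x.re) (tr_eq e jb (hb p h).1 (hf _ (hb p h).2))) hP
    have h2 := (cont_cHess (u_sm e (A := A) (hb p h).1 (hf _ (hb p h).2))).comp
      (gq e).continuous.continuousAt
    exact (ENNReal.continuous_ofReal.continuousAt.comp (Complex.continuous_re.continuousAt.comp
      (tendsto_finsetSum _ fun l _ =>
        continuousAt_pi.1 (continuousAt_pi.1 h2 _) _))).continuousWithinAt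
  have h0 : AEMeasurable g ((volume.restrict (ball T.a₀ R₁)).prod (volume.restrict S)) := by
    rwa [Measure.prod_restrict]
  refine ⟨h0.lintegral_prod_left', ?_⟩
  have hM : MeasurableSet M := by
    have h2 : IsOpen (T.Ω ∩ T.s ⁻¹' Sᶜ) := ContinuousOn.isOpen_inter_preimage
      (fun y hy => (s_cont hy).continuousWithinAt) T.opn hS.isClosed.isOpen_compl
    refine (congrArg MeasurableSet (Set.ext fun y => ?_)).mp
      (T.opn.measurableSet.diff h2.measurableSet)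
    exact ⟨fun h => ⟨h.1, not_not.1 fun h' => h.2 ⟨h.1, h'⟩⟩, fun h => ⟨h.1, fun h' => h'.2 h.2⟩⟩
  set F : E → ℝ≥0∞ := M.indicator fun y =>
    ENNReal.ofReal (Xi (XT T e) (e (.inl l₀)) (C.om A f) y) with hF
  have hFm : Measurable F := by
    rw [hF, ← piecewise_eq_indicator]
    refine ContinuousOn.measurable_piecewise ?_ continuousOn_const hM
    exact ENNReal.continuous_ofReal.comp_continuousOn (Complex.continuous_re.comp_continuousOn
      ((jg.mD_cont _ _ T.opn (fun i => (cf_X T e jg _ hf i).1) fun i γ a =>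
        cf_cont ((cf_X T e jg _ hf i).2 γ a)).mono (sep_subset _ _)))
  have hQ : MeasurableSet ((gq e).symm ⁻¹' P) := hP.preimage (gq e).symm.continuous.measurable
  have hQ' : (gq e).symm ⁻¹' P ⊆ Θ N e '' U N := fun x hx =>
    ⟨_, cz_mem (hb _ hx).1, by rw [Θ_cz e (hb _ hx).1, (gq e).apply_symm_apply]⟩
  calc ENNReal.ofReal c * ∫⁻ t in S, ∫⁻ a in ball T.a₀ R₁, g (a, t)
      = ENNReal.ofReal c * ∫⁻ x in Θ N e '' U N,
          ((gq e).symm ⁻¹' P).indicator (fun x => g ((gq e).symm x)) x := by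
        rw [← setLIntegral_prod_symm g h1, setLIntegral_indicator hQ, inter_eq_left.2 hQ',
          (mp e).setLIntegral_comp_preimage_emb (gq e).symm.toHomeomorph.measurableEmbedding]
        rfl
    _ ≤ ∫⁻ z in U N, F (C.pt N.g N.a z) * ENNReal.ofReal (cHess (C.ρ N.a) z).det.re := by
        rw [jb.cov n _ _ (U_open N) (Θ_an e) (Θ_inj e), ← lintegral_const_mul' _ _ ENNReal.ofReal_ne_top]
        refine setLIntegral_mono' (U_open N).measurableSet fun z hz => ?_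
        by_cases h : Θ N e z ∈ (gq e).symm ⁻¹' P
        · rw [indicator_of_mem h]
          rw [mem_preimage, Θ, (gq e).symm_apply_apply] at h
          have h2 : C.pt N.g N.a z ∈ T.Ω := N.Ψ.left_inv hz.2 ▸ (hb _ h).2
          have h3 : C.pt N.g N.a z ∈ M := ⟨h2, (T.base _ hz.2 (hS' h.2)).2 ▸ h.2⟩
          rw [hF, indicator_of_mem h3, ← ENNReal.ofReal_mul' (det_real (C.ρ_pos _ _ hz.1)).1.le,
            hg, ← ENNReal.ofReal_mul (sq_nonneg _), ← ENNReal.ofReal_mul hc.le]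
          refine ENNReal.ofReal_le_ofReal ?_
          simpa only [Θ, ContinuousLinearEquiv.symm_apply_apply] using
            hp A f hf z hz _ (hP' h) rfl (hom _ _ z hz.1 h2)
        · simp [indicator_of_notMem h]
    _ ≤ ∫⁻ y in C.pt N.g N.a '' C.B 4 N.a, F y ∂μ := by
        rw [hμ _ _ F hFm]
        exact lintegral_mono_set (sep_subset _ _)
    _ ≤ _ := by
        rw [← lintegral_indicator hM]
        exact setLIntegral_le_lintegral _ _

end Vale.Agent.P284Z.K
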