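import Vale.Agent.P284Z.K.Op

/-!
# P284Z, block K: the upper bound for the mass of a quasi-plurisubharmonic function on the leaves
-/

set_option linter.all false

open scoped ContDiff Topology ComplexOrder ENNReal
open Filter Set Function Metric MeasureTheory

noncomputable section

namespace Vale.Agent.P284Z.K

open Vale.Agent.P272.K J Real

theorem up_num {δ θ p A w l qff qf qθ g : ℝ} (hδ : 0 < δ) (hθ : |θ| ≤ 1) (hp1 : 1 ≤ p) (hp2 : p ≤ 2)
    (hA : 0 ≤ A) (hw : 0 ≤ w) (hP : 0 ≤ A * w + l) (hq : 0 ≤ qθ) (hg : qθ ≤ g)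
    (cs : 2 * (-(δ * θ) * p) * qf ≤ (-(δ * θ)) ^ 2 * qff + p ^ 2 * qθ) :
    θ * θ * (A * w + l) ≤ 2 * A * w + 4 / δ * g +
      (θ * θ * (p * l + δ * qff) + (θ * (p * qf) + θ * (p * qf))) := by
  have h1 : θ * θ ≤ 1 := abs_le_one_iff_mul_self_le_one.1 hθ
  have h0 := mul_self_nonneg θ
  have h2 : θ * θ * (A * w + l) ≤ θ * θ * (p * (A * w + l)) :=
    mul_le_mul_of_nonneg_left (le_mul_of_one_le_left hP hp1) h0
  have h3 : θ * θ * p * (A * w) ≤ 1 * 2 * (A * w) :=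
    mul_le_mul_of_nonneg_right (mul_le_mul h1 hp2 (by linarith) zero_le_one) (mul_nonneg hA hw)
  have h4 : p ^ 2 * qθ ≤ 4 * g := mul_le_mul (by nlinarith) hg hq (by norm_num)
  have h5 : 0 ≤ 4 / δ * g + (θ * θ * (δ * qff) + 2 * θ * (p * qf)) := by
    refine le_of_mul_le_mul_left ?_ hδ
    rw [mul_add, ← mul_assoc, mul_div_cancel₀ _ hδ.ne']
    nlinarith
  nlinarith

variable {n : ℕ} {Γ E : Type} [Group Γ] [TopologicalSpace E] [MulAction Γ E] [MeasurableSpace E]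
  [BorelSpace E] {C : Cov n Γ E} {Ω En : Set E} {ν : Measure E} {X : Fin n → C.Fm} {k : Fin n}

theorem upper (hL : LF Ω En ν X k) (hC : Cut En ν X k) {A B : ℝ} (hA : 0 ≤ A) {f : E → ℝ}
    (hf : ∀ y ∈ Ω, C.SmAt f y) (hp : ∀ y ∈ Ω, 0 ≤ Xi X k (C.om A f) y)
    (hB : ∀ᵐ y ∂ν, |f y| ≤ B) : ∫⁻ y, ENNReal.ofReal (Xi X k (C.om A f) y) ∂ν ≤
      ENNReal.ofReal (2 * A * ∫ y, Xi X k (C.om 1 0) y ∂ν) := by
  obtain ⟨Θ, h1, h2, h3, h4, g, g1, g2, g3⟩ := hC
  obtain ⟨K₀, -, hΩ⟩ := hL.bdd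
  obtain ⟨δ, hδ, hδB⟩ : ∃ δ > (0 : ℝ), δ * (2 * |B|) ≤ 1 :=
    ⟨(2 * |B| + 1)⁻¹, by positivity, by
      rw [inv_mul_le_iff₀ (by positivity)]; linarith⟩
  let φ : ℝ → ℝ := fun t => t + δ / 2 * (t + B) ^ 2
  have hφ : ContDiff ℝ ∞ φ := by fun_prop
  have d1 : deriv φ = fun t => 1 + δ * (t + B) := funext fun t => by
    have := (hasDerivAt_id' t).fun_add
      ((((hasDerivAt_id' t).add_const B).fun_pow 2).const_mul (δ / 2))
    rw [this.deriv]
    ring
  have d2 : ∀ t, deriv (deriv φ) t = δ := fun t => by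
    rw [d1, ((((hasDerivAt_id' t).add_const B).const_mul δ).const_add 1).deriv, mul_one]
  have key : ∀ i, ∫⁻ y, ENNReal.ofReal (Θ i y * Θ i y * Xi X k (C.om A f) y) ∂ν ≤
      ENNReal.ofReal (2 * A * ∫ y, Xi X k (C.om 1 0) y ∂ν + 4 / δ * ∫ y, g i y ∂ν) := by
    intro i
    obtain ⟨K, hK, hKE, hK0⟩ := h3 i
    obtain ⟨i1, i2, i3⟩ := hL.ibp univ K (fun y => φ (f y)) (fun y => Θ i y * Θ i y) isOpen_univ hK
      (fun y hy => ⟨trivial, hKE hy⟩)
      (fun y hy => ⟨(hf y hy.2).comp hφ.contDiffAt, (h1 i y).mul (h1 i y)⟩)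
      fun y hy => by rw [hK0 y hy, mul_zero]
    have i4 := (hL.int.const_mul (2 * A)).add ((g1 i).const_mul (4 / δ))
    have hle : ∀ᵐ y ∂ν, 0 ≤ Θ i y * Θ i y * Xi X k (C.om A f) y ∧
        Θ i y * Θ i y * Xi X k (C.om A f) y ≤ 2 * A * Xi X k (C.om 1 0) y + 4 / δ * g i y +
          (Θ i y * Θ i y * Xi X k (C.om 0 fun y => φ (f y)) y +
            Xi X k (C.gg (fun y => Θ i y * Θ i y) fun y => φ (f y)) y) := by
      filter_upwards [hΩ, hB, g2 i] with y hy hb hg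
      have ps := hL.ps hy.1
      have hP := hp y hy.1
      have hs := hf y hy.1
      refine ⟨mul_nonneg (mul_self_nonneg _) hP, ?_⟩
      rw [Xi_om A hs] at hP ⊢
      rw [L_comp hs (hφ.of_le two_le).contDiffAt, Q_mul (h1 i y) (h1 i y), Q_symm ps (Θ i),
        Q_comp hs (hφ.differentiable (by simp) _), d2, d1]
      have hb' := abs_le.1 hb
      refine up_num hδ (h2 i y) (le_add_of_nonneg_right (mul_nonneg hδ.le (by linarith))) ?_ hA
        (w_nonneg ps) hP (Q_nonneg ps _) hg (Q_cs ps f (Θ i) _ _)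
      have : δ * (f y + B) ≤ δ * (2 * |B|) :=
        mul_le_mul_of_nonneg_left (by linarith [le_abs_self B]) hδ.le
      linarith
    refine (lintegral_mono_ae (hle.mono fun y hy => ENNReal.ofReal_le_ofReal hy.2)).trans ?_
    refine ((ofReal_integral_eq_lintegral_ofReal (i4.add (i1.add i2))
      (hle.mono fun y hy => hy.1.trans hy.2)).symm.trans (congrArg _ ?_)).le
    refine (integral_add i4 (i1.add i2)).trans ?_
    refine (congrArg₂ (· + ·) (integral_add (hL.int.const_mul _) ((g1 i).const_mul _))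
      (integral_add i1 i2)).trans ?_
    rw [i3, neg_add_cancel, add_zero, integral_const_mul, integral_const_mul]
  have hm : ∀ i, AEMeasurable
      (fun y => ENNReal.ofReal (Θ i y * Θ i y * Xi X k (C.om A f) y)) ν := fun i => by
    have hc : Continuous (Θ i) := continuous_iff_continuousAt.2 fun y => (h1 i y).cont
    exact ((hc.mul hc).measurable.aemeasurable.mul (hL.meas A f hf)).ennreal_ofReal
  have t1 : Tendsto (fun i => ENNReal.ofReal (2 * A * ∫ y, Xi X k (C.om 1 0) y ∂ν +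
      4 / δ * ∫ y, g i y ∂ν)) atTop (𝓝 (ENNReal.ofReal (2 * A * ∫ y, Xi X k (C.om 1 0) y ∂ν))) :=
    ENNReal.tendsto_ofReal (by simpa using (g3.const_mul (4 / δ)).const_add _)
  refine le_trans (lintegral_mono_ae (h4.mono fun y hy => ?_)) ((lintegral_liminf_le' hm).trans
    ((liminf_le_liminf (Eventually.of_forall key)).trans t1.liminf_eq.le))
  exact (ENNReal.tendsto_ofReal (by simpa using (hy.mul hy).mul_const _)).liminf_eq.ge

end Vale.Agent.P284Z.K
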