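import Vale.Agent.P284Z.J.Spec
import Vale.Agent.P272.K.C2.Wirt

/-!
# P284Z, block K: the regularised maximum and the gluing of smooth plurisubharmonic functions
-/

set_option linter.all false

open scoped ContDiff Topology ComplexOrder
open Filter Set Function Metric MeasureTheory

noncomputable section

namespace Vale.Agent.P284Z.K

open Vale.Agent.P272.K J Real

/-- a primitive of the smooth transition -/
def G₀ (t : ℝ) : ℝ := ∫ s in (0 : ℝ)..t, smoothTransition s

theorem G₀_deriv (t : ℝ) : HasDerivAt G₀ (smoothTransition t) t :=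
  (smoothTransition.continuous.integral_hasStrictDerivAt 0 t).hasDerivAt

/-- a smooth convex function, `0` on `(-∞, -1]` and the identity on `[1, ∞)` -/
def G (t : ℝ) : ℝ := G₀ (t + (1 - G₀ 1))

theorem G_hasDeriv (t : ℝ) : HasDerivAt G (smoothTransition (t + (1 - G₀ 1))) t :=
  (G₀_deriv _).comp_add_const t _

theorem deriv_G : deriv G = fun t => smoothTransition (t + (1 - G₀ 1)) :=
  funext fun t => (G_hasDeriv t).deriv

theorem G_diff : Differentiable ℝ G := fun t => (G_hasDeriv t).differentiableAt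

theorem G_sm : ContDiff ℝ ∞ G := by
  rw [contDiff_infty_iff_deriv, deriv_G]
  exact ⟨G_diff, smoothTransition.contDiff.comp (contDiff_id.add contDiff_const)⟩

theorem G'_nonneg (t : ℝ) : 0 ≤ deriv G t := deriv_G ▸ smoothTransition.nonneg _

theorem G'_le (t : ℝ) : deriv G t ≤ 1 := deriv_G ▸ smoothTransition.le_one _

theorem G''_nonneg (t : ℝ) : 0 ≤ deriv (deriv G) t := by
  rw [deriv_G]
  exact (smoothTransition.monotone.comp fun _ _ h => add_le_add_left h _).deriv_nonneg

theorem G₀_one : 0 ≤ G₀ 1 ∧ G₀ 1 ≤ 1 := by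
  refine ⟨intervalIntegral.integral_nonneg zero_le_one fun s _ => smoothTransition.nonneg s, ?_⟩
  have := intervalIntegral.integral_mono_on (μ := volume) zero_le_one
    (smoothTransition.continuous.intervalIntegrable 0 1)
    (continuous_const (y := (1 : ℝ)).intervalIntegrable 0 1) fun s _ => smoothTransition.le_one s
  simpa [G₀] using this

theorem G_zero {t : ℝ} (h : t ≤ -1) : G t = 0 := by
  have h1 : t + (1 - G₀ 1) ≤ 0 := by linarith [G₀_one.1]
  refine (intervalIntegral.integral_congr (g := fun _ => 0) fun s hs => ?_).trans (by simp)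
  rw [uIcc_of_ge h1] at hs
  exact smoothTransition.zero_of_nonpos hs.2

theorem G_id {t : ℝ} (h : 1 ≤ t) : G t = t := by
  have h1 : 1 ≤ t + (1 - G₀ 1) := by linarith [G₀_one.2]
  have h2 := intervalIntegral.integral_add_adjacent_intervals (μ := volume)
    (smoothTransition.continuous.intervalIntegrable 0 1)
    (smoothTransition.continuous.intervalIntegrable 1 (t + (1 - G₀ 1)))
  have h3 : ∫ s in (1 : ℝ)..(t + (1 - G₀ 1)), smoothTransition s = t - G₀ 1 := by
    refine (intervalIntegral.integral_congr (g := fun _ => 1) fun s hs => ?_).trans (by simp; ring)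
    rw [uIcc_of_le h1] at hs
    exact smoothTransition.one_of_one_le hs.1
  rw [h3] at h2
  change G₀ 1 + _ = G t at h2
  linarith

theorem G_mono : Monotone G := monotone_of_deriv_nonneg G_diff G'_nonneg

theorem G_nonneg (t : ℝ) : 0 ≤ G t :=
  (G_zero (min_le_right t (-1))).ge.trans (G_mono (min_le_left _ _))

theorem le_G (t : ℝ) : t ≤ G t := by
  have h : Monotone fun t => t - G t := monotone_of_deriv_nonneg (differentiable_id.sub G_diff)
    fun t => by
      rw [((hasDerivAt_id' t).fun_sub (G_diff t).hasDerivAt).deriv]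
      linarith [G'_le t]
  have := h (le_max_left t 1)
  simp only [G_id (le_max_right t 1)] at this
  linarith

theorem G_le {t M : ℝ} (h : t ≤ M) (h0 : 0 ≤ M) : G t ≤ M + 1 :=
  (G_mono (by linarith)).trans (G_id (t := M + 1) (by linarith)).le

variable {n : ℕ} {a b f g : Cm n → ℝ} {z : Cm n} {O : Set (Cm n)}

/-- smooth and plurisubharmonic at a point -/
structure SP (f : Cm n → ℝ) (z : Cm n) : Prop where
  sm : ContDiffAt ℝ ∞ f z
  psd : (cHess f z).PosSemidef

theorem two (h : ContDiffAt ℝ ∞ f z) : ContDiffAt ℝ 2 f z := h.of_le two_le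

theorem SP.cont (h : SP f z) : ContinuousAt f z := h.sm.continuousAt

theorem SP.congr (h : SP f z) (e : g =ᶠ[𝓝 z] f) : SP g z :=
  ⟨h.sm.congr_of_eventuallyEq e, C2.cHess_congr e ▸ h.psd⟩

theorem sp_const (c : ℝ) (z : Cm n) : SP (fun _ => c) z :=
  ⟨contDiffAt_const, C2.cHess_const c ▸ Matrix.PosSemidef.zero⟩

theorem SP.add (h : SP f z) (h' : SP g z) : SP (fun w => f w + g w) z :=
  ⟨h.sm.add h'.sm, C2.cHess_add (two h.sm) (two h'.sm) ▸ h.psd.add h'.psd⟩

theorem SP.const_mul (h : SP f z) {c : ℝ} (hc : 0 ≤ c) : SP (fun w => c * f w) z :=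
  ⟨contDiffAt_const.mul h.sm, C2.cHess_const_mul c (two h.sm) ▸ psd_smul h.psd hc⟩

theorem SP.add_const (h : SP f z) (c : ℝ) : SP (fun w => f w + c) z := h.add (sp_const c z)

theorem SP.sub_const (h : SP f z) (c : ℝ) : SP (fun w => f w - c) z := h.add_const (-c)

theorem pb_psd {q : ℕ} (S : Matrix (Fin q) (Fin n) ℂ) {H : Mx q} (h : H.PosSemidef) :
    (pb S H).PosSemidef := by
  have := h.conjTranspose_mul_mul_same (S.map (starRingEnd ℂ))
  have e : (S.map (starRingEnd ℂ)).conjTranspose = S.transpose := by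
    ext i j
    simp
  rwa [e] at this

theorem an_sm {V : Type} [NormedAddCommGroup V] [NormedSpace ℂ V] [CompleteSpace V] {s : Cm n → V}
    (hs : AnalyticAt ℂ s z) : ContDiffAt ℝ ∞ s z := (hs.contDiffAt (n := ∞)).restrict_scalars ℝ

theorem SP.comp (jb : JB) {q : ℕ} {u : Cm q → ℝ} {s : Cm n → Cm q} (h : SP u (s z))
    (hs : AnalyticAt ℂ s z) : SP (fun w => u (s w)) z :=
  ⟨h.sm.comp z (an_sm hs), jb.hess_comp n q s u z hs (two h.sm) ▸ pb_psd _ h.psd⟩

theorem sm_log {h : Cm n → ℂ} (hh : AnalyticAt ℂ h z) (h0 : h z ≠ 0) :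
    ContDiffAt ℝ ∞ (fun w => Real.log (‖h w‖ ^ 2)) z :=
  ((an_sm hh).norm_sq ℂ).log (pow_ne_zero 2 (norm_ne_zero_iff.2 h0))

theorem sp_log (jb : JB) {h : Cm n → ℂ} (hh : AnalyticAt ℂ h z) (h0 : h z ≠ 0) :
    SP (fun w => Real.log (‖h w‖ ^ 2)) z :=
  ⟨sm_log hh h0, (jb.hess_re n h z hh).2.2 h0 ▸ Matrix.PosSemidef.zero⟩

theorem sm_nsq {q : ℕ} (t₀ : Cm q) : ContDiff ℝ ∞ fun w : Cm q => nsq (w - t₀) :=
  ContDiff.sum fun b _ => ((contDiff_apply ℝ ℂ b).comp (contDiff_id.sub contDiff_const)).norm_sq ℂ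

theorem hess_nsq (jb : JB) {q : ℕ} {s : Cm n → Cm q} (hs : AnalyticAt ℂ s z) (t₀ : Cm q) :
    cHess (fun w => nsq (s w - t₀)) z = pb (jm s z) 1 := by
  rw [← jb.hess_nsq q t₀ (s z)]
  exact jb.hess_comp n q s (fun w => nsq (w - t₀)) z hs (two (sm_nsq t₀).contDiffAt)

theorem nsq_nonneg {q : ℕ} (x : Cm q) : 0 ≤ nsq x := Finset.sum_nonneg fun _ _ => sq_nonneg _

theorem nsq_le {q : ℕ} (x : Cm q) : nsq x ≤ q * ‖x‖ ^ 2 := by
  have := Finset.sum_le_card_nsmul Finset.univ (fun b => ‖x b‖ ^ 2) (‖x‖ ^ 2) fun b _ =>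
    pow_le_pow_left₀ (norm_nonneg _) (norm_le_pi_norm x b) 2
  simpa [nsq] using this

theorem norm_le_of_nsq {q : ℕ} {x : Cm q} {R : ℝ} (hR : 0 ≤ R) (h : nsq x ≤ R ^ 2) : ‖x‖ ≤ R :=
  (pi_norm_le_iff_of_nonneg hR).2 fun b => (pow_le_pow_iff_left₀ (norm_nonneg _) hR two_ne_zero).1
    ((Finset.single_le_sum (f := fun b => ‖x b‖ ^ 2) (fun _ _ => sq_nonneg _)
      (Finset.mem_univ b)).trans h)

/-- the regularised maximum of two smooth plurisubharmonic functions -/
theorem SP.rm (ha : SP a z) (hb : SP b z) : SP (fun w => a w + G (b w - a w)) z := by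
  have hd := hb.sm.sub ha.sm
  have hG : ContDiffAt ℝ ∞ (fun w => G (b w - a w)) z := G_sm.contDiffAt.comp z hd
  refine ⟨ha.sm.add hG, ?_⟩
  rw [C2.cHess_add (two ha.sm) (two hG),
    cHess_comp' (f := fun w => b w - a w) (G_sm.of_le two_le).contDiffAt (two hd),
    C2.cHess_sub (two hb.sm) (two ha.sm)]
  have h1 := ((psd_smul ha.psd (sub_nonneg.2 (G'_le (b z - a z)))).add
    (psd_smul hb.psd (G'_nonneg (b z - a z)))).add
    (psd_smul (gg_psd (fun w => b w - a w) z) (G''_nonneg (b z - a z)))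
  refine (congrArg Matrix.PosSemidef ?_).mp h1
  push_cast
  module

/-- the regularised maximum of `a` and `b`, where `b` is only defined on `O` -/
def gl {Y : Type} (O : Set Y) (a b : Y → ℝ) (y : Y) : ℝ :=
  a y + O.indicator (fun w => G (b w - a w)) y

section
variable {Y : Type} {O : Set Y} {a b : Y → ℝ} {y : Y}

theorem gl_of_mem (h : y ∈ O) : gl O a b y = a y + G (b y - a y) := by
  rw [gl, indicator_of_mem h]

theorem gl_left (h : y ∈ O → b y ≤ a y - 1) : gl O a b y = a y := by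
  by_cases hy : y ∈ O
  · rw [gl_of_mem hy, G_zero (by linarith [h hy]), add_zero]
  · rw [gl, indicator_of_notMem hy, add_zero]

theorem gl_right (h : y ∈ O) (h' : a y + 1 ≤ b y) : gl O a b y = b y := by
  rw [gl_of_mem h, G_id (by linarith), add_sub_cancel]

theorem left_le_gl : a y ≤ gl O a b y :=
  le_add_of_nonneg_right (indicator_nonneg (fun _ _ => G_nonneg _) y)

theorem right_le_gl (h : y ∈ O) : b y ≤ gl O a b y := by
  rw [gl_of_mem h]
  linarith [le_G (b y - a y)]

theorem gl_le {M : ℝ} (ha : a y ≤ M) (hb : y ∈ O → b y ≤ M) : gl O a b y ≤ M + 1 := by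
  by_cases hy : y ∈ O
  · rw [gl_of_mem hy]
    linarith [G_le (sub_le_sub_right (hb hy) (a y)) (sub_nonneg.2 ha)]
  · rw [gl_left fun h => (hy h).elim]
    linarith

theorem gl_ev [TopologicalSpace Y] (hO : IsOpen O) (hy : y ∈ O) (ca : ContinuousAt a y)
    (cb : ContinuousAt b y) (h : a y + 1 < b y) : gl O a b =ᶠ[𝓝 y] b := by
  filter_upwards [hO.mem_nhds hy, (ca.add continuousAt_const).eventually_lt cb h] with w h1 h2
  exact gl_right h1 h2.le

end

/-- **gluing** -/
theorem sp_gl (hO : IsOpen O) (ha : SP a z) (hb : z ∈ O → SP b z)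
    (hz : z ∉ O → ∀ᶠ w in 𝓝 z, w ∈ O → b w ≤ a w - 1) : SP (gl O a b) z := by
  by_cases h : z ∈ O
  · exact (ha.rm (hb h)).congr (by filter_upwards [hO.mem_nhds h] with w hw using gl_of_mem hw)
  · exact ha.congr ((hz h).mono fun w hw => gl_left hw)

end Vale.Agent.P284Z.K
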