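import Vale.Agent.P284Z.K.Bas

/-!
# P284Z, block K: the glued functions
-/

set_option linter.all false

open scoped ContDiff Topology ComplexOrder ENNReal
open Filter Set Function Metric MeasureTheory

noncomputable section

namespace Vale.Agent.P284Z.K.K1

open Vale.Agent.P272.K J Real

/-! ### inequalities between real numbers -/

theorem shell_num {κ φ β θ a b f w v u d ε : ℝ} (hκ : 0 < κ) (hφ : 0 < φ) (hβ : 0 < β)
    (ha : φ ≤ a) (ha1 : a ≤ 1) (hb : β ≤ b) (hb1 : b ≤ 1) (hf : β ≤ f) (hw : 0 ≤ w) (hε : ε ≤ 2)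
    (hv : κ * min a b ^ 3 * (a * b) ≤ v) (hd : d ≤ 0) (hu : u < θ) (hθ : θ = κ * φ ^ 3 * β ^ 5 / 2)
    (h : v * (f * f) ≤ ε * max (w * (f * b)) (max (d * (a * b)) (u * (a * f)))) :
    κ * φ ^ 3 / 2 * b ^ 3 * (a * f) ≤ w := by
  have a0 := hφ.trans_le ha
  have b0 := hβ.trans_le hb
  have f0 := hβ.trans_le hf
  have h1 : φ * b ≤ min a b := le_min ((mul_le_of_le_one_right hφ.le hb1).trans ha)
    (mul_le_of_le_one_left b0.le (ha.trans ha1))
  have h2 : κ * (φ * b) ^ 3 * (a * b) * (f * f) ≤ v * (f * f) := by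
    refine mul_le_mul_of_nonneg_right (le_trans ?_ hv) (by positivity)
    gcongr
  have h3 := h2.trans (h.trans (mul_le_mul_of_nonneg_right hε
    (le_max_of_le_left (by positivity))))
  have h4 : 2 * (u * (a * f)) < κ * (φ * b) ^ 3 * (a * b) * (f * f) := by
    have e1 : β ^ 5 ≤ b ^ 4 * f := by
      rw [pow_succ]
      gcongr
    have e2 : 2 * u < κ * φ ^ 3 * (b ^ 4 * f) :=
      lt_of_lt_of_le (by linarith) (mul_le_mul_of_nonneg_left e1 (by positivity))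
    have := mul_lt_mul_of_pos_right e2 (mul_pos a0 f0)
    linarith
  have h5 : 2 * (d * (a * b)) < κ * (φ * b) ^ 3 * (a * b) * (f * f) :=
    lt_of_le_of_lt (by linarith [mul_nonpos_of_nonpos_of_nonneg hd (mul_pos a0 b0).le])
      (by positivity : 0 < κ * (φ * b) ^ 3 * (a * b) * (f * f))
  refine le_of_mul_le_mul_right ?_ (mul_pos f0 b0)
  rcases max_cases (w * (f * b)) (max (d * (a * b)) (u * (a * f))) with e | e
  · rw [e.1] at h3
    linarith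
  · rw [e.1] at h3
    rcases max_cases (d * (a * b)) (u * (a * f)) with e | e <;> rw [e.1] at h3 <;> linarith

theorem win_num {δ φ β β' a b f w p d u ε : ℝ} (hδ : 0 < δ) (hφ : 0 < φ) (hβ : 0 < β) (hβ' : 0 < β')
    (ha : φ ≤ a) (hb : β ≤ b) (hf : β' ≤ f) (hε : ε ≤ 2) (hε0 : 0 ≤ ε) (hp : p ≤ δ * φ * β / 2)
    (hd : d ≤ 0) (hu : u < δ * β' * β / 2)
    (h : w * (b * b) ≤ ε * max (p * (b * f)) (max (d * (a * f)) (u * (a * b)))) :
    w ≤ δ * (a * f) := by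
  have a0 := hφ.trans_le ha
  have b0 := hβ.trans_le hb
  have f0 := hβ'.trans_le hf
  have h0 : 0 < δ * (a * f) * (b * b) / 2 := by positivity
  have h1 : max (p * (b * f)) (max (d * (a * f)) (u * (a * b))) ≤ δ * (a * f) * (b * b) / 2 := by
    refine max_le ?_ (max_le ((mul_nonpos_of_nonpos_of_nonneg hd (mul_pos a0 f0).le).trans h0.le) ?_)
    · have e : p ≤ δ * a * b / 2 := hp.trans (by gcongr)
      have := mul_le_mul_of_nonneg_right e (mul_pos b0 f0).le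
      linarith
    · have e : u ≤ δ * f * b / 2 := hu.le.trans (by gcongr)
      have := mul_le_mul_of_nonneg_right e (mul_pos a0 b0).le
      linarith
  have h2 := h.trans ((mul_le_mul_of_nonneg_left h1 hε0).trans
    (mul_le_mul_of_nonneg_right hε h0.le))
  exact le_of_mul_le_mul_right (by linarith) (mul_pos b0 b0)

/-! ### the two estimates -/

variable {n : ℕ} {Γ E : Type} [Group Γ] [TopologicalSpace E] [MulAction Γ E] {C : Cov n Γ E}
  {D : LD C} {L : Lim D} {Z : ZD L} {Φ : FD Z} {N : NC Z Φ.d Φ.q Φ.l₁} (T : TD Φ N)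
  {γ : Γ} {a : C.I} {z : Cm n} {h : Cm n → ℂ}

theorem eps_le (D : LD C) : ∀ᶠ j in atTop, D.ε j ≤ 2 :=
  (D.ε_tend.eventually (gt_mem_nhds one_lt_two)).mono fun _ h => h.le

theorem diag (D : LD C) (l : ℕ) : ∀ᶠ j in atTop, ∀ y, D.W l j y y ≤ 0 := by
  obtain ⟨K, hK⟩ := D.pole l
  exact hK.mono fun j hj => S.diag_zero (D.W_inv l j) hj (D.c_pos l)

theorem base : ∃ φ > (0 : ℝ), ∀ᶠ j in atTop, φ ≤ D.F j (T.sg T.t₀) :=
  ⟨_, half_pos T.good₀.1, (T.good₀.2.eventually (lt_mem_nhds (half_lt_self T.good₀.1))).mono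
    fun _ h => h.le⟩

theorem B4 (hz : z ∈ C.B (7 / 4) a) : z ∈ C.B 4 a := C.B_mono (by norm_num) a hz

variable {T} in
theorem cont_s (hz : z ∈ C.B 4 a) (hy : C.pt γ a z ∈ T.Ω) :
    ContinuousAt (fun w => T.s (C.pt γ a w)) z := (s_cont hy).comp (C.continuousAt_pt hz γ)

variable {T} in
theorem cont_sg (hz : z ∈ C.B 4 a) (hy : C.pt γ a z ∈ T.Ω) :
    ContinuousAt (fun w => T.sg (T.s (C.pt γ a w))) z :=
  (sg_cont (s_mem hy)).comp (f := fun w => T.s (C.pt γ a w)) (cont_s hz hy)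

theorem tube (l : ℕ) (hh : Φ.Th a h) {η r θ : ℝ} (hη : 0 < η) (hr : r < T.R) (hθ : 0 < θ) (γ : Γ) :
    ∀ᶠ j in atTop, ∀ z ∈ cT T h γ a (7 / 4) η r,
      D.W l j (T.sg (T.s (C.pt γ a z))) (C.pt γ a z) < θ := by
  have h1 := (cT_compact (T := T) hh (k := 7 / 4) (by norm_num) hη hr γ).image_of_continuousOn
    (f := fun z => (T.sg (T.s (C.pt γ a z)), C.pt γ a z)) fun z hz => by
      have h4 := C.cB_sub_B (k' := 4) (by norm_num) a hz.1
      exact ((cont_sg h4 hz.2.2.1).prodMk (C.continuousAt_pt h4 γ)).continuousWithinAt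
  filter_upwards [W_small (Z := Z) l h1 (by
    rintro _ ⟨z, hz, rfl⟩
    exact (T.mem _ hz.2.2.1).2 l) hθ] with j hj z hz
  exact hj _ ⟨z, hz, rfl⟩

theorem shell (hSB : Z.SB) : ∃ κ > (0 : ℝ), ∀ a h, Φ.Th a h → ∀ (γ : Γ) (η β : ℝ), 0 < η → 0 < β →
    ∀ᶠ j in atTop, ∀ z ∈ cT T h γ a (7 / 4) η (T.R / 2), T.R / 4 ≤ ‖T.s (C.pt γ a z) - T.t₀‖ →
      β ≤ D.F j (C.pt γ a z) → β ≤ D.F j (T.sg (T.s (C.pt γ a z))) →
      κ * D.F j (T.sg (T.s (C.pt γ a z))) ^ 3 * (D.F j (T.sg T.t₀) * D.F j (C.pt γ a z)) ≤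
        D.W (Φ.l₁ + 2) j (T.sg T.t₀) (C.pt γ a z) := by
  have hR := T.R_pos
  obtain ⟨φ, hφ, h0⟩ := base T
  have hs : closedBall T.t₀ (T.R / 2) ⊆ closedBall T.t₀ T.R := closedBall_subset_closedBall (by linarith)
  obtain ⟨κ, hκ, h1, -⟩ := hSB Φ.l₁ _
    (((isCompact_closedBall T.t₀ (T.R / 2)).diff (isOpen_ball (x := T.t₀) (ε := T.R / 4))).image_of_continuousOn
      (f := fun t => (T.sg T.t₀, T.sg t))
      fun t ht => (continuousAt_const.prodMk (sg_cont (hs ht.1))).continuousWithinAt)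
    (disjoint_left.2 (by
      rintro _ ⟨t, ht, rfl⟩ hu
      have h2 := mem_closedBall_self (x := T.t₀) hR.le
      have h3 := (N.rel _ (sg_src h2) _ (sg_src (hs ht.1))).1 hu
      rw [sg_snd h2, sg_snd (hs ht.1)] at h3
      exact ht.2 (h3 ▸ mem_ball_self (by linarith))))
  refine ⟨κ * φ ^ 3 / 2, by positivity, fun a h hh γ η β hη hβ => ?_⟩
  filter_upwards [h0, h1, eps_le D, diag D (Φ.l₁ + 2), D.chain (Φ.l₁ + 1), tube T (Φ.l₁ + 2) hh hη
    (half_lt_self hR) (by positivity : 0 < κ * φ ^ 3 * β ^ 5 / 2) γ]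
    with j a0 a1 a2 a3 a4 a5 z hz b1 b2 b3
  exact shell_num hκ hφ hβ a0 (D.F_le _ _) b3 (D.F_le _ _) b2 (D.W_nonneg _ _ _ _) a2
    (a1 _ ⟨_, ⟨mem_closedBall_iff_norm.2 hz.2.2.2, fun e => (mem_ball_iff_norm.1 e).not_ge b1⟩, rfl⟩)
    (a3 _) ((D.W_symm _ _ _ _).trans_lt (a5 z hz)) rfl (a4 _ _ _ _)

theorem window {δ β : ℝ} (hδ : 0 < δ) (hβ : 0 < β) : ∃ r ∈ Ioc 0 (T.R / 2), ∀ a h, Φ.Th a h →
    ∀ (γ : Γ) (η β' : ℝ), 0 < η → 0 < β' → ∀ᶠ j in atTop, ∀ z ∈ cT T h γ a (7 / 4) η r,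
      β' ≤ D.F j (C.pt γ a z) → β ≤ D.F j (T.sg (T.s (C.pt γ a z))) →
      D.W (Φ.l₁ + 2) j (T.sg T.t₀) (C.pt γ a z) ≤
        δ * (D.F j (T.sg T.t₀) * D.F j (C.pt γ a z)) := by
  have hR := T.R_pos
  obtain ⟨φ, hφ, h0⟩ := base T
  obtain ⟨K, hK⟩ := D.pole (Φ.l₁ + 3)
  have hc := D.c_pos (Φ.l₁ + 3)
  have h2 := mem_closedBall_self (x := T.t₀) hR.le
  have h3 : ContinuousAt (fun t => max K 1 * ‖cs T T.t₀ - cs T t‖ ^ D.c (Φ.l₁ + 3)) T.t₀ :=
    continuousAt_const.mul ((continuousAt_const.sub (cs_an h2).continuousAt).norm.rpow_const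
      (Or.inr hc.le))
  obtain ⟨r, hr, h4⟩ := nhds_basis_closedBall.eventually_iff.1 (h3.eventually_lt continuousAt_const
    (show _ < δ * φ * β / 2 by
      simp only [sub_self, norm_zero, zero_rpow hc.ne', mul_zero]
      positivity))
  refine ⟨min r (T.R / 2), ⟨lt_min hr (half_pos hR), min_le_right _ _⟩,
    fun a h hh γ η β' hη hβ' => ?_⟩
  filter_upwards [h0, hK, eps_le D, diag D (Φ.l₁ + 3), D.chain (Φ.l₁ + 2), tube T (Φ.l₁ + 3) hh hη
    ((min_le_right r _).trans_lt (half_lt_self hR)) (by positivity : 0 < δ * β' * β / 2) γ]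
    with j a0 a1 a2 a3 a4 a5 z hz b2 b3
  refine win_num hδ hφ hβ hβ' a0 b3 b2 a2 (zero_le_one.trans (D.one_le j)) ?_ (a3 _) (a5 z hz)
    (a4 _ _ _ _)
  have h5 := s_mem hz.2.2.1
  have h6 := S.pole_gen (D.W_inv _ j) a1 hc.le N.g N.a (C.B_mono (by norm_num) _ (cs_mem h2))
    (C.B_mono (by norm_num) _ (cs_mem h5)) le_rfl
  rw [pt_cs h2, pt_cs h5] at h6
  exact h6.trans (h4 (mem_closedBall_iff_norm.2 (hz.2.2.2.trans (min_le_left _ _)))).le

/-! ### the functions -/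

/-- the domain of the second function -/
def O₁ (j : ℕ) (γ : Γ) (a : C.I) : Set (Cm n) :=
  {w ∈ C.B 4 a | 0 < D.W (Φ.l₁ + 2) j (T.sg T.t₀) (C.pt γ a w)}

/-- the domain of the third function -/
def O₂ (j : ℕ) (h : Cm n → ℂ) (γ : Γ) (a : C.I) : Set (Cm n) :=
  {w ∈ C.B (7 / 4) a | C.pt γ a w ∈ T.Ω ∧ ‖T.s (C.pt γ a w) - T.t₀‖ < T.R / 2 ∧
    0 < D.F j (C.pt γ a w) ∧ 0 < D.F j (T.sg (T.s (C.pt γ a w))) ∧ h w ≠ 0}

theorem cont_W (l j : ℕ) (x : E) (hz : z ∈ C.B 4 a) :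
    ContinuousAt (fun w => D.W l j x (C.pt γ a w)) z :=
  (D.W_cont l j).continuousAt.comp (f := fun w => (x, C.pt γ a w))
    (continuousAt_const.prodMk (C.continuousAt_pt hz γ))

theorem O₁_open (j : ℕ) : IsOpen (O₁ T j γ a) := isOpen_iff_mem_nhds.2 fun _ hz =>
  inter_mem ((C.isOpen_B 4 a).mem_nhds hz.1) ((cont_W _ j _ hz.1).eventually (lt_mem_nhds hz.2))

theorem O₂_open (j : ℕ) (hh : Φ.Th a h) : IsOpen (O₂ T j h γ a) := by
  refine isOpen_iff_mem_nhds.2 fun z ⟨h1, h2, h3, h4, h5, h6⟩ => ?_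
  filter_upwards [(C.isOpen_B _ a).mem_nhds h1, ev_mem (B4 h1) h2,
    ((cont_s (B4 h1) h2).sub continuousAt_const).norm.eventually (gt_mem_nhds h3),
    ((D.F_cont j).continuousAt.comp (C.continuousAt_pt (B4 h1) γ)).eventually (lt_mem_nhds h4),
    ((D.F_cont j).continuousAt.comp (cont_sg (B4 h1) h2)).eventually (lt_mem_nhds h5),
    (hh.an z (C.B_mono (by norm_num) a h1)).continuousAt.eventually_ne h6] with w a1 a2 a3 a4 a5 a6
  exact ⟨a1, a2, a3, a4, a5, a6⟩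

/-- the first function -/
def β₀ (D : LD C) (g : E → ℝ) (γ : Γ) (a : C.I) (M : ℝ) (w : Cm n) : ℝ :=
  D.A * C.ρ a w + g (C.pt γ a w) - M

/-- the second function -/
def β₁ (j : ℕ) (γ : Γ) (a : C.I) (w : Cm n) : ℝ :=
  D.A * C.ρ a w + log (D.W (Φ.l₁ + 2) j (T.sg T.t₀) (C.pt γ a w)) - log (D.F j (T.sg T.t₀))

/-- the third function, without the euclidean term -/
def β₂ (j : ℕ) (h : Cm n → ℂ) (γ : Γ) (a : C.I) (k c : ℝ) (w : Cm n) : ℝ :=
  D.A * C.ρ a w + log (D.F j (C.pt γ a w)) + 3 * (D.A * C.ρ N.a (cs T (T.s (C.pt γ a w))) +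
    log (D.F j (T.sg (T.s (C.pt γ a w))))) + k⁻¹ * log (‖h w‖ ^ 2) - c

/-- the third function -/
def β₃ (j : ℕ) (h : Cm n → ℂ) (γ : Γ) (a : C.I) (k c : ℝ) (w : Cm n) : ℝ :=
  β₂ T j h γ a k c w + nsq (T.s (C.pt γ a w) - T.t₀)

variable {T} {j : ℕ} {k c M T' : ℝ} {g : E → ℝ}

theorem sp₁ (hg : D.Tr j T' g) (h0 : 0 < D.F j (T.sg T.t₀)) (hz : z ∈ C.B 4 a) :
    SP (gl (O₁ T j γ a) (β₀ D g γ a M) (β₁ T j γ a)) z := by
  refine sp_gl (O₁_open T j) ((sp_psh hg.psh γ hz).sub_const M)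
    (fun h => (spW D _ j _ hz h.2).sub_const _) fun h => ?_
  have h1 : D.W (Φ.l₁ + 2) j (T.sg T.t₀) (C.pt γ a z) <
      exp (log (D.F j (T.sg T.t₀)) - T' - 3 - M) :=
    (not_lt.1 fun e => h ⟨hz, e⟩).trans_lt (exp_pos _)
  filter_upwards [(cont_W _ j _ hz).eventually (gt_mem_nhds h1)] with w a1 a2
  have := (log_lt_iff_lt_exp a2.2).2 a1
  have := hg.ge (C.pt γ a w)
  rw [β₀, β₁]
  linarith

theorem sp₂ (jb : JB) (hh : Φ.Th a h) (hk : 0 < k) (hz : z ∈ O₂ T j h γ a) :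
    SP (β₂ T j h γ a k c) z :=
  (((spF D j (B4 hz.1) hz.2.2.2.1).add ((spΦ jb j (B4 hz.1) hz.2.1 hz.2.2.2.2.1).const_mul
    (by norm_num))).add ((sp_log jb (hh.an z (C.B_mono (by norm_num) a hz.1))
      hz.2.2.2.2.2).const_mul (inv_pos.2 hk).le)).sub_const c

theorem sp₃ (jb : JB) (hh : Φ.Th a h) (hk : 0 < k) (hz : z ∈ O₂ T j h γ a) :
    SP (β₃ T j h γ a k c) z ∧ (cHess (β₃ T j h γ a k c) z - C.pbs T.s γ a z).PosSemidef := by
  have h1 := T.hol γ a z (B4 hz.1) hz.2.1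
  have h2 : ContDiffAt ℝ ∞ (fun w => nsq (T.s (C.pt γ a w) - T.t₀)) z :=
    (sm_nsq T.t₀).contDiffAt.comp z (an_sm h1)
  have h3 := sp₂ (c := c) jb hh hk hz
  refine ⟨h3.add ⟨h2, hess_nsq jb h1 T.t₀ ▸ pb_psd _ Matrix.PosSemidef.one⟩, ?_⟩
  have h4 := C2.cHess_add (two h3.sm) (two h2)
  rw [hess_nsq jb h1] at h4
  exact (congrArg Matrix.PosSemidef (eq_sub_of_add_eq h4.symm)).mp h3.psd

theorem log_h (hh : Φ.Th a h) (hk : 0 < k) (hz : z ∈ C.B (7 / 4) a) : k⁻¹ * log (‖h z‖ ^ 2) ≤ 0 :=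
  mul_nonpos_of_nonneg_of_nonpos (inv_pos.2 hk).le
    (log_nonpos (sq_nonneg _) (pow_le_one₀ (norm_nonneg _) (hh.le z hz)))

theorem β₃_bd (hM : ∀ a, ∀ z ∈ C.cB 3 a, |C.ρ a z| ≤ M) (hy : C.pt γ a z ∈ T.Ω) :
    ∃ e : ℝ, -(3 * (D.A * M)) ≤ e ∧ e ≤ 3 * (D.A * M) + Φ.q * T.R ^ 2 ∧
      β₃ T j h γ a k c z = D.A * C.ρ a z + log (D.F j (C.pt γ a z)) +
        3 * log (D.F j (T.sg (T.s (C.pt γ a z)))) + k⁻¹ * log (‖h z‖ ^ 2) - c + e := by
  have h1 := abs_le.1 (hM _ _ (C.B_sub_cB 3 _ (C.B_mono (by norm_num) _ (cs_mem (s_mem hy)))))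
  have h2 := mul_le_mul_of_nonneg_left h1.1 D.A_pos.le
  have h3 := mul_le_mul_of_nonneg_left h1.2 D.A_pos.le
  have h4 := nsq_nonneg (T.s (C.pt γ a z) - T.t₀)
  have h5 := (nsq_le (T.s (C.pt γ a z) - T.t₀)).trans (mul_le_mul_of_nonneg_left
    (pow_le_pow_left₀ (norm_nonneg _) (mem_closedBall_iff_norm.1 (s_mem hy)) 2) (Nat.cast_nonneg _))
  refine ⟨3 * (D.A * C.ρ N.a (cs T (T.s (C.pt γ a z)))) + nsq (T.s (C.pt γ a z) - T.t₀),
    by linarith, by linarith, ?_⟩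
  rw [β₃, β₂]
  ring

end Vale.Agent.P284Z.K.K1

namespace Vale.Agent.P284Z

open Vale.Agent.P272.K J Real K K.K1

theorem stK1 : StK1 := by
  intro n Γ E _ _ _ _ _ C D L Z jb hSB Φ N T m₀
  have hR := T.R_pos
  obtain ⟨M, M0, hM⟩ := rho_bd C
  have AM : 0 ≤ D.A * M := mul_nonneg D.A_pos.le M0
  have qR : 0 ≤ Φ.q * T.R ^ 2 := by positivity
  obtain ⟨κ, hκ, hS⟩ := shell T hSB
  obtain ⟨c, hc⟩ : ∃ c, c = 3 * (D.A * M) + Φ.q * T.R ^ 2 + (|log κ| + 1) := ⟨_, rfl⟩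
  obtain ⟨M', hM'⟩ : ∃ M', M' = 3 * |m₀| + 3 * (D.A * M) + c + 4 := ⟨_, rfl⟩
  have κ0 := abs_nonneg (log κ)
  have m0 := abs_nonneg m₀
  obtain ⟨r, hr, hW⟩ := window T (exp_pos (-M')) (exp_pos (-m₀))
  obtain ⟨φ, hφ, h0⟩ := base T
  refine ⟨r, ⟨hr.1, hr.2.trans_lt (half_lt_self hR)⟩, M' + 5, fun a h hh γ k T' hk => ?_⟩
  obtain ⟨Q, hQ⟩ : ∃ Q, Q = |T'| + 3 + M' := ⟨_, rfl⟩
  have hη : 0 < √(exp (-(k * Q))) := sqrt_pos.2 (exp_pos _)
  filter_upwards [h0, eps_le D, hS a h hh γ _ _ hη (exp_pos (-Q)),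
    hW a h hh γ _ _ (sqrt_pos.2 (exp_pos (-k))) (exp_pos (-T'))] with j a0 a1 a2 a3 g hg
  replace a0 := hφ.trans_le a0
  have small : ∀ w ∈ O₂ T j h γ a, D.F j (C.pt γ a w) < exp (-Q) ∨
      D.F j (T.sg (T.s (C.pt γ a w))) < exp (-Q) ∨ ‖h w‖ < √(exp (-(k * Q))) →
      β₃ T j h γ a k c w ≤ gl (O₁ T j γ a) (β₀ D g γ a M') (β₁ T j γ a) w - 1 := by
    intro w hw hs
    refine le_trans ?_ (sub_le_sub_right left_le_gl 1)
    obtain ⟨e, -, e2, e3⟩ := β₃_bd (j := j) (h := h) (k := k) (c := c) hM hw.2.1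
    have b1 := log_F_le D j (C.pt γ a w)
    have b2 := log_F_le D j (T.sg (T.s (C.pt γ a w)))
    have b3 := log_h hh hk hw.1
    have b4 := hg.ge (C.pt γ a w)
    have b5 := le_abs_self T'
    rw [e3, β₀]
    rcases hs with hs | hs | hs
    · linarith [(log_lt_iff_lt_exp hw.2.2.2.1).2 hs]
    · linarith [(log_lt_iff_lt_exp hw.2.2.2.2.1).2 hs]
    · have b6 := (log_lt_iff_lt_exp (pow_pos (norm_pos_iff.2 hw.2.2.2.2.2) 2)).2
        ((lt_sqrt (norm_nonneg _)).1 hs)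
      have b7 : k⁻¹ * log (‖h w‖ ^ 2) ≤ -Q := (inv_mul_le_iff₀ hk).2 (by linarith)
      linarith
  have big : ∀ w ∈ O₂ T j h γ a, T.R / 4 ≤ ‖T.s (C.pt γ a w) - T.t₀‖ →
      β₃ T j h γ a k c w ≤ gl (O₁ T j γ a) (β₀ D g γ a M') (β₁ T j γ a) w - 1 := by
    intro w hw hs
    by_contra hn
    have b0 := mt (small w hw) hn
    simp only [not_or, not_lt] at b0
    have b1 := a2 w ⟨C.B_sub_cB _ a hw.1, b0.2.2, hw.2.1, hw.2.2.1.le⟩ hs b0.1 b0.2.1
    have p1 := hw.2.2.2.1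
    have p2 := hw.2.2.2.2.1
    have b2 : 0 < κ * D.F j (T.sg (T.s (C.pt γ a w))) ^ 3 *
      (D.F j (T.sg T.t₀) * D.F j (C.pt γ a w)) := by positivity
    have b3 := log_le_log b2 b1
    rw [log_mul (by positivity) (by positivity), log_mul hκ.ne' (by positivity),
      log_mul a0.ne' p1.ne', log_pow] at b3
    refine hn (le_trans ?_ (sub_le_sub_right
      (right_le_gl (O := O₁ T j γ a) ⟨B4 hw.1, b2.trans_le b1⟩) 1))
    obtain ⟨e, -, e2, e3⟩ := β₃_bd (j := j) (h := h) (k := k) (c := c) hM hw.2.1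
    have b4 := log_h hh hk hw.1
    have b5 := neg_abs_le (log κ)
    rw [e3, β₁]
    push_cast at b3
    linarith
  have ge : ∀ w, g (C.pt γ a w) = g (C.pt 1 a w) := fun w => by rw [C.pt_eq γ, hg.psh.inv]
  refine ⟨gl (O₂ T j h γ a) (gl (O₁ T j γ a) (β₀ D g γ a M') (β₁ T j γ a)) (β₃ T j h γ a k c),
    fun z hz => ?_, fun z ⟨w1, w2, w3, w4, w5, w6⟩ => ?_⟩
  · have sp : SP (gl (O₂ T j h γ a) (gl (O₁ T j γ a) (β₀ D g γ a M') (β₁ T j γ a))
        (β₃ T j h γ a k c)) z := by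
      refine sp_gl (O₂_open T j hh) (sp₁ hg a0 (B4 hz)) (fun h => (sp₃ jb hh hk h).1) fun hn => ?_
      by_cases b1 : z ∈ cT T h γ a (7 / 4) √(exp (-(k * Q))) (T.R / 2)
      swap
      · filter_upwards [(cT_compact hh (by norm_num) hη (half_lt_self hR)
          γ).isClosed.isOpen_compl.mem_nhds b1] with w b2 hw
        exact small w hw (Or.inr (Or.inr (lt_of_not_ge fun e =>
          b2 ⟨C.B_sub_cB _ a hw.1, e, hw.2.1, hw.2.2.1.le⟩)))
      have b2 := b1.2.2.1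
      by_cases b3 : T.R / 4 < ‖T.s (C.pt γ a z) - T.t₀‖
      · filter_upwards [((cont_s (B4 hz) b2).sub continuousAt_const).norm.eventually
          (lt_mem_nhds b3)] with w b4 hw
        exact big w hw b4.le
      by_cases b4 : D.F j (C.pt γ a z) < exp (-Q)
      · filter_upwards [((D.F_cont j).continuousAt.comp (C.continuousAt_pt (B4 hz) γ)).eventually
          (gt_mem_nhds b4)] with w b5 hw
        exact small w hw (Or.inl b5)
      by_cases b5 : D.F j (T.sg (T.s (C.pt γ a z))) < exp (-Q)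
      · filter_upwards [((D.F_cont j).continuousAt.comp (cont_sg (B4 hz) b2)).eventually
          (gt_mem_nhds b5)] with w b6 hw
        exact small w hw (Or.inr (Or.inl b6))
      exact (hn ⟨hz, b2, by linarith, (exp_pos _).trans_le (not_lt.1 b4),
        (exp_pos _).trans_le (not_lt.1 b5), norm_pos_iff.1 (hη.trans_le b1.2.1)⟩).elim
    refine ⟨sp.sm, sp.psd, abs_le.2 ⟨?_, ?_⟩⟩
    · have := (left_le_gl (O := O₁ T j γ a) (a := β₀ D g γ a M') (b := β₁ T j γ a) (y := z)).trans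
        (left_le_gl (O := O₂ T j h γ a) (b := β₃ T j h γ a k c))
      rw [β₀, ge] at this
      linarith
    · have b1 : gl (O₁ T j γ a) (β₀ D g γ a M') (β₁ T j γ a) z ≤
          D.A * C.ρ a z + g (C.pt γ a z) + 3 + 1 := by
        refine gl_le (by rw [β₀]; linarith) fun hw => ?_
        have b2 := (D.W_le (Φ.l₁ + 2) j _ _).trans (mul_le_mul_of_nonneg_right a1
          (mul_nonneg a0.le (D.F_nonneg j (C.pt γ a z))))
        have b3 : 0 < D.F j (C.pt γ a z) :=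
          (mul_pos_iff_of_pos_left a0).1 ((mul_pos_iff_of_pos_left two_pos).1 (hw.2.trans_le b2))
        have b4 := log_le_log hw.2 b2
        rw [log_mul two_ne_zero (by positivity), log_mul a0.ne' b3.ne'] at b4
        have b5 := log_le_tr hg b3
        have b6 := log_le_sub_one_of_pos two_pos
        rw [β₁]
        linarith
      have b2 := gl_le (O := O₂ T j h γ a) (b := β₃ T j h γ a k c) b1 fun hw => by
        obtain ⟨e, -, e2, e3⟩ := β₃_bd (j := j) (h := h) (k := k) (c := c) hM hw.2.1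
        have b2 := log_F_le D j (T.sg (T.s (C.pt γ a z)))
        have b3 := log_h hh hk hw.1
        have b5 := log_le_tr hg hw.2.2.2.1
        linarith
      rw [ge] at b2
      linarith
  · rw [← F_pt D j γ] at w6
    have p1 := (exp_pos _).trans w6
    have p2 := (exp_pos _).trans w4
    have p3 := (exp_pos _).trans w5
    have hz : z ∈ O₂ T j h γ a := ⟨w1, w2, w3.trans_le hr.2, p1, p2, fun e => by simp [e] at p3⟩
    have b1 : gl (O₁ T j γ a) (β₀ D g γ a M') (β₁ T j γ a) z ≤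
        D.A * C.ρ a z + log (D.F j (C.pt γ a z)) - M' + 1 := by
      refine gl_le (by rw [β₀, hg.eq _ w6]) fun hw => ?_
      have b2 := log_le_log hw.2 (a3 z ⟨C.B_sub_cB _ a w1,
        sqrt_le_iff.2 ⟨norm_nonneg _, w5.le⟩, w2, w3.le⟩ w6.le w4.le)
      rw [log_mul (exp_pos _).ne' (by positivity), log_mul a0.ne' p1.ne', log_exp] at b2
      rw [β₁]
      linarith
    obtain ⟨e, e1, -, e3⟩ := β₃_bd (j := j) (h := h) (k := k) (c := c) hM w2
    have b2 := (lt_log_iff_exp_lt p2).2 w4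
    have b3 : -1 ≤ k⁻¹ * log (‖h z‖ ^ 2) :=
      (le_inv_mul_iff₀ hk).2 (by linarith [(lt_log_iff_exp_lt p3).2 w5])
    have b4 := le_abs_self m₀
    rw [C2.cHess_congr (gl_ev (O₂_open T j hh) hz (sp₁ hg a0 (B4 w1)).cont (sp₃ jb hh hk hz).1.cont
      (by linarith))]
    exact (sp₃ jb hh hk hz).2

end Vale.Agent.P284Z
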