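import Vale.Agent.P284Z.K.Bas

/-!
# P284Z, block K: the tube over the good parameters is bounded
-/

set_option linter.all false

open scoped ContDiff Topology ComplexOrder ENNReal
open Filter Set Function Metric MeasureTheory

noncomputable section

namespace Vale.Agent.P284Z.K

open Vale.Agent.P272.K J Real

theorem SP.sum {n : ℕ} {ι : Type} (s : Finset ι) {f : ι → Cm n → ℝ} {z : Cm n}
    (h : ∀ i, SP (f i) z) : SP (fun w => ∑ i ∈ s, f i w) z := by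
  classical
  induction s using Finset.induction_on with
  | empty => exact sp_const 0 z
  | insert i s hi ih => simpa only [Finset.sum_insert hi] using (h i).add ih

/-- a plurisubharmonic bump supported in a window -/
theorem bump {n : ℕ} {ι : Type} [Fintype ι] {U : Set (Cm n)} (hU : IsOpen U)
    (P φ : ι → Cm n → ℝ) (c : ι → ℝ) (hc : ∀ i, 0 < c i)
    (h : ∀ i, ∀ z ∈ U, ContinuousAt (P i) z ∧ 0 ≤ P i z ∧ P i z ≤ 1 ∧ φ i z ≤ 0 ∧
      (0 < P i z → SP (fun w => φ i w + log (P i w)) z)) :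
    ∃ u : Cm n → ℝ, ∀ z ∈ U, SP u z ∧ 0 ≤ u z ∧ u z ≤ 3 ∧ (u z ≠ 0 → ∀ i, exp (-c i) < P i z) ∧
      ((∀ i, 0 < P i z) → -(1 / 3) ≤ ∑ i, (c i)⁻¹ * (φ i z + log (P i z)) → 1 ≤ u z) := by
  let O := {z ∈ U | ∀ i, 0 < P i z}
  let b := fun w => 3 * ∑ i, (c i)⁻¹ * (φ i w + log (P i w)) + 2
  have hO : IsOpen O := isOpen_iff_mem_nhds.2 fun z hz => (hU.eventually_mem hz.1).and
    (eventually_all.2 fun i => (h i z hz.1).1.eventually (lt_mem_nhds (hz.2 i)))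
  have h1 : ∀ w ∈ U, ∀ i, (c i)⁻¹ * (φ i w + log (P i w)) ≤ 0 := fun w hw i =>
    mul_nonpos_of_nonneg_of_nonpos (inv_pos.2 (hc i)).le
      (add_nonpos (h i w hw).2.2.2.1 (log_nonpos (h i w hw).2.1 (h i w hw).2.2.1))
  have h2 : ∀ w i, P i w ≤ exp (-c i) → w ∈ O → b w ≤ 0 - 1 := fun w i hi hw => by
    have e1 := Finset.single_le_sum (f := fun i => -((c i)⁻¹ * (φ i w + log (P i w))))
      (fun i _ => neg_nonneg.2 (h1 w hw.1 i)) (Finset.mem_univ i)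
    have e2 : (c i)⁻¹ * (φ i w + log (P i w)) ≤ -1 := (inv_mul_le_iff₀ (hc i)).2 (by
      linarith [(log_le_iff_le_exp (hw.2 i)).2 hi, (h i w hw.1).2.2.2.1])
    rw [Finset.sum_neg_distrib] at e1
    simp only [b]
    linarith
  refine ⟨gl O (fun _ => 0) b, fun z hz => ⟨sp_gl hO (sp_const 0 z) (fun hz => ?_) fun hz' => ?_,
    left_le_gl (a := fun _ => 0), ?_, fun e i => lt_of_not_ge fun hi => e (gl_left (h2 z i hi)),
    fun e e' => le_trans ?_ (right_le_gl ⟨hz, e⟩)⟩⟩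
  · exact ((SP.sum _ fun i => ((h i z hz.1).2.2.2.2 (hz.2 i)).const_mul
      (inv_pos.2 (hc i)).le).const_mul (by norm_num)).add_const 2
  · obtain ⟨i, hi⟩ := not_forall.1 fun e => hz' ⟨hz, e⟩
    exact ((h i z hz).1.eventually (gt_mem_nhds ((not_lt.1 hi).trans_lt (exp_pos (-c i))))).mono
      fun w hw => h2 w i hw.le
  · have := gl_le (O := O) (a := fun _ => 0) (b := b) (y := z) (M := 2) (by norm_num) fun _ => by
      simp only [b]
      linarith [Finset.sum_nonpos fun i (_ : i ∈ Finset.univ) => h1 z hz i]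
    linarith
  · simp only [b]
    linarith

theorem int_le {X : Type} [MeasurableSpace X] {μ : Measure X} {B S : Set X} (hB : MeasurableSet B)
    {f g : X → ℝ≥0∞} {c : ℝ≥0∞} (hc : c ≠ ⊤) (h : ∀ z ∈ B, f z ≠ 0 → z ∈ S ∧ f z ≤ c * g z) :
    ∫⁻ z in B, f z ∂μ ≤ c * ∫⁻ z in S, g z ∂μ := by
  rw [← lintegral_const_mul' _ _ hc]
  refine ((setLIntegral_mono' hB fun z hz => ?_).trans (setLIntegral_le_lintegral _ _)).trans
    (lintegral_indicator_le _ _)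
  by_cases e : f z = 0
  · exact e.trans_le zero_le
  · rw [indicator_of_mem (h z hz e).1]
    exact (h z hz e).2

theorem det_le {n : ℕ} {H F B : Mx n} {c A : ℝ} (hA : 0 < A) (hc : 1 ≤ c) (hH : H.PosSemidef)
    (hF : F.PosSemidef) (hB : B.PosSemidef) (h1 : ((c : ℂ) • H - 1).PosSemidef)
    (h2 : (F - B).PosSemidef) :
    (1 + B).det.re ≤ (c / A + 1) ^ n * ((A : ℂ) • H + F).det.re := by
  have h3 := det_mono (B := ((c / A + 1 : ℝ) : ℂ) • ((A : ℂ) • H + F))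
    (Matrix.PosSemidef.one.add hB) ((congrArg Matrix.PosSemidef ?_).mp
      (((h1.add h2).add (psd_smul hH hA.le)).add (psd_smul hF (c := c / A) (by positivity))))
  · rwa [Matrix.det_smul, Fintype.card_fin, ← Complex.ofReal_pow, Complex.re_ofReal_mul] at h3
  · have : (A : ℂ) ≠ 0 := Complex.ofReal_ne_zero.2 hA.ne'
    push_cast
    match_scalars <;> field_simp <;> ring

theorem ninth {x y : ℝ} (h : -y ≤ x) (hy : 0 ≤ y) {c : ℝ} (hc : 9 * y + 1 ≤ c) :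
    -(1 / 9) ≤ c⁻¹ * x := (le_inv_mul_iff₀ (by linarith)).2 (by linarith)

end Vale.Agent.P284Z.K

namespace Vale.Agent.P284Z

open Vale.Agent.P272.K J Real K

theorem stK2 : StK2 := by
  intro n Γ E _ _ _ _ _ C D L Z jb jmv jM htr htail Φ N T hG hR κ hκ
  obtain ⟨M, hM0, hM⟩ := rho_bd C
  have hA := D.A_pos
  have hAM := mul_nonneg hA.le hM0
  obtain ⟨m₀, hm₀⟩ : ∃ m₀, m₀ = 9 * (|log κ| + 2 * (D.A * M)) + 1 := ⟨_, rfl⟩
  obtain ⟨r, hr, L₀, hG⟩ := hG m₀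
  refine ⟨r / 2, ⟨half_pos hr.1, (half_le_self hr.1.le).trans_lt hr.2⟩, ?_⟩
  suffices H : ∀ a, ∃ G : Set Γ, G.Finite ∧ ∀ γ ∉ G, volume (T.Tub (T.A κ (r / 2)) γ a) = 0 by
    choose G h1 h2 using H
    exact ⟨⋃ a, G a, finite_iUnion h1, fun γ hγ a => h2 a γ fun h => hγ (mem_iUnion_of_mem a h)⟩
  intro a
  obtain ⟨h, hh⟩ := exists_th Φ a
  obtain ⟨c, hc, jmv⟩ := jmv n
  have hra := C.r_pos a
  obtain ⟨R, hR0, hR1, hR2⟩ : ∃ R > (0 : ℝ), R ≤ r / 2 ∧ R ≤ C.r a / 4 :=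
    ⟨_, lt_min (half_pos hr.1) (by positivity), min_le_left _ _, min_le_right _ _⟩
  have hB : ∀ {k : ℝ} {z}, z ∈ C.B (3 / 2) a → 3 / 2 ≤ k → z ∈ C.B k a := fun hz hk =>
    C.B_mono hk a hz
  obtain ⟨c', hc', hd⟩ := rho_dom a (C.isCompact_cB (3 / 2) a) (C.cB_sub_B (by norm_num) a)
    (A := fun _ => 1) continuousOn_const fun _ _ => Matrix.isHermitian_one
  obtain ⟨c₁, hc₁⟩ : ∃ c₁, c₁ = 3 * (c' / D.A + 1) ^ n := ⟨_, rfl⟩
  have h₁ : 0 < c₁ := by rw [hc₁]; positivity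
  obtain ⟨ε, hε, h₂⟩ : ∃ ε > (0 : ℝ), c₁ * ε + c₁ * ε < c * R ^ (2 * n) :=
    ⟨c * R ^ (2 * n) / (3 * c₁), by positivity, by
      have : 0 < c * R ^ (2 * n) := by positivity
      field_simp
      norm_num⟩
  obtain ⟨K, hK⟩ := jM.C1 D.A L₀ hA
  obtain ⟨e, he, h₃⟩ : ∃ e > (0 : ℝ), |K| * (e + e) ≤ ε := ⟨ε / (2 * (|K| + 1)), by positivity, by
    have := abs_nonneg K
    field_simp
    linarith⟩
  obtain ⟨m₁, h₄, htail⟩ := htail (.ofReal e) (ENNReal.ofReal_pos.2 he)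
  obtain ⟨m, h₅, h₆⟩ : ∃ m, m₁ ≤ m ∧ 1 / √m ≤ e := ⟨max m₁ ((1 / e) ^ 2), le_max_left _ _,
    (one_div_le (sqrt_pos.2 (lt_max_of_lt_right (by positivity))) he).2
      (le_sqrt_of_sq_le (le_max_right _ _))⟩
  obtain ⟨η, hη, hC2⟩ := jM.C2 D.A (2 * m + |L₀| + 2) hA a h hh.an hh.ne (.ofReal ε)
    (ENNReal.ofReal_pos.2 hε)
  obtain ⟨k1, k2⟩ := th_compact hh (k := 3 / 2) (by norm_num) hη 1
  refine ⟨_, not_infinite.1 fun e => hR ⟨_, C.isCompact_image_pt 1 k1 fun z hz =>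
    C.cB_sub_B (by norm_num) a hz.1, k2, r, hr.2, e⟩, fun γ hγ => by_contra fun hv => ?_⟩
  obtain ⟨z₀, ⟨z1, z2, z3, z4⟩, z5, z6⟩ := Measure.exists_mem_of_measure_ne_zero_of_ae hv
    (ae_restrict_of_ae ((th_ae hh).and (L.F_ae a)))
  replace z5 := z5 (C.B_mono (by norm_num) a z1)
  obtain ⟨z6, z7⟩ := z6 (C.B14 z1)
  obtain ⟨k, hk⟩ : ∃ k, k = 9 * |log (‖h z₀‖ ^ 2)| + 1 := ⟨_, rfl⟩
  have hk0 : 0 < k := by rw [hk]; positivity
  obtain ⟨S, hS1, hS2⟩ : ∃ S, 2 * m ≤ S ∧ 9 * (|log (L.F (C.pt 1 a z₀) / 2)| + 2 * (D.A * M)) + 1 ≤ S :=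
    ⟨_, le_max_left _ _, le_max_right _ _⟩
  obtain ⟨j, j1, j2, j3, j4⟩ := ((htail (2 * S)).and_eventually ((hG a h hh γ k (2 * S + 1) hk0).and
    (z4.and (z7.eventually (lt_mem_nhds (half_lt_self z6)))))).exists
  obtain ⟨g, hg⟩ := htr j (2 * S + 1)
  obtain ⟨F, hF, hF'⟩ := j2 g hg
  let U := {w ∈ C.B (3 / 2) a | C.pt γ a w ∈ T.Ω}
  have hU : IsOpen U := isOpen_iff_mem_nhds.2 fun z hz =>
    ((C.isOpen_B _ a).eventually_mem hz.1).and (ev_mem (hB hz.1 (by norm_num)) hz.2)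
  have hs : AnalyticOnNhd ℂ (fun w => T.s (C.pt γ a w)) U := fun z hz =>
    T.hol γ a z (hB hz.1 (by norm_num)) hz.2
  have hρ : ∀ b, ∀ z ∈ C.B 2 b, -(D.A * M) ≤ D.A * C.ρ b z ∧ D.A * C.ρ b z ≤ D.A * M :=
    fun b z hz => abs_le.1 (by
      rw [abs_mul, abs_of_pos hA]
      exact mul_le_mul_of_nonneg_left (hM b z (C.B_sub_cB _ b (C.B_mono (by norm_num) b hz))) hA.le)
  obtain ⟨u, hu⟩ := bump hU
    ![fun w => D.F j (T.sg (T.s (C.pt γ a w))), fun w => ‖h w‖ ^ 2, fun w => D.F j (C.pt 1 a w)]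
    ![fun w => D.A * C.ρ N.a (cs T (T.s (C.pt γ a w))) - D.A * M, fun _ => 0,
      fun w => D.A * C.ρ a w - D.A * M] ![m₀, k, S]
    (fun i => by
      fin_cases i
      exacts [(by rw [hm₀]; positivity : 0 < m₀), hk0, (by linarith : 0 < S)])
    fun i z hz => by
      have e := hB hz.1 (k := 4) (by norm_num)
      have e' := hh.an z (hB hz.1 (by norm_num))
      fin_cases i
      · exact ⟨(D.F_cont j).continuousAt.comp ((sg_cont (s_mem hz.2)).comp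
          (f := fun w => T.s (C.pt γ a w)) (hs z hz).continuousAt), D.F_nonneg _ _, D.F_le _ _,
          sub_nonpos.2 (hρ _ _ (cs_mem (s_mem hz.2))).2, fun h0 =>
          ((spΦ jb j e hz.2 h0).sub_const (D.A * M)).congr
            (Eventually.of_forall fun _ => sub_add_eq_add_sub _ _ _)⟩
      · exact ⟨e'.continuousAt.norm.pow 2, sq_nonneg _,
          pow_le_one₀ (norm_nonneg _) (hh.le z (hB hz.1 (by norm_num))), le_rfl, fun h0 =>
          (sp_log jb e' (norm_ne_zero_iff.1 (pow_ne_zero_iff two_ne_zero |>.1 (ne_of_gt h0)))).congr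
            (Eventually.of_forall fun _ => zero_add _)⟩
      · exact ⟨(D.F_cont j).continuousAt.comp (C.continuousAt_pt e 1), D.F_nonneg _ _, D.F_le _ _,
          sub_nonpos.2 (hρ _ _ (hB hz.1 (by norm_num))).2, fun h0 =>
          ((spF D j e h0).sub_const (D.A * M)).congr
            (Eventually.of_forall fun _ => sub_add_eq_add_sub _ _ _)⟩
  have z8 : z₀ ∈ U := ⟨C.B_mono (by norm_num) a z1, z2⟩
  have u0 : 1 ≤ u z₀ := by
    refine (hu z₀ z8).2.2.2.2 (fun i => ?_) ?_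
    · fin_cases i
      exacts [hκ.trans_le j3, pow_pos (norm_pos_iff.2 z5) 2, (half_pos z6).trans j4]
    · have e1 := ninth (x := D.A * C.ρ N.a (cs T (T.s (C.pt γ a z₀))) - D.A * M +
        log (D.F j (T.sg (T.s (C.pt γ a z₀))))) (by
          linarith [(hρ _ _ (cs_mem (s_mem z2))).1, log_le_log hκ j3, neg_abs_le (log κ)])
        (by positivity) hm₀.ge
      have e2 := ninth (x := 0 + log (‖h z₀‖ ^ 2)) (by rw [zero_add]; exact neg_abs_le _)
        (abs_nonneg _) hk.ge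
      have e3 := ninth (x := D.A * C.ρ a z₀ - D.A * M + log (D.F j (C.pt 1 a z₀))) (by
          linarith [(hρ _ _ (C.B_mono (by norm_num) a z1)).1, log_le_log (half_pos z6) j4.le,
            neg_abs_le (log (L.F (C.pt 1 a z₀) / 2))]) (by positivity) hS2
      rw [Fin.sum_univ_three]
      exact le_trans (by norm_num) (add_le_add (add_le_add e1 e2) e3)
  let B := {z ∈ U | nsq (z - z₀) + nsq (T.s (C.pt γ a z) - T.s (C.pt γ a z₀)) ≤ R ^ 2}
  have b1 : ∀ z ∈ B, z ∈ C.cB (5 / 4) a ∧ ‖T.s (C.pt γ a z) - T.t₀‖ < r := fun z hz => by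
    have e1 := norm_le_of_nsq hR0.le ((le_add_of_nonneg_right (nsq_nonneg _)).trans hz.2)
    have e2 := norm_le_of_nsq hR0.le ((le_add_of_nonneg_left (nsq_nonneg _)).trans hz.2)
    have e3 := mem_ball_iff_norm.1 z1
    have e4 := mem_ball_iff_norm.1 z3
    exact ⟨mem_closedBall_iff_norm.2 (by linarith [norm_sub_le_norm_sub_add_norm_sub z z₀ (C.c a)]),
      by linarith [norm_sub_le_norm_sub_add_norm_sub (T.s (C.pt γ a z)) (T.s (C.pt γ a z₀)) T.t₀]⟩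
  have b2 : MeasurableSet B := by
    have e : ContinuousOn (fun z => nsq (z - z₀) + nsq (T.s (C.pt γ a z) - T.s (C.pt γ a z₀))) U :=
      (sm_nsq z₀).continuous.continuousOn.add
        ((sm_nsq _).continuous.comp_continuousOn hs.continuousOn)
    refine (congrArg MeasurableSet ?_).mp (hU.measurableSet.diff
      (e.isOpen_inter_preimage hU (isOpen_Ioi (a := R ^ 2))).measurableSet)
    ext z
    simp [B]
  have main := jmv _ U (cT T h γ a (5 / 4) (exp (-k)) r) _ u z₀ R hU hs (fun z hz => (hu z hz).1.sm)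
    (fun z hz => ⟨(hu z hz).2.1, (hu z hz).1.psd⟩) z8 hR0
    (cT_compact hh (by norm_num) (exp_pos _) hr.2 γ)
    (fun z hz => ⟨C.cB_sub_B (by norm_num) a hz.1, hz.2.2.1⟩) fun z hz e e' =>
      ⟨(b1 z ⟨hz, e'⟩).1, by
        have e1 : exp (-k) < ‖h z‖ ^ 2 := (hu z hz).2.2.2.1 e 1
        nlinarith [hh.le z (hB hz.1 (by norm_num)), norm_nonneg (h z)], hz.2, (b1 z ⟨hz, e'⟩).2.le⟩
  have b3 : ∀ z ∈ B, ENNReal.ofReal (u z * (1 + pb (jm (fun w => T.s (C.pt γ a w)) z) 1).det.re) ≠ 0 →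
      -S < g (C.pt 1 a z) ∧
      ENNReal.ofReal (u z * (1 + pb (jm (fun w => T.s (C.pt γ a w)) z) 1).det.re) ≤
        .ofReal c₁ * .ofReal (cHess (fun w => D.A * C.ρ a w + F w) z).det.re := fun z hz e => by
    obtain ⟨-, e1, e2, e3, -⟩ := hu z hz.1
    replace e3 := e3 fun e' => e (by rw [e', zero_mul, ENNReal.ofReal_zero])
    have e4 : exp (-S) < D.F j (C.pt 1 a z) := e3 2
    have e5 := (exp_lt_exp.2 (by linarith : -(2 * S + 1) < -S)).trans e4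
    have e6 := sp_rho (hB hz.1.1 (k := 4) (by norm_num))
    obtain ⟨e7, e8, -⟩ := hF z (hB hz.1.1 (by norm_num))
    have e9 : (pb (jm (fun w => T.s (C.pt γ a w)) z) 1).PosSemidef := pb_psd _ .one
    refine ⟨hg.eq _ e5 ▸ (lt_log_iff_exp_lt ((exp_pos _).trans e4)).2 e4, ?_⟩
    rw [← ENNReal.ofReal_mul h₁.le, C2.cHess_add (two (e6.const_mul hA.le).sm) (two e7),
      C2.cHess_const_mul _ (two e6.sm), hc₁, mul_assoc]
    exact ENNReal.ofReal_le_ofReal (mul_le_mul e2 (det_le hA hc' e6.psd e8 e9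
      (hd z (C.B_sub_cB _ a hz.1.1)) (hF' z ⟨hB hz.1.1 (by norm_num), hz.1.2, (b1 z hz).2, e3 0, e3 1,
        e5⟩)) (Complex.nonneg_iff.1 (Matrix.PosSemidef.one.add e9).det_nonneg).1 (by norm_num))
  let O := {z ∈ C.B 4 a | -(2 * m) < g (C.pt 1 a z)}
  have hO : IsOpen O := isOpen_iff_mem_nhds.2 fun z hz => ((C.isOpen_B _ a).eventually_mem hz.1).and
    ((hg.psh.sm _ 1 a z hz.1 rfl).continuousAt.eventually (lt_mem_nhds hz.2))
  let F' := gl univ (fun w => D.A * C.ρ a w - (2 * m + |L₀| + 2)) F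
  have f1 : C.Near D.A (2 * m + |L₀| + 2) (fun _ => 0) a F' := fun z hz => by
    obtain ⟨e1, e2, e3⟩ := hF z hz
    have e4 := sp_gl (b := F) isOpen_univ
      (((sp_rho (C.B_mono (by norm_num) a hz)).const_mul hA.le).sub_const (2 * m + |L₀| + 2))
      (fun _ => ⟨e1, e2⟩) fun e => (e trivial).elim
    have e5 : g (C.pt 1 a z) ≤ 0 := by
      rcases lt_or_ge (exp (-(2 * S + 1))) (D.F j (C.pt 1 a z)) with e | e
      · exact hg.eq _ e ▸ log_F_le D j _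
      · linarith [hg.le _ e]
    have e6 : D.A * C.ρ a z - (2 * m + |L₀| + 2) ≤ F' z :=
      left_le_gl (a := fun w => D.A * C.ρ a w - (2 * m + |L₀| + 2))
    have e7 : F' z ≤ D.A * C.ρ a z + |L₀| + 1 :=
      gl_le (by linarith [abs_nonneg L₀]) fun _ => by linarith [(abs_le.1 e3).2, le_abs_self L₀]
    exact ⟨e4.sm, e4.psd, abs_le.2 ⟨by linarith, by linarith⟩⟩
  have i1 := (int_le (μ := volume) (b2.inter hO.measurableSet) (c := .ofReal c₁)
    (S := {z ∈ C.B (3 / 2) a | ‖h z‖ < η}) ENNReal.ofReal_ne_top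
    (g := fun z => .ofReal (cHess (fun w => D.A * C.ρ a w + F' w) z).det.re) fun z hz e =>
      ⟨⟨hz.1.1.1, lt_of_not_ge fun e' => hγ ⟨_, ⟨z, ⟨C.B_sub_cB _ a hz.1.1.1, e'⟩, rfl⟩,
        C.pt_eq γ a z ▸ ⟨hz.1.1.2, (b1 z hz.1).2.le⟩⟩⟩, (b3 z hz.1 e).2.trans_eq (by
        obtain ⟨e1, -, e3⟩ := hF z (hB hz.1.1.1 (by norm_num))
        have e4 : F' =ᶠ[𝓝 z] F := gl_ev isOpen_univ trivial
          (((sp_rho hz.2.1).const_mul hA.le).sub_const _).cont e1.continuousAt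
          (by linarith [(abs_le.1 e3).1, le_abs_self L₀, hz.2.2])
        rw [C2.cHess_congr (e4.mono fun w hw => congrArg (D.A * C.ρ a w + ·) hw)])⟩).trans
    (mul_le_mul_right (hC2 F' f1) _)
  have i2 := (int_le (μ := volume) (b2.diff hO.measurableSet) (c := .ofReal c₁)
    (S := {z ∈ C.B (3 / 2) a | g (C.pt 1 a z) ∈ Icc (-S) (-(2 * m))}) ENNReal.ofReal_ne_top
    fun z hz e => ⟨⟨hz.1.1.1, (b3 z hz.1 e).1.le, not_lt.1 fun e' =>
      hz.2 ⟨hB hz.1.1.1 (by norm_num), e'⟩⟩, (b3 z hz.1 e).2⟩).trans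
    (mul_le_mul_right ((hK g a F m S hg.psh hF (h₄.trans h₅) hS1).trans (b := _) (c := .ofReal ε) (by
      refine (mul_le_mul' (ENNReal.ofReal_le_ofReal (le_abs_self K)) (add_le_add
        (le_trans (lintegral_mono_set fun z hz => ?_) (j1 _ g (lt_add_one _) hg a))
        (ENNReal.ofReal_le_ofReal h₆))).trans ?_
      · exact ⟨hz.1, hz.2.1, hz.2.2.trans (neg_le_neg h₅)⟩
      rw [← ENNReal.ofReal_add he.le he.le, ← ENNReal.ofReal_mul (abs_nonneg K)]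
      exact ENNReal.ofReal_le_ofReal h₃)) _)
  have i3 := main.trans (((lintegral_mono_set (t := B ∩ O ∪ B \ O)
    (inter_union_diff B O).ge).trans (lintegral_union_le _ _ _)).trans (add_le_add i1 i2))
  rw [← ENNReal.ofReal_mul h₁.le, ← ENNReal.ofReal_add (by positivity) (by positivity),
    ENNReal.ofReal_le_ofReal_iff (by positivity)] at i3
  nlinarith [mul_le_mul_of_nonneg_left u0 (by positivity : 0 ≤ c * R ^ (2 * n))]

end Vale.Agent.P284Z
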