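import Vale.Agent.P284Z.K.Bas

/-!
# P284Z, block K3: the good parameters have positive measure, the leaves have finite volume
-/

set_option linter.all false

open scoped ContDiff Topology ComplexOrder ENNReal
open Filter Set Function Metric MeasureTheory

noncomputable section

namespace Vale.Agent.P284Z

open Vale.Agent.P272.K J Real K

namespace K3

variable {n : ℕ} {Γ E : Type} [Group Γ] [TopologicalSpace E] [MulAction Γ E] {C : Cov n Γ E}
  {D : LD C} {L : Lim D} {Z : ZD L} {Φ : FD Z} {N : NC Z Φ.d Φ.q Φ.l₁} (T : TD Φ N)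

theorem f_cont (j : ℕ) {t : Cm Φ.q} (ht : t ∈ ball T.t₀ T.R) :
    ContinuousAt (fun t => D.F j (T.sg t)) t :=
  (D.F_cont j).continuousAt.comp (sg_cont (ball_subset_closedBall ht))

theorem meas_A (κ : ℝ) {r : ℝ} (hr : r ≤ T.R) : MeasurableSet (T.A κ r) := by
  have h : ∀ j, MeasurableSet (ball T.t₀ r ∩ (fun t => D.F j (T.sg t)) ⁻¹' Iio κ) := fun j =>
    (ContinuousOn.isOpen_inter_preimage (fun t ht =>
      (f_cont T j (ball_subset_ball hr ht)).continuousWithinAt) isOpen_ball isOpen_Iio).measurableSet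
  have e : T.A κ r = ball T.t₀ r ∩ ⋃ i : ℕ, ⋂ j, ⋂ (_ : i ≤ j),
      (ball T.t₀ r ∩ (fun t => D.F j (T.sg t)) ⁻¹' Iio κ)ᶜ := by
    ext t
    refine and_congr_right fun ht => ?_
    simp only [LD.Lw, eventually_atTop, mem_iUnion, mem_iInter, mem_compl_iff, mem_inter_iff, ht,
      true_and, mem_preimage, mem_Iio, not_lt, ge_iff_le]
  rw [e]
  exact measurableSet_ball.inter (MeasurableSet.iUnion fun i => MeasurableSet.iInter fun j =>
    MeasurableSet.iInter fun _ => (h j).compl)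

theorem lpsh_f (jb : JB) (j : ℕ) :
    LPsh (fun t => D.F j (T.sg t) * exp (D.A * C.ρ N.a (cs T t))) (ball T.t₀ T.R) := by
  have h4 : ∀ t ∈ ball T.t₀ T.R, cs T t ∈ C.B 4 N.a := fun t ht =>
    C.B_mono (by norm_num) _ (cs_mem (ball_subset_closedBall ht))
  refine lpsh_of_cHess isOpen_ball (ContinuousOn.upperSemicontinuousOn fun t ht =>
    ((f_cont T j ht).mul (continuousAt_const.mul ((sp_rho (h4 t ht)).cont.comp
      (cs_an (ball_subset_closedBall ht)).continuousAt)).rexp).continuousWithinAt)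
    (fun t _ => mul_nonneg (D.F_nonneg _ _) (exp_pos _).le) fun t ht hp => ?_
  have h0 : 0 < D.F j (T.sg t) := (mul_pos_iff_of_pos_right (exp_pos _)).1 hp
  have h1 := SP.comp jb (s := cs T) (spF (γ := N.g) D j (h4 t ht)
    ((pt_cs (ball_subset_closedBall ht)).symm ▸ h0)) (cs_an (ball_subset_closedBall ht))
  have h2 : ∀ᶠ w in 𝓝 t, w ∈ ball T.t₀ T.R ∧ 0 < D.F j (T.sg w) :=
    (isOpen_ball.eventually_mem ht).and ((f_cont T j ht).eventually (lt_mem_nhds h0))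
  refine ⟨(two h1.sm.exp).congr_of_eventuallyEq (h2.mono fun w hw => ?_),
    (h1.congr (h2.mono fun w hw => ?_)).psd⟩
  · simp only [pt_cs (ball_subset_closedBall hw.1)]
    rw [exp_add, exp_log hw.2, mul_comm]
  · simp only [pt_cs (ball_subset_closedBall hw.1)]
    rw [log_mul hw.2.ne' (exp_pos _).ne', log_exp, add_comm]

/-- the level `j` functions are small on at most one half of the balls -/
theorem half (jb : JB) : ∃ s : ℝ, ∀ᶠ j in atTop, ∀ r < T.R,
    2 * volume.real {t ∈ closedBall T.t₀ r | D.F j (T.sg t) ≤ exp (-s)} ≤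
      volume.real (closedBall T.t₀ r) := by
  obtain ⟨M, hM0, hM⟩ := rho_bd C
  have h0 : 0 < L.F (T.sg T.t₀) := T.good₀.1
  have ht : Tendsto (fun j => D.F j (T.sg T.t₀)) atTop (𝓝 (L.F (T.sg T.t₀))) := T.good₀.2
  have hb : ∀ t ∈ closedBall T.t₀ T.R, |D.A * C.ρ N.a (cs T t)| ≤ D.A * M := fun t ht => by
    rw [abs_mul, abs_of_pos D.A_pos]
    exact mul_le_mul_of_nonneg_left (hM _ _ (C.B_sub_cB _ _ (C.B_mono (by norm_num) _
      (cs_mem ht)))) D.A_pos.le
  have hAM : 0 ≤ D.A * M := mul_nonneg D.A_pos.le hM0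
  have hl : log (L.F (T.sg T.t₀) / 2) < 0 :=
    log_neg (half_pos h0) (by linarith [L.F_le (T.sg T.t₀)])
  obtain ⟨b, hb0, hb1⟩ : ∃ b, 0 < b ∧ b = 2 * (D.A * M) - log (L.F (T.sg T.t₀) / 2) :=
    ⟨_, by linarith, rfl⟩
  refine ⟨2 * b, (ht.eventually (lt_mem_nhds (half_lt_self h0))).mono fun j hj r hr => ?_⟩
  have hs := closedBall_subset_closedBall (x := T.t₀) hr.le
  have h1 := ((lpsh_f T jb j).bp isOpen_ball (2 * b - D.A * M)).cheb (μ := volume) (s := 2 * b)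
    (M := D.A * M) (closedBall_subset_ball hr) fun t ht => P284Z.Z.lg_le_iff.2 ⟨(mul_le_of_le_one_left
      (exp_pos _).le (D.F_le _ _)).trans (exp_le_exp.2 (abs_le.1 (hb t (hs ht))).2), by linarith⟩
  have h2 : volume.real {t ∈ closedBall T.t₀ r | D.F j (T.sg t) ≤ exp (-(2 * b))} ≤
      volume.real {t ∈ closedBall T.t₀ r | lg (2 * b - D.A * M)
        (D.F j (T.sg t) * exp (D.A * C.ρ N.a (cs T t))) ≤ D.A * M - 2 * b} :=
    measureReal_mono (fun t ht => ⟨ht.1, P284Z.Z.lg_le_iff.2 ⟨(mul_le_mul ht.2 (exp_le_exp.2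
      (abs_le.1 (hb t (hs ht.1))).2) (exp_pos _).le (exp_pos _).le).trans
        (by rw [← exp_add]; exact exp_le_exp.2 (by linarith)), by linarith⟩⟩)
      ((measure_mono (sep_subset _ _)).trans_lt measure_closedBall_lt_top).ne
  have h3 : D.A * M - b ≤ lg (2 * b - D.A * M)
      (D.F j (T.sg T.t₀) * exp (D.A * C.ρ N.a (cs T T.t₀))) := by
    have hp : 0 < D.F j (T.sg T.t₀) := (half_pos h0).trans hj
    rw [lg_eq_max _ (mul_pos hp (exp_pos _)), log_mul hp.ne' (exp_pos _).ne', log_exp]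
    refine le_max_of_le_left ?_
    linarith [log_le_log (half_pos h0) hj.le,
      (abs_le.1 (hb T.t₀ (mem_closedBall_self T.R_pos.le))).1]
  have h4 := mul_le_mul_of_nonneg_right (sub_le_comm.1 h3)
    (measureReal_nonneg (μ := volume) (s := closedBall T.t₀ r))
  exact le_of_mul_le_mul_left (by nlinarith) hb0

theorem pos_A (jb : JB) : ∃ s : ℝ, ∀ r ∈ Ioc 0 T.R, 0 < volume (T.A (exp (-(s + 1))) r) := by
  obtain ⟨s, hs⟩ := half T jb
  refine ⟨s, fun r hr => pos_iff_ne_zero.2 fun h0 => ?_⟩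
  let S : ℕ → Set (Cm Φ.q) := fun i =>
    {t | ∀ j, i ≤ j → t ∈ closedBall T.t₀ (r / 2) ∧ D.F j (T.sg t) ≤ exp (-s)}
  have hm : Monotone S := fun i i' h t ht j hj => ht j (h.trans hj)
  have hb := closedBall_subset_ball (x := T.t₀) (half_lt_self hr.1)
  have h1 : volume (closedBall T.t₀ (r / 2)) ≤ volume (⋃ i, S i) := measure_mono_ae (by
    filter_upwards [T.good, measure_eq_zero_iff_ae_notMem.1 h0] with t h1 h2 ht
    have h3 := (h1 (ball_subset_ball hr.2 (hb ht))).2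
    have h4 : L.F (T.sg t) < exp (-s) := lt_of_le_of_lt (le_of_not_gt fun h =>
      h2 ⟨hb ht, (h3.eventually (lt_mem_nhds h)).mono fun j => le_of_lt⟩)
      (exp_lt_exp.2 (by linarith : -(s + 1) < -s))
    obtain ⟨i, hi⟩ := eventually_atTop.1 (h3.eventually (gt_mem_nhds h4))
    exact mem_iUnion.2 ⟨i, fun j hj => ⟨ht, (hi j hj).le⟩⟩)
  have h2 : volume (closedBall T.t₀ (r / 2)) ≤
      ENNReal.ofReal (volume.real (closedBall T.t₀ (r / 2)) / 2) := by
    rw [hm.measure_iUnion] at h1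
    refine h1.trans (iSup_le fun i => ?_)
    obtain ⟨j, hj, hj'⟩ := (hs.and (eventually_ge_atTop i)).exists
    refine (measure_mono (t := {t ∈ closedBall T.t₀ (r / 2) | D.F j (T.sg t) ≤ exp (-s)})
      fun t (ht : t ∈ S i) => ht j hj').trans ?_
    rw [← ofReal_measureReal
      ((measure_mono (sep_subset _ _)).trans_lt measure_closedBall_lt_top).ne]
    exact ENNReal.ofReal_le_ofReal (by linarith [hj (r / 2) ((half_lt_self hr.1).trans_le hr.2)])
  have h3 := ENNReal.toReal_le_of_le_ofReal (div_nonneg measureReal_nonneg zero_le_two) h2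
  have h4 : 0 < volume.real (closedBall T.t₀ (r / 2)) := ENNReal.toReal_pos
    (measure_closedBall_pos _ _ (half_pos hr.1)).ne' measure_closedBall_lt_top.ne
  rw [← measureReal_def] at h3
  linarith

variable {T} {h : Cm n → ℂ} {a : C.I}

theorem win_open (hh : Φ.Th a h) (γ : Γ) (m₀ r k T' : ℝ) (j : ℕ) :
    IsOpen (T.Win h γ a m₀ r k T' j) := isOpen_iff_mem_nhds.2 fun z hz => by
  obtain ⟨h1, h2, h3, h4, h5, h6⟩ := hz
  have hz : z ∈ C.B 4 a := C.B_mono (by norm_num) a h1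
  have hs : ContinuousAt (fun w => T.s (C.pt γ a w)) z :=
    (s_cont h2).comp (C.continuousAt_pt hz γ)
  filter_upwards [(C.isOpen_B _ a).mem_nhds h1, ev_mem hz h2,
    (hs.sub continuousAt_const).norm.eventually (gt_mem_nhds h3),
    ((f_cont T j (T.mem _ h2).1).comp (f := fun w => T.s (C.pt γ a w)) hs).eventually
      (lt_mem_nhds h4),
    ((hh.an z (C.B_mono (by norm_num) a h1)).continuousAt.norm.pow 2).eventually (lt_mem_nhds h5),
    ((D.F_cont j).continuousAt.comp (C.continuousAt_pt hz 1)).eventually (lt_mem_nhds h6)]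
    with w k1 k2 k3 k4 k5 k6
  exact ⟨k1, k2, k3, k4, k5, k6⟩

theorem md_le {d q : ℕ} (e : Fin d ⊕ Fin q ≃ Fin n) {A : ℝ} (hA : 0 < A) :
    ∃ c : ℝ, 0 ≤ c ∧ ∀ P Q H : Mx n, P.PosSemidef → Q.PosSemidef → H.PosSemidef →
      (H - Q).PosSemidef → md (blk e P Q) ≤ c * ((A : ℂ) • P + H).det.re := by
  have hp : 0 < ∏ i, blk e A (1 : ℝ) i := Finset.prod_pos fun i _ => by
    unfold blk
    cases e.symm i
    exacts [hA, one_pos]
  refine ⟨n.factorial / ∏ i, blk e A (1 : ℝ) i, by positivity, fun P Q H hP hQ hH h => ?_⟩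
  rw [div_mul_eq_mul_div, le_div_iff₀' hp, ← md_smul, ← md_const]
  refine md_mono (fun i => ?_) fun i => ?_ <;> unfold blk <;> cases e.symm i
  · exact psd_smul hP hA.le
  · exact psd_smul hQ zero_le_one
  · simpa using hH
  · simpa [add_sub_assoc] using (psd_smul hP hA.le).add h

theorem fv (jm : JM C) (htr : ∀ j T, ∃ g, D.Tr j T g) {κ m₀ r r₀ K : ℝ} (hκ : exp (-m₀) < κ)
    (hr : r ≤ r₀) (hg : ∀ a h, Φ.Th a h → ∀ (γ : Γ) (k T' : ℝ), 0 < k → ∀ᶠ j in atTop, ∀ g,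
      D.Tr j T' g → ∃ F, C.Near D.A K g a F ∧ ∀ z ∈ T.Win h γ a m₀ r₀ k T' j,
        (cHess F z - C.pbs T.s γ a z).PosSemidef) : T.Fv (T.A κ r) := fun e γ a => by
  obtain ⟨M, hM, hC⟩ := jm.C0 D.A K D.A_pos
  obtain ⟨c, hc, hmd⟩ := md_le e D.A_pos
  obtain ⟨h, hh⟩ := exists_th Φ a
  let S : ℕ → Set (Cm n) := fun i =>
    {z | ∀ j, i ≤ j → z ∈ C.B 1 a ∩ T.Win h γ a m₀ r₀ (i + 1) (i + 1) j}
  have he : ∀ i i' : ℕ, i ≤ i' → exp (-((i' : ℝ) + 1)) ≤ exp (-((i : ℝ) + 1)) := fun i i' h =>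
    exp_le_exp.2 (neg_le_neg (add_le_add_left (Nat.cast_le.2 h) _))
  have hm : Monotone S := fun i i' hi z hz j hj => by
    obtain ⟨h0, h1, h2, h3, h4, h5, h6⟩ := hz j (hi.trans hj)
    exact ⟨h0, h1, h2, h3, h4, (he i i' hi).trans_lt h5, (he i i' hi).trans_lt h6⟩
  have ht : Tendsto (fun i : ℕ => exp (-((i : ℝ) + 1))) atTop (𝓝 0) :=
    tendsto_exp_neg_atTop_nhds_zero.comp (tendsto_atTop_add_const_right _ _
      tendsto_natCast_atTop_atTop)
  refine lt_of_le_of_lt (lintegral_mono_set' (t := ⋃ i, S i) ?_) ?_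
  · filter_upwards [th_ae hh, L.F_ae a] with z h1 h2 hz
    obtain ⟨h3, h4⟩ := h2 (C.B14 hz.1)
    have h5 : 0 < ‖h z‖ ^ 2 := pow_pos (norm_pos_iff.2 (h1 (C.B_mono (by norm_num) a hz.1))) 2
    obtain ⟨i, k1, k2, k3⟩ := ((ht.eventually (gt_mem_nhds h5)).and ((ht.eventually
      (gt_mem_nhds (half_pos h3))).and (eventually_forall_ge_atTop.2
        (hz.2.2.2.and (h4.eventually (lt_mem_nhds (half_lt_self h3))))))).exists
    exact mem_iUnion.2 ⟨i, fun j hj => ⟨hz.1, C.B_mono (by norm_num) a hz.1, hz.2.1,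
      (mem_ball_iff_norm.1 hz.2.2.1).trans_le hr, hκ.trans_le (k3 j hj).1, k1,
      k2.trans (k3 j hj).2⟩⟩
  rw [setLIntegral_iUnion_of_directed _ hm.directed_le]
  refine lt_of_le_of_lt (iSup_le fun i => ?_) (ENNReal.mul_lt_top (ENNReal.ofReal_lt_top (r := c)) hM)
  obtain ⟨j, hj, hj'⟩ := ((hg a h hh γ (i + 1) (i + 1) (by positivity)).and
    (eventually_ge_atTop i)).exists
  obtain ⟨g, hg'⟩ := htr j (i + 1)
  obtain ⟨F, hF, hF'⟩ := hj g hg'
  refine (lintegral_mono_set (t := C.B 1 a ∩ T.Win h γ a m₀ r₀ (i + 1) (i + 1) j)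
    fun z (hz : z ∈ S i) => hz j hj').trans ((setLIntegral_mono'
    ((C.isOpen_B 1 a).inter (win_open hh γ _ _ _ _ j)).measurableSet (g := fun z =>
      ENNReal.ofReal c * ENNReal.ofReal (cHess (fun w => D.A * C.ρ a w + F w) z).det.re)
    fun z hz => ?_).trans ?_)
  · obtain ⟨k1, k2, -⟩ := hF z hz.2.1
    have k3 := sp_rho (C.B14 hz.1)
    rw [← ENNReal.ofReal_mul hc, C2.cHess_add (two (contDiffAt_const.mul k3.sm)) (two k1),
      C2.cHess_const_mul _ (two k3.sm)]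
    exact ENNReal.ofReal_le_ofReal (hmd _ _ _ k3.psd (pb_psd _ Matrix.PosSemidef.one) k2
      (hF' z hz.2))
  · rw [lintegral_const_mul' _ _ ENNReal.ofReal_ne_top]
    exact mul_le_mul_right ((lintegral_mono_set fun z hz => C.B_mono (by norm_num) a hz.1).trans
      (hC g a F hg'.psh hF)) _

end K3

theorem stK3 : StK3 := fun n Γ E _ _ _ _ _ C D L Z jb jm htr Φ N T hg => by
  obtain ⟨s, hs⟩ := K3.pos_A T jb
  obtain ⟨r₀, hr₀, K, hK⟩ := hg (s + 2)
  exact ⟨_, exp_pos _, r₀, hr₀, fun r hr => ⟨K3.meas_A T _ (hr.2.trans hr₀.2.le),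
    hs r ⟨hr.1, hr.2.trans hr₀.2.le⟩,
    K3.fv jm htr (exp_lt_exp.2 (by linarith : -(s + 2) < -(s + 1))) hr.2 hK⟩⟩

end Vale.Agent.P284Z
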