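import Vale.Agent.P284Z.K.K4a
import Vale.Agent.P284Z.K.Spec
import Vale.Agent.P284Z.F0.Sec

/-!
# P284Z, block K4: combinations of coordinates vanishing to a high order along a slice
-/

set_option linter.all false

open scoped Topology
open Filter Set Metric MeasureTheory Asymptotics

noncomputable section

namespace Vale.Agent.P284Z

open Vale.Agent.P272.K Ang E K4

namespace K4

theorem im_one {W V : Type} [NormedAddCommGroup W] [NormedSpace ℂ W] [NormedAddCommGroup V]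
    [InnerProductSpace ℂ V] {F : W → V} {z ζ : W} :
    Im F z ![ζ] ↔ LinearIndependent ℂ ![F z, fderiv ℂ F z ζ] := by
  have : j1 F z ![ζ] = ![F z, fderiv ℂ F z ζ] := by
    funext i
    fin_cases i <;> rfl
  rw [Im, this]

theorem mem_prod {d q : ℕ} {R : ℝ} {w : Cm d × Cm q} : w ∈ ball (0 : Cm d × Cm q) R ↔
    w.1 ∈ ball (0 : Cm d) R ∧ w.2 ∈ ball (0 : Cm q) R := by
  rw [← Prod.mk_zero_zero, ← ball_prod_same]; rfl

variable {Γ : Type} [Group Γ] {J : IX Γ} {d q : ℕ} {R : ℝ} {v : Cm d × Cm q → J.H}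

theorem coord {u ζ : Cm d × Cm q} (hva : AnalyticAt ℂ v u) {M : ℕ}
    (h : LinearIndependent ℂ fun l : Fin M => iteratedFDeriv ℂ l v u fun _ => ζ) :
    ∃ i : Fin M → J.ι, ∀ᶠ w in 𝓝 u, LinearIndependent ℂ fun k (l : Fin M) =>
      J.ev (i k) (iteratedFDeriv ℂ l v w fun _ => ζ) := by
  obtain ⟨i, hi⟩ := exists_coord (w := fun (l : Fin M) i =>
    J.ev i (iteratedFDeriv ℂ l v u fun _ => ζ)) (h.map' (LinearMap.pi fun i => (J.ev i : J.H →ₗ[ℂ] ℂ))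
      (LinearMap.ker_eq_bot.2 fun _ _ e => lp.ext e))
  have h1 : ContinuousAt (fun w k (l : Fin M) =>
      J.ev (i k) (iteratedFDeriv ℂ l v w fun _ => ζ)) u :=
    continuousAt_pi.2 fun k => continuousAt_pi.2 fun l => (J.ev (i k)).continuous.continuousAt.comp
      (an_iD_apply (x := fun w => w) (v := fun _ _ => ζ) hva analyticAt_id
        fun _ => analyticAt_const).continuousAt
  exact ⟨i, h1.eventually hi.eventually⟩

theorem cram (hva : AnalyticOnNhd ℂ v (ball 0 R)) {a₀ : Cm d} (ha₀ : a₀ ∈ ball (0 : Cm d) R) (ν : ℕ)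
    {u : Cm d × Cm q} (hu : u ∈ ball (0 : Cm d × Cm q) R) {ζ : Cm d} {M : ℕ}
    (hM : Fintype.card (Idx d ν) < M)
    (h : LinearIndependent ℂ fun l : Fin M => iteratedFDeriv ℂ l v u fun _ => (ζ, 0)) :
    ∃ (i : Fin M → J.ι) (g : Fin M → Cm q → ℂ), (∀ k, AnalyticOnNhd ℂ (g k) (ball 0 R)) ∧
      (∀ t ∈ ball (0 : Cm q) R,
        (fun a => ∑ k, g k t * v (a, t) (i k)) =O[𝓝 a₀] fun a => ‖a - a₀‖ ^ ν) ∧
      ∀ᵐ t, t ∈ ball (0 : Cm q) R → ∃ᶠ a in 𝓝 a₀, ∑ k, g k t * v (a, t) (i k) ≠ 0 := by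
  obtain ⟨i, hi⟩ := coord (hva u hu) h
  have hb : ∀ {a t}, a ∈ ball (0 : Cm d) R → t ∈ ball (0 : Cm q) R →
      (a, t) ∈ ball (0 : Cm d × Cm q) R := fun h1 h2 => mem_prod.2 ⟨h1, h2⟩
  obtain ⟨e, he⟩ : ∃ e : Fin d → Cm d × Cm q, e = fun b => (Pi.single b 1, 0) := ⟨_, rfl⟩
  obtain ⟨g, g1, ⟨k, t₁, ht₁, g2⟩, g3⟩ := exists_ker (κ := Idx d ν) hM ⟨_, (mem_prod.1 hu).2⟩
    (x := fun k α t => J.ev (i k) (jet v (a₀, t) e α.1)) fun k α t ht =>
      ((J.ev (i k)).analyticAt _).comp (an_jet (x := fun t => (a₀, t)) (ξ := fun _ => e)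
        (hva _ (hb ha₀ ht)) (analyticAt_const.prod analyticAt_id) (fun _ => analyticAt_const) α.1)
  obtain ⟨T, hT⟩ : ∃ T : Cm q → J.H →L[ℂ] ℂ, ∀ t x, T t x = ∑ k, g k t * J.ev (i k) x :=
    ⟨fun t => ∑ k, g k t • J.ev (i k), fun t x => by simp⟩
  have hca : AnalyticOnNhd ℂ (fun w : Cm d × Cm q => ∑ k, g k w.2 * J.ev (i k) (v w)) (ball 0 R) :=
    fun w hw => Finset.analyticAt_fun_sum _ fun k _ =>
      ((g1 k _ (mem_prod.1 hw).2).comp_of_eq analyticAt_snd rfl).mul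
        (((J.ev (i k)).analyticAt _).comp (hva w hw))
  refine ⟨i, g, g1, fun t ht => ?_, ?_⟩
  · have h7 := ord_of_jet (k := ν) (f := fun w => T t (v w))
      (((T t).analyticAt _).comp (hva _ (hb ha₀ ht))) e fun α hα =>
      (jet_clm (T t) (hva _ (hb ha₀ ht)) e α).trans ((hT _ _).trans (g3 ⟨α, hα.le⟩ t ht))
    refine (h7.comp (u := fun a => a - a₀) (by fun_prop) (sub_self _)).congr
      (Eventually.of_forall fun a => ?_)
    have h8 : (a₀, t) + fr e (a - a₀) = (a, t) := by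
      ext b <;> simp [fr_apply, he, Prod.fst_sum, Prod.snd_sum, Pi.single_apply]
    simp only [h8, hT, IX.ev_apply]
  · have h7 : Tendsto (fun t => (u.1, t)) (𝓝 u.2) (𝓝 u) := (Continuous.prodMk_right u.1).tendsto u.2
    obtain ⟨t', h8, h9, h10⟩ := ((dense_ne_zero₀ (convex_ball _ _).isPreconnected (g1 k)
      ⟨t₁, ht₁, g2⟩ (mem_prod.1 hu).2).and_eventually
        (h7.eventually (hi.and (isOpen_ball.eventually_mem hu)))).exists
    obtain ⟨a₁, h11, h12⟩ : ∃ a₁ ∈ ball (0 : Cm d) R, T t' (v (a₁, t')) ≠ 0 := by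
      by_contra h11
      push Not at h11
      refine h8 (Fintype.linearIndependent_iff.1 h9 (fun k => g k t') (funext fun l => ?_) k)
      have h12 : Tendsto (fun s : ℂ => u.1 + s • ζ) (𝓝 0) (𝓝 u.1) :=
        Continuous.tendsto' (by fun_prop) _ _ (by simp)
      have h13 := kill_dir (hva _ h10) (T t') (ζ := (ζ, 0))
        ((h12.eventually (isOpen_ball.eventually_mem (mem_prod.1 hu).1)).mono fun s hs => by
          simpa using h11 _ hs) l
      rw [hT] at h13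
      simpa only [Finset.sum_apply, Pi.smul_apply, smul_eq_mul, Pi.zero_apply] using h13
    rw [hT] at h12
    filter_upwards [ae_ne_zero volume isOpen_ball (convex_ball _ _).isPreconnected
      (h := fun t => ∑ k, g k t * J.ev (i k) (v (a₁, t))) (fun t ht => (hca _ (hb h11 ht)).comp_of_eq
        (analyticAt_const.prod analyticAt_id) rfl) ⟨t', (mem_prod.1 h10).2, h12⟩] with t h13 ht
    exact dense_ne_zero₀ (convex_ball _ _).isPreconnected
      (h := fun a => ∑ k, g k t * J.ev (i k) (v (a, t)))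
      (fun a ha => (hca _ (hb ha ht)).comp_of_eq (analyticAt_id.prod analyticAt_const) rfl)
      ⟨a₁, h11, h13 ht⟩ ha₀

end K4

theorem stK4 : StK4 := by
  intro n Γ E _ _ _ _ _ _ C P J m V p hV D L Z d q l₁ N _ hM a₀ ha₀ ν
  obtain ⟨τ, hτ⟩ : ∃ τ : Cm d × Cm q → Cm n, τ = fun u => C.co N.g N.a (N.Ψ.symm u) := ⟨_, rfl⟩
  obtain ⟨v, hv⟩ : ∃ v : Cm d × Cm q → J.H, v = fun u => LL V N.g N.a (τ u) := ⟨_, rfl⟩
  have hτa : AnalyticOnNhd ℂ τ (ball 0 N.R) := hτ ▸ N.hol'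
  have hs : ∀ u ∈ ball (0 : Cm d × Cm q) N.R, N.Ψ.symm u ∈ N.Ψ.source := fun u hu =>
    N.Ψ.map_target (N.tgt ▸ hu)
  have hp : ∀ u ∈ ball (0 : Cm d × Cm q) N.R, τ u ∈ C.B 4 N.a ∧ C.pt N.g N.a (τ u) = N.Ψ.symm u :=
    fun u hu => by
      obtain ⟨z, hz, e⟩ := N.inch _ (hs u hu)
      have h4 := C.B_mono (by norm_num : (2 : ℝ) ≤ 4) _ hz
      simp only [hτ, e, C.co_pt h4]
      exact ⟨h4, trivial⟩
  have hva : AnalyticOnNhd ℂ v (ball 0 N.R) := fun u hu =>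
    hv ▸ (LL_an V N.g (hp u hu).1).comp_of_eq (hτa u hu) rfl
  have hrk : ∀ u ∈ ball (0 : Cm d × Cm q) N.R, Rk p v u := fun u hu =>
    (isOpen_ball.eventually_mem hu).mono fun w hw ξ h => hV.rank N.a _ (hp w hw).1 _
      ((LL_im V N.g (hp w hw).1).1 (Im.of_comp (t := fun _ => 1) (LL_an V N.g (hp w hw).1)
        (hτa w hw) rfl analyticAt_const
        (Eventually.of_forall fun _ => by rw [hv]; exact (one_smul _ _).symm) h))
  obtain ⟨u₁, hu₁, ζ, hζ⟩ := hM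
  have hm : ∀ᶠ u in 𝓝 u₁, LinearIndependent ℂ ![v u, fderiv ℂ v u (ζ, 0)] := by
    have h1 : LinearIndependent ℂ ![v u₁, fderiv ℂ v u₁ (ζ, 0)] := by
      rw [← im_one, hv]
      refine (im_iso (F := fun u => V.L N.a (τ u)) (U J N.g)
        ((V.an N.a _ (hp u₁ hu₁).1).comp_of_eq (hτa u₁ hu₁) rfl)).2 (im_one.2 ?_)
      rw [hτ]
      exact hζ
    refine (continuousAt_pi.2 fun i => ?_ : ContinuousAt
      (fun u => ![v u, fderiv ℂ v u (ζ, 0)]) u₁).eventually h1.eventually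
    fin_cases i
    · exact (hva u₁ hu₁).continuousAt
    · exact (an_dl (hva u₁ hu₁) [(ζ, 0)]).continuousAt
  obtain ⟨ξ, hξ⟩ := li_gen (j := Fintype.card (Idx d ν) + 1) hV (by omega) N.g N.a
  have hso : ∀ᶠ z in 𝓝 (τ u₁), z ∈ C.B 4 N.a ∧ C.pt N.g N.a z ∈ N.Ψ.source :=
    (C.isOpen_preimage_pt N.g N.a N.Ψ.open_source).mem_nhds
      ⟨(hp u₁ hu₁).1, (hp u₁ hu₁).2 ▸ hs u₁ hu₁⟩
  have hκt : Tendsto (fun z => N.Ψ (C.pt N.g N.a z)) (𝓝 (τ u₁)) (𝓝 u₁) := by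
    have := (N.hol _ _ _ hso.self_of_nhds.1 hso.self_of_nhds.2).continuousAt.tendsto
    rwa [(hp u₁ hu₁).2, N.Ψ.right_inv (N.tgt ▸ hu₁)] at this
  obtain ⟨z, h1, h2, h3⟩ := ((hξ _ (hp u₁ hu₁).1).and_eventually
    (hso.eventually_nhds.and (hκt.eventually hm))).exists
  have hu : N.Ψ (C.pt N.g N.a z) ∈ ball (0 : Cm d × Cm q) N.R :=
    N.tgt ▸ N.Ψ.map_source h2.self_of_nhds.2
  have h4 := (rel_comp (j := Fintype.card (Idx d ν) + 1) (ζ := ξ) (G' := LL V N.g N.a)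
    (t := fun _ => 1) (hva _ hu) (hrk _ hu)
    (N.hol _ _ _ h2.self_of_nhds.1 h2.self_of_nhds.2) rfl analyticAt_const (h2.mono fun w hw => by
      simp only [one_smul, hv, hτ, N.Ψ.left_inv hw.2, C.co_pt hw.1]) (by omega)).1
  have h5 := G_pos_iff.2 h1
  rw [fam, h4, norm_one, one_pow, one_mul] at h5
  obtain ⟨i, g, h6⟩ := cram hva ha₀ ν hu (by omega)
    (li_dir (hva _ hu) (hrk _ hu) (by omega) (G_pos_iff.1 h5) h3)
  rw [hv, hτ] at h6
  exact ⟨_, i, g, h6⟩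

end Vale.Agent.P284Z
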