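import Vale.Agent.P284Z.K.Spec
import Vale.Agent.P284Z.F0.Levi
import Vale.Agent.P284Z.S.Three
import Vale.Agent.P284Z.Z.Mean

/-!
# P284Z, block K5: Jensen's inequality at a point
-/

set_option linter.all false

open scoped ContDiff Topology ComplexOrder ComplexConjugate ENNReal
open Filter Set Function Metric MeasureTheory Asymptotics

noncomputable section

namespace Vale.Agent.P284Z

open Vale.Agent.P272.K J

namespace K5

variable {d : ℕ} {ρ : ℝ} {u : Cm d → ℝ}

theorem sq_pos_deriv (s : ℝ) : HasDerivAt (fun s : ℝ => max s 0 ^ 2) (2 * max s 0) s := by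
  rcases lt_trichotomy s 0 with h | rfl | h
  · rw [max_eq_right h.le, mul_zero]
    exact (hasDerivAt_const s (0 : ℝ)).congr_of_eventuallyEq
      ((eventually_lt_nhds h).mono fun t ht => by simp [ht.le])
  · simp only [hasDerivAt_iff_isLittleO_nhds_zero, max_self, mul_zero, smul_zero, sub_zero,
      zero_add, zero_pow two_ne_zero]
    refine IsBigO.trans_isLittleO (IsBigO.of_bound 1 (Eventually.of_forall fun t => ?_))
      (isLittleO_pow_id one_lt_two)
    rcases le_total t 0 with h | h <;> simp [h, sq_nonneg]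
  · rw [max_eq_left h.le]
    have k : HasDerivAt (fun s : ℝ => s ^ 2) (2 * s) s := by simpa using hasDerivAt_pow 2 s
    exact k.congr_of_eventuallyEq ((eventually_gt_nhds h).mono fun t ht => by simp [ht.le])

/-- the kernel -/
def pk (ρ : ℝ) (w : Cm d) : ℝ := max (ρ ^ 2 - nsq w) 0

theorem pk_nonneg (w : Cm d) : 0 ≤ pk ρ w := le_max_right _ _

theorem pk_le (w : Cm d) : pk ρ w ≤ ρ ^ 2 :=
  max_le (sub_le_self _ (Finset.sum_nonneg fun _ _ => sq_nonneg _)) (sq_nonneg _)

theorem pk_cont : Continuous (pk ρ : Cm d → ℝ) := by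
  unfold pk nsq
  fun_prop

theorem pk_zero (hρ : 0 < ρ) {w : Cm d} (h : w ∉ ball (0 : Cm d) ρ) : pk ρ w = 0 := by
  rw [mem_ball_zero_iff, pi_norm_lt_iff hρ, not_forall] at h
  obtain ⟨j, hj⟩ := h
  refine max_eq_right (sub_nonpos.2 ((pow_le_pow_left₀ hρ.le (not_lt.1 hj) 2).trans ?_))
  exact Finset.single_le_sum (f := fun b => ‖w b‖ ^ 2) (fun _ _ => sq_nonneg _) (Finset.mem_univ j)

theorem pk_rot {a : ℂ} (ha : ‖a‖ = 1) (w : Cm d) : pk ρ (a • w) = pk ρ w := by
  simp [pk, nsq, ha]

theorem pk_int (hρ : 0 < ρ) {f : Cm d → ℝ} (hf : Continuous f) :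
    Integrable fun w => pk ρ w * f w :=
  (pk_cont.mul hf).integrable_of_hasCompactSupport (HasCompactSupport.mul_right
    (.intro (isCompact_closedBall 0 ρ) fun _ h => pk_zero hρ fun k => h (ball_subset_closedBall k)))

theorem pk_int' (hρ : 0 < ρ) : Integrable (pk ρ : Cm d → ℝ) := by
  simpa using pk_int (d := d) hρ (continuous_const (y := 1))

theorem pk_mono (hρ : 0 < ρ) {f g : Cm d → ℝ} (hf : Continuous f) (hg : Continuous g)
    (h : ∀ w, ‖w‖ < ρ → f w ≤ g w) : ∫ w, pk ρ w * f w ≤ ∫ w, pk ρ w * g w :=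
  integral_mono (pk_int hρ hf) (pk_int hρ hg) fun w => by
    by_cases hw : w ∈ ball (0 : Cm d) ρ
    · exact mul_le_mul_of_nonneg_left (h w (mem_ball_zero_iff.1 hw)) (pk_nonneg w)
    · simp [pk_zero hρ hw]

theorem pk_pos (hρ : 0 < ρ) : 0 < ∫ w : Cm d, pk ρ w :=
  (integral_pos_iff_support_of_nonneg pk_nonneg (pk_int' hρ)).2
    (pk_cont.isOpen_support.measure_pos _ ⟨0, by simp [pk, nsq, hρ.ne']⟩)

theorem pk_sq_deriv (w : Cm d) : ∃ L : Cm d →L[ℝ] ℝ, HasFDerivAt (fun w => pk ρ w ^ 2) L w ∧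
    ∀ j c, L (Pi.single j c) = -(pk ρ w * (4 * (c * conj (w j)).re)) := by
  have k := (HasFDerivAt.fun_sum (u := Finset.univ) fun b _ =>
    (hasFDerivAt_apply (𝕜 := ℝ) b w).norm_sq).const_sub (ρ ^ 2)
  refine ⟨_, HasDerivAt.comp_hasFDerivAt (h₂ := fun s : ℝ => max s 0 ^ 2) w
    (sq_pos_deriv (ρ ^ 2 - nsq w)) k, fun j c => ?_⟩
  simp only [smul_apply, neg_apply, sum_apply, ContinuousLinearMap.comp_apply,
    ContinuousLinearMap.proj_apply, innerSL_apply_apply, Complex.inner, smul_eq_mul, pk]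
  rw [Finset.sum_eq_single j (fun b _ hb => by simp [hb]) (by simp)]
  simp
  ring

/-- integration by parts -/
theorem parts (hρ : 0 < ρ) (hu : ContDiff ℝ 2 u) :
    ∫ w, pk ρ w * (pk ρ w * (cHess u w).trace.re) = ∫ w, pk ρ w * fderiv ℝ u w w := by
  have h1 : ContDiff ℝ 1 (fderiv ℝ u) := hu.fderiv_right (by norm_num)
  have h2 : Continuous (fderiv ℝ (fderiv ℝ u)) := h1.continuous_fderiv one_ne_zero
  have h0 := h1.continuous
  have hp := pk_cont (d := d) (ρ := ρ)
  choose L hL hL' using pk_sq_deriv (d := d) (ρ := ρ)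
  have key : ∀ j c, ∫ w, pk ρ w * (pk ρ w * fderiv ℝ (fderiv ℝ u) w (Pi.single j c) (Pi.single j c))
      = ∫ w, pk ρ w * (4 * (c * conj (w j)).re * fderiv ℝ u w (Pi.single j c)) := fun j c => by
    have e1 : ∀ w, fderiv ℝ (fun w => fderiv ℝ u w (Pi.single j c)) w (Pi.single j c) =
        fderiv ℝ (fderiv ℝ u) w (Pi.single j c) (Pi.single j c) := fun w => by
      rw [fderiv_clm_apply (h1.differentiable one_ne_zero w) (differentiableAt_const _)]
      simp
    have k := integral_mul_fderiv_eq_neg_fderiv_mul_of_integrable (μ := volume)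
      (f := fun w => pk ρ w ^ 2) (g := fun w => fderiv ℝ u w (Pi.single j c)) (v := Pi.single j c)
      (by
        simp only [(hL _).fderiv, hL', neg_mul, mul_assoc]
        exact (pk_int hρ (by fun_prop)).neg)
      (by
        simp only [e1, sq, mul_assoc]
        exact pk_int hρ (by fun_prop))
      (by
        simp only [sq, mul_assoc]
        exact pk_int hρ (by fun_prop))
      (fun w _ => (hL w).differentiableAt)
      fun w _ => (h1.differentiable one_ne_zero w).clm_apply (differentiableAt_const _)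
    simp only [e1, (hL _).fderiv, hL', neg_mul, integral_neg, neg_neg] at k
    simpa only [sq, mul_assoc] using k
  have e2 : ∀ w, pk ρ w * (pk ρ w * (cHess u w).trace.re) = 4⁻¹ * ∑ j,
      (pk ρ w * (pk ρ w * fderiv ℝ (fderiv ℝ u) w (Pi.single j 1) (Pi.single j 1)) +
        pk ρ w * (pk ρ w * fderiv ℝ (fderiv ℝ u) w (Pi.single j Complex.I) (Pi.single j Complex.I))) :=
    fun w => by
      rw [Matrix.trace, Complex.re_sum, Finset.mul_sum, Finset.mul_sum, Finset.mul_sum]
      refine Finset.sum_congr rfl fun j _ => ?_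
      have k := cHess_quad (hu.contDiffAt (x := w)) (Pi.single j 1)
      rw [Pi.star_single, star_one, single_one_dotProduct, Matrix.mulVec_single_one, levi,
        ← Pi.single_smul, smul_eq_mul, mul_one] at k
      rw [show (cHess u w).diag j = _ from k, Complex.ofReal_re]
      ring
  have e3 : ∀ w, pk ρ w * fderiv ℝ u w w = 4⁻¹ * ∑ j,
      (pk ρ w * (4 * ((1 : ℂ) * conj (w j)).re * fderiv ℝ u w (Pi.single j 1)) +
        pk ρ w * (4 * (Complex.I * conj (w j)).re * fderiv ℝ u w (Pi.single j Complex.I))) :=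
    fun w => by
      generalize fderiv ℝ u w = A
      conv_lhs => rw [← Finset.univ_sum_single w]
      rw [Finset.univ_sum_single w, ← congrArg A (Finset.univ_sum_single w), map_sum,
        Finset.mul_sum, Finset.mul_sum]
      refine Finset.sum_congr rfl fun j _ => ?_
      have k : (Pi.single j (w j) : Cm d) =
          (w j).re • (Pi.single j 1 : Cm d) + (w j).im • (Pi.single j Complex.I : Cm d) := by
        rw [← Pi.single_smul, ← Pi.single_smul, ← Pi.single_add]
        simp
      rw [k, map_add, map_smul, map_smul]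
      simp
      ring
  simp only [e2, e3, integral_const_mul]
  congr 1
  rw [integral_finset_sum, integral_finset_sum]
  · refine Finset.sum_congr rfl fun j _ => ?_
    rw [integral_add (pk_int hρ (by fun_prop)) (pk_int hρ (by fun_prop)),
      integral_add (pk_int hρ (by fun_prop)) (pk_int hρ (by fun_prop)), key, key]
  all_goals exact fun j _ => (pk_int hρ (by fun_prop)).add (pk_int hρ (by fun_prop))

/-- the means over the balls are convex in the logarithm of the radius -/
theorem core (hρ : 0 < ρ) (hu : ContDiff ℝ 2 u) (hc : HasCompactSupport u)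
    (hp : Psh u (closedBall 0 ρ)) {T : ℝ} (hT : 0 < T) :
    (∫ w, pk ρ w * u w) - ∫ w, pk ρ w * u ((Real.exp (-T) : ℂ) • w) ≤
      T * ∫ w, pk ρ w * (pk ρ w * (cHess u w).trace.re) := by
  have h0 := hu.continuous
  have h1 : Continuous (fderiv ℝ u) := hu.continuous_fderiv two_ne_zero
  have hk := pk_cont (d := d) (ρ := ρ)
  obtain ⟨B, hB⟩ := h0.bounded_above_of_compact_support hc
  obtain ⟨B', hB'⟩ := h1.bounded_above_of_compact_support (hc.fderiv ℝ)
  let I : ℂ → ℝ := fun ζ => ∫ w, pk ρ w * u (ζ • w)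
  have hI : Continuous I := continuous_of_dominated (bound := fun w => pk ρ w * B)
    (fun ζ => Continuous.aestronglyMeasurable (by fun_prop))
    (fun ζ => Eventually.of_forall fun w => by
      rw [norm_mul, Real.norm_of_nonneg (pk_nonneg w)]
      exact mul_le_mul_of_nonneg_left (hB _) (pk_nonneg w))
    (pk_int hρ continuous_const) (Eventually.of_forall fun w => by fun_prop)
  have hrad : ∀ (ζ : ℂ) (r : ℝ), 0 < r → ‖ζ - 0‖ = r → I ζ = I r := fun ζ r hr h => by
    have k : ‖ζ / r‖ = 1 := by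
      rw [norm_div, ← sub_zero ζ, h, Complex.norm_real, Real.norm_of_nonneg hr.le, div_self hr.ne']
    have k' : (r : ℂ) * (ζ / r) = ζ := mul_div_cancel₀ _ (by exact_mod_cast hr.ne')
    simpa only [pk_rot k, smul_smul, k'] using Z.rot volume k fun w => pk ρ w * u ((r : ℂ) • w)
  have hIp : Psh I (closedBall 0 1) := by
    refine ⟨hI.continuousOn.upperSemicontinuousOn, fun z v hv => ?_⟩
    obtain ⟨s1, s2⟩ := Z.swap (μ := volume) h0.measurable hB (pk_int' hρ)
      (q := fun p => (z + p.1 • v) • p.2) (by fun_prop)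
    refine le_of_le_of_eq (integral_mono (pk_int hρ (by fun_prop)) s2 fun w => ?_) s1.symm
    by_cases hw : w ∈ ball (0 : Cm d) ρ
    · refine mul_le_mul_of_nonneg_left ?_ (pk_nonneg w)
      have e : ∀ ζ : ℂ, z • w + ζ • v • w = (z + ζ • v) • w := fun ζ => by
        rw [add_smul, smul_assoc]
      simpa only [e] using hp.2 (z • w) (v • w) fun ζ hζ => by
        rw [e, mem_closedBall_zero_iff, norm_smul]
        exact (mul_le_of_le_one_left (norm_nonneg _) (mem_closedBall_zero_iff.1 (hv ζ hζ))).trans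
          (mem_ball_zero_iff.1 hw).le
    · simp [pk_zero hρ hw]
  obtain ⟨M, hM⟩ := (isCompact_closedBall (0 : ℂ) 1).exists_bound_of_continuousOn hI.continuousOn
  set s := (I 1 - I (Real.exp (-T))) / T with hs
  have h3 : ∀ r : ℝ, Real.exp (-T) ≤ r → r ≤ 1 → I r ≤ I 1 + s * Real.log r := fun r a1 a2 => by
    have e : ‖(r : ℂ) - 0‖ = r := by
      rw [sub_zero, Complex.norm_real, Real.norm_of_nonneg ((Real.exp_pos _).le.trans a1)]
    simpa only [e] using S.three_psh hIp (Real.exp_pos (-T)) subset_rfl (T := M) (a := I 1) (s := s)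
      (fun z hz => (abs_le.1 (hM z hz)).1)
      (fun z hz => by
        rw [hrad z _ (Real.exp_pos _) hz, Real.log_exp, hs, mul_neg, div_mul_cancel₀ _ hT.ne']
        linarith)
      (fun z hz => by simp [hrad z _ one_pos hz]) (z := r) (by rwa [e]) (by rwa [e])
  have h4 := (hasDerivAt_integral_of_dominated_loc_of_deriv_le (μ := volume) (x₀ := (1 : ℝ))
    (F := fun (r : ℝ) w => pk ρ w * u ((r : ℂ) • w))
    (F' := fun (r : ℝ) w => pk ρ w * fderiv ℝ u ((r : ℂ) • w) w)
    (bound := fun w => pk ρ w * (B' * ‖w‖)) univ_mem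
    (Eventually.of_forall fun r => Continuous.aestronglyMeasurable (by fun_prop))
    (pk_int hρ (by fun_prop)) (Continuous.aestronglyMeasurable (by fun_prop))
    (Eventually.of_forall fun w r _ => by
      rw [norm_mul, Real.norm_of_nonneg (pk_nonneg w)]
      exact mul_le_mul_of_nonneg_left (ContinuousLinearMap.le_of_opNorm_le _ (hB' _) w)
        (pk_nonneg w))
    (pk_int hρ (by fun_prop)) (Eventually.of_forall fun w r _ => by
      have k : HasDerivAt (fun r : ℝ => (r : ℂ) • w) w r := by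
        simpa using (Complex.ofRealCLM.hasDerivAt (x := r)).smul_const w
      exact ((hu.differentiable two_ne_zero _).hasFDerivAt.comp_hasDerivAt r k).const_mul _)).2
  simp only [Complex.ofReal_one, one_smul, ← parts hρ hu] at h4
  have h5 := (h4.sub ((Real.hasDerivAt_log one_ne_zero).const_mul s)).tendsto_slope.mono_left
    (nhdsLT_le_nhdsNE 1)
  have h6 := ge_of_tendsto h5 (b := 0) (by
    filter_upwards [Ioo_mem_nhdsLT (Real.exp_lt_one_iff.2 (neg_neg_of_pos hT))] with r hr
    rw [slope_def_field]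
    refine div_nonneg_of_nonpos ?_ (sub_nonpos.2 hr.2.le)
    have k := h3 r hr.1.le hr.2.le
    simp only [Pi.sub_apply, Real.log_one, mul_zero, sub_zero, Complex.ofReal_one]
    change I r - _ - I 1 ≤ 0
    linarith)
  rw [inv_one, mul_one, sub_nonneg, hs, div_le_iff₀' hT] at h6
  simpa only [I, one_smul] using h6

theorem cHess_shift (f : Cm d → ℝ) (a w : Cm d) :
    cHess (fun y => f (a + y)) w = cHess f (a + w) := by
  ext j k
  have e : (dzb k fun y => (f (a + y) : ℂ)) = fun y => dzb k (fun y => (f y : ℂ)) (a + y) :=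
    funext fun y => by simp only [dzb, fderiv_comp_add_left (f := fun y => (f y : ℂ))]
  simp only [cHess, Matrix.of_apply, e, dz, fderiv_comp_add_left (f := dzb k fun y => (f y : ℂ))]

/-- the mass of a smooth plurisubharmonic function -/
theorem mass (hρ : 0 < ρ) {a : Cm d} {f : Cm d → ℝ} (hf : Sm (closedBall a (2 * ρ)) f)
    (hp : ∀ z ∈ ball a (2 * ρ), (cHess f z).PosSemidef) {T A B : ℝ} (hT : 0 < T) {z : Cm d}
    (hz : ‖z - a‖ < ρ / 4) (hA : ∀ y ∈ closedBall a (2 * ρ), f y ≤ A)
    (hB : ∀ w, ‖w‖ < ρ → f (a + (Real.exp (-T) : ℂ) • w) ≤ B) :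
    ENNReal.ofReal (((A - B) * (∫ w : Cm d, pk ρ w) -
      ρ ^ 2 * ((A - f z) * volume.real (closedBall z (3 / 2 * ρ)))) / (T * ρ ^ 4)) ≤
      ∫⁻ y in ball a (2 * ρ), ENNReal.ofReal (cHess f y).trace.re := by
  let χ : ContDiffBump (0 : Cm d) := ⟨3 / 2 * ρ, 2 * ρ, by positivity, by linarith⟩
  have hm : ∀ w : Cm d, ‖w‖ < 2 * ρ → a + w ∈ ball a (2 * ρ) := fun w hw => by simpa using hw
  have hu : ContDiff ℝ 2 fun w => χ w * f (a + w) := contDiff_iff_contDiffAt.2 fun w => by
    by_cases hw : w ∈ closedBall (0 : Cm d) (2 * ρ)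
    · exact χ.contDiff.contDiffAt.mul
        ((hf.two (by simpa using hw)).comp w (contDiffAt_const.add contDiffAt_id))
    · refine (contDiffAt_const (c := (0 : ℝ))).congr_of_eventuallyEq ?_
      filter_upwards [isClosed_closedBall.isOpen_compl.mem_nhds hw] with y hy
      rw [χ.zero_of_le_dist (not_le.1 (mt mem_closedBall.2 hy)).le, zero_mul]
  have he : ∀ w : Cm d, ‖w‖ ≤ ρ → (fun w => χ w * f (a + w)) =ᶠ[𝓝 w] fun w => f (a + w) :=
    fun w hw => (χ.eventuallyEq_one_of_mem_ball (mem_ball_zero_iff.2 (by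
      change _ < 3 / 2 * ρ
      linarith))).mono fun y hy => by simp only [hy, Pi.one_apply, one_mul]
  have hH : ∀ w : Cm d, ‖w‖ ≤ ρ → cHess (fun w => χ w * f (a + w)) w = cHess f (a + w) :=
    fun w hw => by rw [C2.cHess_congr (he w hw), cHess_shift]
  have k1 := core hρ hu χ.hasCompactSupport.mul_right (psh_of_cHess fun w hw => ⟨hu.contDiffAt, by
    rw [hH w (mem_closedBall_zero_iff.1 hw)]
    exact hp _ (hm w (by linarith [mem_closedBall_zero_iff.1 hw]))⟩) hT
  have h0 := hu.continuous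
  have k2 : ∫ w, pk ρ w * (χ ((Real.exp (-T) : ℂ) • w) * f (a + (Real.exp (-T) : ℂ) • w)) ≤
      ∫ w : Cm d, pk ρ w * B :=
    pk_mono hρ (h0.comp (continuous_const_smul _)) continuous_const fun w hw => by
      refine le_of_eq_of_le (he _ ?_).self_of_nhds (hB w hw)
      rw [norm_smul, Complex.norm_real, Real.norm_of_nonneg (Real.exp_pos _).le]
      exact (mul_le_of_le_one_left (norm_nonneg _) (Real.exp_le_one_iff.2 (by linarith))).trans hw.le
  have hzb : closedBall z (3 / 2 * ρ) ⊆ ball a (2 * ρ) :=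
    closedBall_subset_ball' (by rw [dist_eq_norm]; linarith)
  have hbp : Z.BP f (ball a (2 * ρ)) := ⟨isOpen_ball,
    psh_of_cHess fun y hy => ⟨hf.two (ball_subset_closedBall hy), hp y hy⟩,
    ((isCompact_closedBall a _).exists_bound_of_continuousOn hf.cont).elim fun C hC =>
      ⟨-C, fun y hy => (abs_le.1 (hC y (ball_subset_closedBall hy))).1⟩⟩
  have k3 := hbp.ball_mean (μ := volume) hzb
  have i1 := hbp.intOn (μ := volume) (isCompact_closedBall _ _) hzb
  have i2 : IntegrableOn (fun _ => A) (closedBall z (3 / 2 * ρ)) :=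
    integrableOn_const measure_closedBall_lt_top.ne
  have k4 : ∫ w, pk ρ w * (A - χ w * f (a + w)) ≤
      ∫ y, (closedBall z (3 / 2 * ρ)).indicator (fun y => ρ ^ 2 * (A - f y)) y := by
    rw [← integral_add_left_eq_self ((closedBall z (3 / 2 * ρ)).indicator _) a]
    refine integral_mono (pk_int hρ (continuous_const.sub h0)) (((integrable_indicator_iff
      measurableSet_closedBall).2 ((i2.sub i1).const_mul _)).comp_add_left a) fun w => ?_
    by_cases hw : w ∈ ball (0 : Cm d) ρ
    · have hw' := mem_ball_zero_iff.1 hw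
      have e : a + w ∈ closedBall z (3 / 2 * ρ) := by
        rw [mem_closedBall_iff_norm, show a + w - z = w - (z - a) by abel]
        linarith [norm_sub_le w (z - a)]
      simp only [indicator_of_mem e, (he w hw'.le).self_of_nhds]
      exact mul_le_mul_of_nonneg_right (pk_le w)
        (sub_nonneg.2 (hA _ (ball_subset_closedBall (hzb e))))
    · simp only [pk_zero hρ hw, zero_mul]
      exact indicator_nonneg (fun y hy => mul_nonneg (sq_nonneg _)
        (sub_nonneg.2 (hA _ (ball_subset_closedBall (hzb hy))))) _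
  rw [integral_indicator measurableSet_closedBall, integral_const_mul, integral_sub i2 i1,
    setIntegral_const, smul_eq_mul] at k4
  simp only [mul_sub] at k4
  rw [integral_sub (pk_int hρ continuous_const) (pk_int hρ h0), integral_mul_const] at k4
  rw [integral_mul_const] at k2
  refine (ENNReal.ofReal_le_ofReal (q := ∫ w, (ρ ^ 4)⁻¹ * (pk ρ w *
    (pk ρ w * (cHess (fun w => χ w * f (a + w)) w).trace.re))) ?_).trans ?_
  · rw [integral_const_mul, le_inv_mul_iff₀ (by positivity), mul_comm T, mul_div_assoc',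
      mul_div_mul_left _ _ (by positivity), div_le_iff₀' hT]
    linarith [mul_le_mul_of_nonneg_left k3 (sq_nonneg ρ)]
  rw [← lintegral_indicator measurableSet_ball, ← lintegral_add_left_eq_self _ a]
  refine (Real.ofReal_le_enorm _).trans ((enorm_integral_le_lintegral_enorm _).trans
    (lintegral_mono fun w => ?_))
  by_cases hw : w ∈ ball (0 : Cm d) ρ
  · have hw' := mem_ball_zero_iff.1 hw
    have e := hm w (by linarith)
    have t0 : 0 ≤ (cHess f (a + w)).trace.re := (Complex.nonneg_iff.1 (hp _ e).trace_nonneg).1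
    have t1 := pk_nonneg (ρ := ρ) w
    rw [indicator_of_mem e, hH w hw'.le, Real.enorm_eq_ofReal (by positivity)]
    refine ENNReal.ofReal_le_ofReal ?_
    rw [inv_mul_le_iff₀ (by positivity), ← mul_assoc, show ρ ^ 4 = ρ ^ 2 * ρ ^ 2 by ring]
    gcongr <;> exact pk_le w
  · simp [pk_zero hρ hw]

end K5

theorem logn_sm {d : ℕ} {G : Cm d → ℂ} {φ : Cm d → ℝ} {ε : ℝ} {z : Cm d} (hG : AnalyticAt ℂ G z)
    (hφ : ContDiffAt ℝ ∞ φ z) (hε : 0 < ε) :
    ContDiffAt ℝ ∞ (fun w => Real.log (‖G w‖ ^ 2 + ε * Real.exp (φ w))) z :=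
  (((hG.contDiffAt.restrict_scalars ℝ).norm_sq ℝ).add (contDiffAt_const.mul hφ.exp)).log
    (by positivity)

theorem logn_psd {d : ℕ} {U : Set (Cm d)} {G : Cm d → ℂ} {φ : Cm d → ℝ} {ε : ℝ} (hU : IsOpen U)
    (hG : AnalyticOnNhd ℂ G U) (hφ : Sm U φ) (hp : ∀ z ∈ U, (cHess φ z).PosSemidef) (hε : 0 < ε)
    {z : Cm d} (hz : z ∈ U) :
    (cHess (fun w => Real.log (‖G w‖ ^ 2 + ε * Real.exp (φ w))) z).PosSemidef :=
  (((lpsh_norm hU hG.differentiableOn).pow 2).add (((psh_of_cHess fun y hy =>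
    ⟨hφ.two hy, hp y hy⟩).lpsh_exp (.of_cont hφ.cont)).const_mul hε.le)).cHess_psd (hU.mem_nhds hz)
    (by positivity) ((((hG z hz).contDiffAt.restrict_scalars ℝ).norm_sq ℝ).add
      (contDiffAt_const.mul (hφ.two hz).exp))

open K5 in
theorem stK5 : StK5 := fun d R hR => by
  obtain ⟨ρ, rfl⟩ : ∃ ρ, R = 2 * ρ := ⟨R / 2, by ring⟩
  have hρ : 0 < ρ := by linarith
  have hm := pk_pos (d := d) hρ
  set m := ∫ w : Cm d, pk ρ w
  refine ⟨2 * m / ρ ^ 4, by positivity, fun a G φ ν hG hφ hp hO hne b hb => ?_⟩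
  obtain ⟨M, hM⟩ := (isCompact_closedBall a _).exists_bound_of_continuousOn hG.continuousOn
  obtain ⟨N, hN⟩ := (isCompact_closedBall a _).exists_bound_of_continuousOn hφ.cont
  obtain ⟨C, hC, hO⟩ := hO.exists_pos
  obtain ⟨δ, hδ, hO⟩ := Metric.eventually_nhds_iff_ball.1 hO.bound
  obtain ⟨z, hz0, hz⟩ := (hne.and_eventually (ball_mem_nhds a (by positivity : 0 < ρ / 4))).exists
  set A := Real.log (M ^ 2 + Real.exp N)
  set A' := Real.log ((C * ρ ^ ν) ^ 2 + Real.exp N)
  set K := (A - A') * m - ρ ^ 2 * ((A - Real.log (‖G z‖ ^ 2)) * volume.real (closedBall z (3 / 2 * ρ)))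
  have t1 : Tendsto (fun T : ℝ => ENNReal.ofReal (2 * m / ρ ^ 4 * ν + K / ρ ^ 4 * T⁻¹)) atTop
      (𝓝 (ENNReal.ofReal (2 * m / ρ ^ 4 * ν))) := ENNReal.tendsto_ofReal (by
    simpa using (tendsto_inv_atTop_zero.const_mul (K / ρ ^ 4)).const_add (2 * m / ρ ^ 4 * ν))
  have t2 : Tendsto (fun T : ℝ => Real.exp (-T) * ρ) atTop (𝓝 0) := by
    simpa using Real.tendsto_exp_neg_atTop_nhds_zero.mul_const ρ
  obtain ⟨T, h1, h2, hT⟩ := ((t1.eventually (lt_mem_nhds hb)).and
    ((t2.eventually (gt_mem_nhds hδ)).and (eventually_gt_atTop 0))).exists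
  set E := Real.exp (-T) with hE
  have hE0 : 0 < E := Real.exp_pos _
  have hE1 : E ≤ 1 := Real.exp_le_one_iff.2 (by linarith)
  filter_upwards [Ioo_mem_nhdsGT (pow_pos (pow_pos hE0 ν) 2)] with ε hε
  have hε0 := hε.1
  have hε1 : ε ≤ 1 := hε.2.le.trans (pow_le_one₀ (by positivity) (pow_le_one₀ hE0.le hE1))
  have hx : ∀ y ∈ closedBall a (2 * ρ), Real.exp (φ y) ≤ Real.exp N := fun y hy =>
    Real.exp_le_exp.2 (abs_le.1 (hN y hy)).2
  refine h1.trans_le ((ENNReal.ofReal_le_ofReal ?_).trans (mass hρ (A := A) (B := A' - 2 * ν * T)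
    (fun y hy => logn_sm (hG y hy) (hφ y hy) hε0)
    (fun y hy => logn_psd isOpen_ball (hG.mono ball_subset_closedBall)
      (hφ.mono ball_subset_closedBall) (fun y hy => hp y (ball_subset_closedBall hy)) hε0 hy)
    hT (mem_ball_iff_norm.1 hz) (fun y hy => Real.log_le_log (by positivity) ?_) fun w hw => ?_))
  · have k : Real.log (‖G z‖ ^ 2) ≤ Real.log (‖G z‖ ^ 2 + ε * Real.exp (φ z)) :=
      Real.log_le_log (by positivity) (le_add_of_nonneg_right (by positivity))
    have k' := mul_le_mul_of_nonneg_left (mul_le_mul_of_nonneg_right k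
      (measureReal_nonneg (μ := volume) (s := closedBall z (3 / 2 * ρ)))) (sq_nonneg ρ)
    rw [le_div_iff₀ (by positivity), show (2 * m / ρ ^ 4 * ν + K / ρ ^ 4 * T⁻¹) * (T * ρ ^ 4) =
      2 * m * ν * T + K by field_simp]
    simp only [K]
    linarith
  · exact add_le_add (pow_le_pow_left₀ (norm_nonneg _) (hM y hy) 2)
      ((mul_le_of_le_one_left (Real.exp_pos _).le hε1).trans (hx y hy))
  have k1 : ‖(E : ℂ) • w‖ ≤ E * ρ := by
    rw [norm_smul, Complex.norm_real, Real.norm_of_nonneg hE0.le]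
    exact mul_le_mul_of_nonneg_left hw.le hE0.le
  have k2 := hO (a + (E : ℂ) • w) (by simpa only [add_mem_ball_iff_norm] using k1.trans_lt h2)
  rw [add_sub_cancel_left, norm_pow, norm_norm] at k2
  have k3 := hx (a + (E : ℂ) • w) (by
    rw [add_mem_closedBall_iff_norm]
    nlinarith)
  have k4 : A' - 2 * ν * T = Real.log ((E ^ ν) ^ 2 * ((C * ρ ^ ν) ^ 2 + Real.exp N)) := by
    rw [Real.log_mul (by positivity) (by positivity), Real.log_pow, Real.log_pow, hE, Real.log_exp]
    push_cast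
    ring
  rw [k4, mul_add, ← mul_pow, mul_left_comm, ← mul_pow]
  refine Real.log_le_log (by positivity) (add_le_add (pow_le_pow_left₀ (norm_nonneg _)
    (k2.trans (by gcongr)) 2) (mul_le_mul hε.2.le k3 (Real.exp_pos _).le (by positivity)))

end Vale.Agent.P284Z
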