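import Vale.Agent.P284Z.K.Op
import Vale.Agent.P284Z.F0.Sec

/-!
# P284Z, block K: the norm of a combination of coordinates of `V`
-/

set_option linter.all false

open scoped ContDiff Topology ComplexOrder ENNReal
open Filter Set Function Metric MeasureTheory

noncomputable section

namespace Vale.Agent.P284Z.K

open Vale.Agent.P272.K J Real

theorem sp_logn {n : ℕ} {G : Cm n → ℂ} {φ : Cm n → ℝ} {z : Cm n} {ε : ℝ} (hε : 0 < ε)
    (hG : AnalyticAt ℂ G z) (hφ : ∀ᶠ w in 𝓝 z, SP φ w) :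
    SP (fun w => log (‖G w‖ ^ 2 + ε * exp (φ w))) z := by
  obtain ⟨U, h1, h2, h3⟩ := _root_.eventually_nhds_iff.1 (hG.eventually_analyticAt.and hφ)
  have hs : ContDiffAt ℝ ∞ (fun w => ‖G w‖ ^ 2 + ε * exp (φ w)) z :=
    ((an_sm hG).norm_sq ℂ).add (contDiffAt_const.mul hφ.self_of_nhds.sm.exp)
  have h0 : 0 < ‖G z‖ ^ 2 + ε * exp (φ z) := by positivity
  refine ⟨hs.log h0.ne', LPsh.cHess_psd (U := U) (((lpsh_norm h2 fun w hw =>
    (h1 w hw).1.differentiableAt.differentiableWithinAt).pow 2).add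
    (((psh_of_cHess fun w hw => ⟨two (h1 w hw).2.sm, (h1 w hw).2.psd⟩).lpsh_exp
      (LB.of_cont fun w hw => (h1 w hw).2.cont.continuousWithinAt)).const_mul hε.le))
    (h2.mem_nhds h3) h0 (two hs)⟩

theorem log_shift {x ε u : ℝ} (hx : 0 ≤ x) (hε : 0 < ε) :
    u + log (x * exp (-u) + ε) = log (x + ε * exp u) := by
  have : x + ε * exp u = exp u * (x * exp (-u) + ε) := by
    rw [mul_add, mul_left_comm, ← exp_add, add_neg_cancel, exp_zero, mul_one, mul_comm]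
  rw [this, log_mul (exp_pos _).ne' (by positivity), log_exp]

variable {n : ℕ} {Γ E : Type} [Group Γ] [TopologicalSpace E] [MulAction Γ E] {C : Cov n Γ E}
  {P : Pol C} {J : IX Γ} {m M : ℕ} (V : HSec P J m) (i : Fin M → J.ι) (c : Fin M → E → ℂ)

/-- the combination in a chart -/
def Gc (γ : Γ) (a : C.I) (z : Cm n) : ℂ := ∑ k, c k (C.pt γ a z) * V.val γ a z (i k)

/-- the square of the norm of the combination -/
def Nm (y : E) : ℝ := ‖Gc V i c (C.ch₀ y).1 (C.ch₀ y).2.1 (C.ch₀ y).2.2‖ ^ 2 *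
  exp (-(m * C.ρ (C.ch₀ y).2.1 (C.ch₀ y).2.2))

theorem Nm_pt (γ : Γ) {a : C.I} {z : Cm n} (hz : z ∈ C.B 4 a) :
    Nm V i c (C.pt γ a z) = ‖Gc V i c γ a z‖ ^ 2 * exp (-(m * C.ρ a z)) := by
  obtain ⟨h1, h2⟩ := C.Ov_of_eq hz (ch_mem (C.pt γ a z)) (ch_pt _).symm
  obtain ⟨g, -, h3, h4⟩ := V.val_ch h1
  obtain ⟨h5, h6⟩ := h4.self_of_nhds
  rw [h2] at h5 h6
  have h7 : Gc V i c γ a z = g z ^ m * Gc V i c (C.ch₀ (C.pt γ a z)).1 (C.ch₀ (C.pt γ a z)).2.1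
      (C.ch₀ (C.pt γ a z)).2.2 := by
    rw [Gc, Gc, Finset.mul_sum, ch_pt]
    refine Finset.sum_congr rfl fun k _ => ?_
    rw [mul_left_comm, ← h5, mul_inv_cancel_left]
  have h8 : 0 < ‖g z‖ ^ 2 := by positivity
  rw [Nm, h7, h6, norm_mul, norm_pow, mul_add, neg_add, exp_add, exp_neg (_ * log _), exp_nat_mul,
    exp_log h8, mul_pow, ← pow_mul, ← pow_mul, mul_comm m 2]
  field_simp

theorem Nm_nonneg (y : E) : 0 ≤ Nm V i c y := by
  unfold Nm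
  positivity

theorem Nm_le {S : Set E} {B : ℝ} (hB : ∀ k, ∀ y ∈ S, ‖c k y‖ ≤ B) :
    ∃ B', ∀ y ∈ S, Nm V i c y ≤ B' := by
  obtain ⟨M₁, -, h1⟩ := rho_bd C
  have h2 : ∀ a, ∃ M : ℝ, ∀ z ∈ C.cB 1 a, ‖V.L a z‖ ≤ M := fun a =>
    (C.isCompact_cB 1 a).exists_bound_of_continuousOn
      ((V.an a).continuousOn.mono (C.cB_sub_B (by norm_num) a))
  choose M₂ h2 using h2
  obtain ⟨M₃, h3⟩ := (finite_range M₂).bddAbove
  refine ⟨(∑ _k : Fin M, B * M₃) ^ 2 * exp (m * M₁), fun y hy => ?_⟩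
  have hz := C.B_sub_cB _ _ (ch_mem₁ (C := C) y)
  refine mul_le_mul (pow_le_pow_left₀ (norm_nonneg _) ((norm_sum_le _ _).trans
    (Finset.sum_le_sum fun k _ => ?_)) 2) (exp_le_exp.2 ?_) (exp_pos _).le (sq_nonneg _)
  · rw [norm_mul, ch_pt]
    exact mul_le_mul (hB k y hy) ((lp.norm_apply_le_norm (by norm_num) _ _).trans
      ((h2 _ _ hz).trans (h3 ⟨_, rfl⟩))) (norm_nonneg _) ((norm_nonneg _).trans (hB k y hy))
  · rw [← mul_neg]
    exact mul_le_mul_of_nonneg_left (neg_le.1 (abs_le.1 (h1 _ _ (C.B_sub_cB _ _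
      (C.B_mono (by norm_num) _ (ch_mem₁ y))))).1) (Nat.cast_nonneg m)

theorem Gc_an {γ : Γ} {a : C.I} {z : Cm n} (hz : z ∈ C.B 4 a)
    (hc : ∀ k, AnalyticAt ℂ (fun w => c k (C.pt γ a w)) z) : AnalyticAt ℂ (Gc V i c γ a) z :=
  Finset.analyticAt_fun_sum _ fun k _ => (hc k).mul (V.an_val hz γ (i k))

theorem Nm_sp {γ : Γ} {a : C.I} {z : Cm n} (hz : z ∈ C.B 4 a) {ε : ℝ} (hε : 0 < ε)
    (hc : ∀ k, AnalyticAt ℂ (fun w => c k (C.pt γ a w)) z) :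
    SP (fun w => m * C.ρ a w + log (Nm V i c (C.pt γ a w) + ε)) z := by
  have h1 := (C.isOpen_B 4 a).eventually_mem hz
  refine (sp_logn hε (Gc_an V i c hz hc)
    (h1.mono fun w hw => (sp_rho hw).const_mul (Nat.cast_nonneg m))).congr ?_
  filter_upwards [h1] with w hw
  rw [Nm_pt V i c γ hw, log_shift (sq_nonneg _) hε]

end Vale.Agent.P284Z.K
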