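import Vale.Agent.P284Z.K.K6a
import Vale.Agent.P284Z.K.K6b
import Vale.Agent.P284Z.K.K6e
import Vale.Agent.P284Z.K.K6c
import Vale.Agent.P284Z.K.K6d

/-!
# P284Z, block K: the formula of Jensen on the leaves
-/

set_option linter.all false

open scoped ContDiff Topology ComplexOrder ENNReal
open Filter Set Function Metric MeasureTheory Asymptotics

noncomputable section

namespace Vale.Agent.P284Z

open Vale.Agent.P272.K J Real K

namespace K

variable {n : ℕ} {Γ E : Type} [Group Γ] [TopologicalSpace E] [MulAction Γ E] {C : Cov n Γ E}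
  {D : LD C} {L : Lim D} {Z : ZD L} {Φ : FD Z} {N : NC Z Φ.d Φ.q Φ.l₁} {T : TD Φ N}

theorem t_mem {t : Cm Φ.q} (ht : t ∈ ball T.t₀ T.R) : t ∈ ball (0 : Cm Φ.q) N.R :=
  mem_ball_zero_iff.2 ((norm_snd_le (T.a₀, t)).trans_lt
    (mem_ball_zero_iff.1 (T.sub t (ball_subset_closedBall ht))))

theorem a_mem (T : TD Φ N) : T.a₀ ∈ ball (0 : Cm Φ.d) N.R :=
  mem_ball_zero_iff.2 ((norm_fst_le (T.a₀, T.t₀)).trans_lt
    (mem_ball_zero_iff.1 (T.sub _ (mem_closedBall_self T.R_pos.le))))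

theorem box {t : Cm Φ.q} (ht : t ∈ ball T.t₀ T.R) {w : Cm Φ.d} (hw : w ∈ ball (0 : Cm Φ.d) N.R) :
    C.co N.g N.a (N.Ψ.symm (w, t)) ∈ C.B 4 N.a ∧
      C.pt N.g N.a (C.co N.g N.a (N.Ψ.symm (w, t))) = N.Ψ.symm (w, t) ∧
      T.s (N.Ψ.symm (w, t)) = t ∧
      AnalyticAt ℂ (fun w => C.co N.g N.a (N.Ψ.symm (w, t))) w := by
  have h1 := mem_ball_zero_iff.1 hw
  have h2 := mem_ball_zero_iff.1 (t_mem ht)
  have h3 := H.src (N := N) h1 h2
  have h4 := H.snd_symm (N := N) h1 h2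
  refine ⟨C.B_mono (by norm_num) _ (H.inch h3).1, (H.inch h3).2,
    (T.base _ h3 (h4.symm ▸ ht)).2.trans h4, (N.hol' (w, t) ?_).comp (f := fun w => (w, t))
      (analyticAt_id.prod analyticAt_const)⟩
  rw [mem_ball_zero_iff, Prod.norm_def]
  exact max_lt h1 h2

theorem tube_meas [MeasurableSpace E] [BorelSpace E] (T : TD Φ N) {S : Set (Cm Φ.q)}
    (hS : IsClosed S) : MeasurableSet {y ∈ T.Ω | T.s y ∈ S} := by
  have h1 : IsOpen (T.Ω ∩ T.s ⁻¹' Sᶜ) := ContinuousOn.isOpen_inter_preimage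
    (fun y hy => (s_cont hy).continuousWithinAt) T.opn hS.isOpen_compl
  refine (congrArg MeasurableSet ?_).mp (T.opn.measurableSet.diff h1.measurableSet)
  ext y
  exact ⟨fun h => ⟨h.1, by_contra fun h' => h.2 ⟨h.1, h'⟩⟩, fun h => ⟨h.1, fun h' => h'.2 h.2⟩⟩

end K

theorem stK6 : StK6 := by
  intro n Γ E _ _ _ _ _ C P J m V D L Z ja jb jg k5 Φ N T hC S₀ r hr hS₀ hm hpos hB₀ hF₀
  borelize E
  have jg : JG C := jg
  obtain ⟨μ, hμ⟩ := jg.vol
  obtain ⟨S, hSS, hS, hv⟩ := hm.exists_lt_isCompact hpos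
  have hS' : S ⊆ ball T.t₀ T.R := hSS.trans (hS₀.trans (ball_subset_ball hr.le))
  have hT : ∀ γ a, T.Tub S γ a ⊆ T.Tub S₀ γ a := fun γ a z hz => ⟨hz.1, hz.2.1, hSS hz.2.2⟩
  have hB : T.Bdd S := hB₀.imp fun G hG => ⟨hG.1, fun γ hγ a =>
    measure_mono_null (hT γ a) (hG.2 γ hγ a)⟩
  have hF : T.Fv S := fun e γ a => (lintegral_mono_set (hT γ a)).trans_lt (hF₀ e γ a)
  rcases isEmpty_or_nonempty (Fin Φ.d) with hd | ⟨⟨l₀⟩⟩
  · obtain ⟨M, i, g, -, h2, h3⟩ := hC T.a₀ (a_mem T) 1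
    obtain ⟨t, ht, h4⟩ := Measure.exists_mem_of_measure_ne_zero_of_ae hv.ne' (ae_restrict_of_ae h3)
    obtain ⟨c, hc⟩ := (h2 t (t_mem (hS' ht))).bound
    obtain ⟨a, h5, h6⟩ := ((h4 (t_mem (hS' ht))).and_eventually hc).exists
    rw [Subsingleton.elim a T.a₀] at h5 h6
    exact h5 (by simpa using h6)
  let e : Fin Φ.d ⊕ Fin Φ.q ≃ Fin n := finSumFinEquiv.trans (finCongr Φ.dim)
  obtain ⟨R₁, hR₀, hR⟩ := nhds_basis_closedBall.mem_iff.1 (isOpen_ball.mem_nhds (a_mem T))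
  have hL := lf_of ja jb jg hμ T e l₀ hS hS' hB hF
  have hcut := cut_of jb jg Φ hL
  obtain ⟨c₁, hc₁, hlow⟩ := lower ja jb jg hμ T e l₀ hR hS hS'
  obtain ⟨c, hc, k5⟩ := k5 Φ.d R₁ hR₀
  set W := 2 * (m : ℝ) * ∫ y in {y ∈ T.Ω | T.s y ∈ S}, Xi (XT T e) (e (.inl l₀)) (C.om 1 0) y ∂μ
  have key : ∀ ν : ℕ, ENNReal.ofReal (c * ν) * volume S ≤ ENNReal.ofReal W / ENNReal.ofReal c₁ := by
    intro ν
    obtain ⟨M, i, g, h1, h2, h3⟩ := hC T.a₀ (a_mem T) ν
    let cf : Fin M → E → ℂ := fun k y => g k (T.s y)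
    have han : ∀ γ a, ∀ z ∈ C.B 4 a, C.pt γ a z ∈ T.Ω → ∀ k,
        AnalyticAt ℂ (fun w => cf k (C.pt γ a w)) z := fun γ a z hz hy k =>
      (h1 k _ (t_mem (T.mem _ hy).1)).comp (f := fun w => T.s (C.pt γ a w)) (T.hol γ a z hz hy)
    obtain ⟨B₀, hB₀⟩ := hS.exists_bound_of_continuousOn (f := fun t k => g k t)
      (continuousOn_pi.2 fun k => (h1 k).continuousOn.mono fun t ht => t_mem (hS' ht))
    obtain ⟨B, hB⟩ := Nm_le V i cf (S := {y ∈ T.Ω | T.s y ∈ S}) fun k y hy =>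
      (norm_le_pi_norm (fun k => g k (T.s y)) k).trans (hB₀ _ hy.2)
    let f : ℝ → E → ℝ := fun ε y => log (Nm V i cf y + ε)
    let Jn : ℝ → Cm Φ.q → ℝ≥0∞ := fun ε t => ∫⁻ a in ball T.a₀ R₁, ENNReal.ofReal (cHess (fun w =>
      m * C.ρ N.a (C.co N.g N.a (N.Ψ.symm (w, t))) + f ε (N.Ψ.symm (w, t))) a).trace.re
    have hup : ∀ ε > (0 : ℝ), AEMeasurable (Jn ε) (volume.restrict S) ∧
        ∫⁻ t in S, Jn ε t ≤ ENNReal.ofReal W / ENNReal.ofReal c₁ := by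
      intro ε hε
      have hsp := fun γ a z hz hy => Nm_sp V i cf hz hε (han γ a z hz hy)
      have hsm : ∀ y ∈ T.Ω, C.SmAt (f ε) y := fun y hy γ a z hz e => by
        simpa using (hsp γ a z hz (e ▸ hy)).sm.sub
          ((contDiffAt_const (c := (m : ℝ))).mul (C.ρ_sm a z hz))
      obtain ⟨l1, l2⟩ := hlow m (f ε) (Jn ε) hsm (fun γ a z hz hy => (hsp γ a z hz hy).psd)
        fun _ => rfl
      refine ⟨l1, (ENNReal.le_div_iff_mul_le (.inl (ENNReal.ofReal_pos.2 hc₁).ne')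
        (.inl ENNReal.ofReal_ne_top)).2 ((mul_comm _ _).trans_le (l2.trans ?_))⟩
      refine upper (B := max |log ε| |log (B + ε)|) hL hcut (Nat.cast_nonneg m) hsm
        (fun y hy => Xi_nonneg (hL.ps hy) (hsp _ _ _ (ch_mem y) ((ch_pt (C := C) y).symm ▸ hy)).psd)
        ((ae_restrict_mem (tube_meas T hS.isClosed)).mono fun y hy => ?_)
      have h0 := Nm_nonneg V i cf y
      exact abs_le_max_abs_abs (log_le_log hε (by linarith))
        (log_le_log (by linarith) (by linarith [hB y hy]))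
    have hε : Tendsto (fun j : ℕ => 1 / ((j : ℝ) + 1)) atTop (𝓝[>] 0) :=
      tendsto_nhdsWithin_iff.2 ⟨tendsto_one_div_add_atTop_nhds_zero_nat,
        Eventually.of_forall fun j => mem_Ioi.2 Nat.one_div_pos_of_nat⟩
    rw [← setLIntegral_const]
    refine le_trans (lintegral_mono_ae ?_) ((lintegral_liminf_le'
      (u := atTop) (f := fun j : ℕ => Jn (1 / ((j : ℝ) + 1))) fun j => (hup _ Nat.one_div_pos_of_nat).1).trans
      (liminf_le_of_frequently_le' (Frequently.of_forall fun j =>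
        (hup _ Nat.one_div_pos_of_nat).2)))
    filter_upwards [ae_restrict_mem hS.measurableSet, ae_restrict_of_ae h3] with t ht h4
    have hb := fun w (hw : w ∈ closedBall T.a₀ R₁) => box (hS' ht) (hR hw)
    have hsp : ∀ w ∈ closedBall T.a₀ R₁,
        SP (fun w => m * C.ρ N.a (C.co N.g N.a (N.Ψ.symm (w, t)))) w := fun w hw =>
      (SP.comp jb (s := fun w => C.co N.g N.a (N.Ψ.symm (w, t))) (sp_rho (hb w hw).1)
        (hb w hw).2.2.2).const_mul (Nat.cast_nonneg m)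
    have hG : AnalyticOnNhd ℂ (fun a => N.cmb V i g (a, t)) (closedBall T.a₀ R₁) := fun w hw =>
      Finset.analyticAt_fun_sum _ fun k _ => (analyticAt_const (v := g k t)).mul
        ((V.an_val (hb w hw).1 N.g (i k)).comp (f := fun w => C.co N.g N.a (N.Ψ.symm (w, t)))
          (hb w hw).2.2.2)
    refine le_of_forall_lt_imp_le_of_dense fun b hb' => le_liminf_of_le (by isBoundedDefault) ?_
    filter_upwards [hε.eventually (k5 T.a₀ _ _ ν hG (fun w hw => (hsp w hw).sm)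
      (fun w hw => (hsp w hw).psd) (h2 t (t_mem (hS' ht))) (h4 (t_mem (hS' ht))) b hb')] with j hj
    refine hj.le.trans (setLIntegral_congr_fun measurableSet_ball fun a ha => ?_).le
    refine congrArg (fun M : Mx Φ.d => ENNReal.ofReal M.trace.re) (C2.cHess_congr ?_)
    filter_upwards [isOpen_ball.mem_nhds ha] with w hw
    obtain ⟨b1, b2, b3, -⟩ := hb w (ball_subset_closedBall hw)
    have e1 : N.cmb V i g (w, t) = Gc V i cf N.g N.a (C.co N.g N.a (N.Ψ.symm (w, t))) :=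
      Finset.sum_congr rfl fun k _ => by rw [b2]; simp only [cf, b3]
    have e2 := Nm_pt V i cf N.g b1
    rw [b2] at e2
    simp only [f]
    rw [e1, e2, log_shift (sq_nonneg _) Nat.one_div_pos_of_nat]
  have hfin : ENNReal.ofReal W / ENNReal.ofReal c₁ ≠ ⊤ :=
    ENNReal.div_ne_top ENNReal.ofReal_ne_top (ENNReal.ofReal_pos.2 hc₁).ne'
  have hv' := mul_pos hc (ENNReal.toReal_pos hv.ne' hS.measure_lt_top.ne)
  obtain ⟨ν, hν⟩ := exists_nat_gt ((ENNReal.ofReal W / ENNReal.ofReal c₁).toReal /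
    (c * (volume S).toReal))
  have := ENNReal.toReal_mono hfin (key ν)
  rw [ENNReal.toReal_mul, ENNReal.toReal_ofReal (by positivity)] at this
  rw [div_lt_iff₀ hv'] at hν
  linarith

end Vale.Agent.P284Z
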