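import Vale.Agent.P284Z.K.K0
import Vale.Agent.P284Z.K.K1
import Vale.Agent.P284Z.K.K2
import Vale.Agent.P284Z.K.K3
import Vale.Agent.P284Z.K.K4
import Vale.Agent.P284Z.K.K5
import Vale.Agent.P284Z.K.K6
import Vale.Agent.P284Z.J.Main

/-!
# P284Z, block K: the wandering case
-/

namespace Vale.Agent.P284Z

theorem stK : StK := stK_of stJ stK0 stK1 stK2 stK3 stK4 stK5 stK6

end Vale.Agent.P284Z
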