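import Vale.Agent.P284Z.E.Ch
import Vale.Agent.P284Z.A.Tr

/-!
# P284Z, block K4: generic independence of jets, derivatives along one direction
-/

set_option linter.all false

open scoped Topology
open Filter Set Metric

noncomputable section

namespace Vale.Agent.P284Z.K4

open Vale.Agent.P272.K Ang E

section gen
variable {W V : Type} [NormedAddCommGroup W] [NormedSpace ℂ W] [NormedAddCommGroup V]
  [InnerProductSpace ℂ V] [CompleteSpace V]

theorem li_freq {ι : Type} [Fintype ι] [DecidableEq ι] {U : Set W} (hc : IsPreconnected U)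
    {f : W → ι → V} (hf : ∀ w ∈ U, ∀ i, AnalyticAt ℂ (fun w => f w i) w) {z₀ z : W} (h0 : z₀ ∈ U)
    (hi : LinearIndependent ℂ (f z₀)) (hz : z ∈ U) : ∃ᶠ w in 𝓝 z, LinearIndependent ℂ (f w) := by
  obtain ⟨Λ, hΛ⟩ := exists_dual hi
  have ha : AnalyticOnNhd ℂ (fun w => (Matrix.of fun i k => Λ (f w i) k).det) U := fun w hw => by
    simp only [Matrix.det_apply']
    exact Finset.analyticAt_fun_sum _ fun σ _ => analyticAt_const.mul
      (Finset.analyticAt_fun_prod _ fun i _ => (((ContinuousLinearMap.proj i).comp Λ).analyticAt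
        _).comp (hf w hw (σ i)))
  have h1 : (Matrix.of fun i k => Λ (f z₀ i) k) = 1 := by
    ext i k
    simp [hΛ, Matrix.one_apply, Pi.single_apply, eq_comm]
  refine (dense_ne_zero₀ hc ha ⟨z₀, h0, by simp [h1]⟩ hz).mono fun w hw => ?_
  exact LinearIndependent.of_comp (Λ : V →ₗ[ℂ] ι → ℂ) (Matrix.linearIndependent_rows_of_det_ne_zero hw)

variable [CompleteSpace W] {F : W → V} {z : W} {p j : ℕ}

/-- the derivatives in a direction in which `[F]` moves are independent -/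
theorem li_dir (ha : AnalyticAt ℂ F z) (hr : Rk p F z) {ξ : Fin p → W} (hj : 1 ≤ j)
    (h : LinearIndependent ℂ (jets j F z ξ)) {ζ : W}
    (hζ : LinearIndependent ℂ ![F z, fderiv ℂ F z ζ]) :
    LinearIndependent ℂ fun l : Fin (j + 1) => iteratedFDeriv ℂ l F z fun _ => ζ := by
  have hi := im_of_li ha hj h
  have h1 : fderiv ℂ F z ζ ∈ sp (j1 F z ξ) := by
    by_contra h1
    refine hr.self_of_nhds (Fin.snoc ξ ζ) ?_
    have h2 : j1 F z (Fin.snoc ξ ζ : Fin (p + 1) → W) = Fin.snoc (j1 F z ξ) (fderiv ℂ F z ζ) := by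
      funext i
      refine Fin.cases ?_ (fun i => ?_) i
      · rw [show (0 : Fin (p + 2)) = Fin.castSucc 0 from rfl, Fin.snoc_castSucc]; rfl
      · refine Fin.lastCases ?_ (fun i => ?_) i
        · rw [Fin.succ_last, Fin.snoc_last]; simp [j1]
        · rw [Fin.succ_castSucc, Fin.snoc_castSucc, ← Fin.succ_castSucc]; simp [j1]
    rw [Im, h2]
    exact linearIndependent_finSnoc.2 ⟨hi, h1⟩
  obtain ⟨c, hc⟩ := (Submodule.mem_span_range_iff_exists_fun ℂ).1 h1
  rw [Fin.sum_univ_succ] at hc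
  obtain ⟨i, hci⟩ : ∃ i : Fin p, c i.succ ≠ 0 := by
    by_contra h2
    push Not at h2
    simp only [h2, zero_smul, Finset.sum_const_zero, add_zero] at hc
    have h3 := (LinearIndependent.pair_iff.1 hζ) (c 0) (-1) (by rw [← hc]; simp [j1])
    exact absurd h3.2 (by simp)
  have h2 : Im F z (Function.update ξ i ζ) := by
    refine li_of_sp_le hi (Submodule.span_le.2 ?_)
    have m0 : F z ∈ sp (j1 F z (Function.update ξ i ζ)) := Submodule.subset_span ⟨0, rfl⟩
    have m1 : ∀ k, k ≠ i → fderiv ℂ F z (ξ k) ∈ sp (j1 F z (Function.update ξ i ζ)) := fun k hk =>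
      Submodule.subset_span ⟨k.succ, by simp [j1, Function.update_of_ne hk]⟩
    have m2 : fderiv ℂ F z ζ ∈ sp (j1 F z (Function.update ξ i ζ)) :=
      Submodule.subset_span ⟨i.succ, by simp [j1]⟩
    rintro _ ⟨k, rfl⟩
    refine Fin.cases m0 (fun k => ?_) k
    by_cases hk : k = i
    · subst hk
      rw [← hc, ← Finset.add_sum_erase _ _ (Finset.mem_univ k)] at m2
      have m3 := Submodule.sub_mem _ (Submodule.sub_mem _ m2 (Submodule.smul_mem _ (c 0) m0))
        (Submodule.sum_mem _ fun l (hl : l ∈ Finset.univ.erase k) =>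
          Submodule.smul_mem _ (c l.succ) (m1 l (Finset.ne_of_mem_erase hl)))
      have m4 := Submodule.smul_mem _ (c k.succ)⁻¹ m3
      convert m4 using 1
      simp [j1, smul_smul, inv_mul_cancel₀ hci]
    · exact m1 k hk
  have h3 := li_of_sp_le h (sp_le_of_li ha hr h2 ξ)
  have h4 : ∀ l : Fin (j + 1), ∑ k, cnt (fun _ : Fin l => i) k ≤ j := fun l =>
    (dg_cnt _).le.trans (Nat.lt_succ_iff.1 l.2)
  convert h3.comp (fun l : Fin (j + 1) => (⟨cnt fun _ : Fin l => i, h4 l⟩ : Idx p j))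
    fun l l' e => Fin.ext (by simpa [dg_cnt] using congrArg (fun α : Idx p j => dg α.1) e) using 1
  funext l
  show _ = jet F z _ (cnt fun _ : Fin l => i)
  rw [jet_eq ha]
  simp

/-- a functional which vanishes on a line kills the derivatives -/
theorem kill_dir {H : Type} [NormedAddCommGroup H] [NormedSpace ℂ H] [CompleteSpace H]
    (ha : AnalyticAt ℂ F z) (T : V →L[ℂ] H) {ζ : W}
    (h : ∀ᶠ s : ℂ in 𝓝 0, T (F (z + s • ζ)) = 0) (l : ℕ) :
    T (iteratedFDeriv ℂ l F z fun _ => ζ) = 0 := by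
  let A : ℂ →L[ℂ] W := (ContinuousLinearMap.id ℂ ℂ).smulRight ζ
  have h0 : z + A 0 = z := by simp
  have h1 := iD_aff (f := fun w => T (F w)) (m := l) A z (z' := 0)
    (by rw [h0]; exact (T.analyticAt _).comp ha) fun _ => 1
  have h2 : (fun s => T (F (z + A s))) =ᶠ[𝓝 0] fun _ => 0 := h
  rw [iD_congr h2, h0, iD_clm T ha] at h1
  simpa [A] using h1.symm

end gen

/-- independent vectors have independent coordinates -/
theorem exists_coord {ι : Type} {M : ℕ} {w : Fin M → ι → ℂ} (hw : LinearIndependent ℂ w) :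
    ∃ i : Fin M → ι, LinearIndependent ℂ fun k l => w l (i k) := by
  obtain ⟨κ, a, -, h1, h2⟩ := exists_linearIndependent' ℂ fun (i : ι) (l : Fin M) => w l i
  have h3 : Submodule.span ℂ (range fun (i : ι) (l : Fin M) => w l i) = ⊤ := by
    by_contra h3
    obtain ⟨φ, h4, h5⟩ := Submodule.exists_le_ker_of_lt_top _ (lt_top_iff_ne_top.2 h3)
    refine h4 ((Pi.basisFun ℂ (Fin M)).ext fun l => ?_)
    refine Fintype.linearIndependent_iff.1 hw (fun l => φ (Pi.basisFun ℂ (Fin M) l)) ?_ l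
    funext i
    have h6 : φ (fun l => w l i) = 0 := h5 (Submodule.subset_span ⟨i, rfl⟩)
    rw [← (Pi.basisFun ℂ (Fin M)).sum_repr fun l => w l i, map_sum] at h6
    simpa [mul_comm] using h6
  let b := Module.Basis.mk h2 (by rw [h1, h3])
  have := Module.Finite.finite_basis b
  have := Fintype.ofFinite κ
  have h4 : Fintype.card κ = M := by rw [← Module.finrank_eq_card_basis b]; simp
  exact ⟨a ∘ (Fintype.equivFinOfCardEq h4).symm, h2.comp _ (Fintype.equivFinOfCardEq h4).symm.injective⟩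

/-- a homogeneous system with analytic coefficients and more unknowns than equations -/
theorem exists_ker {W κ : Type} [NormedAddCommGroup W] [NormedSpace ℂ W] [Fintype κ] {M : ℕ}
    (hM : Fintype.card κ < M) {U : Set W} (hU : U.Nonempty) {x : Fin M → κ → W → ℂ}
    (hx : ∀ k α, AnalyticOnNhd ℂ (x k α) U) : ∃ g : Fin M → W → ℂ,
      (∀ k, AnalyticOnNhd ℂ (g k) U) ∧ (∃ k, ∃ t ∈ U, g k t ≠ 0) ∧
      ∀ α, ∀ t ∈ U, ∑ k, g k t * x k α t = 0 := by
  let R : Subring (U → ℂ) :=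
    { carrier := {f | ∃ g, AnalyticOnNhd ℂ g U ∧ ∀ t : U, f t = g t}
      mul_mem' := by
        rintro _ _ ⟨g, h1, h2⟩ ⟨g', h3, h4⟩
        exact ⟨fun t => g t * g' t, h1.mul h3, fun t => by simp [h2, h4]⟩
      one_mem' := ⟨fun _ => 1, analyticOnNhd_const, fun _ => rfl⟩
      add_mem' := by
        rintro _ _ ⟨g, h1, h2⟩ ⟨g', h3, h4⟩
        exact ⟨fun t => g t + g' t, h1.add h3, fun t => by simp [h2, h4]⟩
      zero_mem' := ⟨fun _ => 0, analyticOnNhd_const, fun _ => rfl⟩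
      neg_mem' := by
        rintro _ ⟨g, h1, h2⟩
        exact ⟨fun t => -g t, h1.neg, fun t => by simp [h2]⟩ }
  have := hU.to_subtype
  have h1 : ¬ LinearIndependent R fun k α => (⟨fun t => x k α t, _, hx k α, fun _ => rfl⟩ : R) :=
    fun h => by
      have h1 := h.fintype_card_le_finrank
      rw [Module.finrank_fintype_fun_eq_card, Fintype.card_fin] at h1
      omega
  obtain ⟨g, h2, k, h3⟩ := Fintype.not_linearIndependent_iff.1 h1
  choose G h4 h5 using fun k => (g k).2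
  refine ⟨G, h4, ⟨k, ?_⟩, fun α t ht => ?_⟩
  · by_contra h6
    push Not at h6
    exact h3 (Subtype.ext (funext fun t => (h5 k t).trans (h6 t t.2)))
  · have h6 := congrFun (congrArg Subtype.val (congrFun h2 α)) ⟨t, ht⟩
    simpa [h5] using h6

variable {n : ℕ} {Γ E : Type} [Group Γ] [TopologicalSpace E] [MulAction Γ E] {C : Cov n Γ E}
  {P : Pol C} {J : IX Γ} {m p j : ℕ} {V : HSec P J m}

/-- the jets are independent at generic points -/
theorem li_gen [ConnectedSpace E] (hV : V.VD p) (hj : 1 ≤ j) (γ : Γ) (a : C.I) :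
    ∃ ξ : Fin p → Cm n, ∀ z ∈ C.B 4 a, ∃ᶠ w in 𝓝 z, LinearIndependent ℂ (fam V j γ a w ξ) := by
  have key : ∀ γ a, (∃ z ∈ C.B 4 a, ∃ ξ : Fin p → Cm n, LinearIndependent ℂ (fam V j γ a z ξ)) →
      ∃ ξ : Fin p → Cm n, ∀ z ∈ C.B 4 a, ∃ᶠ w in 𝓝 z, LinearIndependent ℂ (fam V j γ a w ξ) := by
    rintro γ a ⟨z₀, h0, ξ, h1⟩
    exact ⟨ξ, fun z hz => li_freq (f := fun w => fam V j γ a w ξ) (C.preconn_B 4 a) (fun w hw α =>
      fam_an V (u := fun w => w) (ξ := fun _ => ξ) γ hw analyticAt_id (fun _ => analyticAt_const) α)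
      h0 h1 hz⟩
  obtain ⟨b, z, hz, ξ, h⟩ := hV.jets j
  refine key _ _ (A.conn' (fun γ a => ∃ z ∈ C.B 4 a, ∃ ξ : Fin p → Cm n,
    LinearIndependent ℂ (fam V j γ a z ξ)) (fun γ a b z h1 _ _ h2 => ?_) 1 b γ a ⟨z, hz, ξ, ?_⟩)
  · obtain ⟨ξ, h3⟩ := key _ _ h2
    obtain ⟨w, h4, h5⟩ := ((h3 z (A.O_B h1)).and_eventually (C.ev_Ov (A.kp_ov h1))).exists
    have h6 := (rel_ch hV hj h5 (γ * (A.kp C a b z)⁻¹) ξ).1
    rw [inv_mul_cancel_right] at h6
    have h7 := G_pos_iff.2 h4
    rw [h6] at h7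
    exact ⟨_, C.tr_mem h5, _, G_pos_iff.1 ((pos_iff_pos_of_mul_pos h7).1 (Real.exp_pos _))⟩
  · rw [fam_eq V 1 hz]
    simp only [U_one]
    exact h

end Vale.Agent.P284Z.K4
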