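import Vale.Agent.P284Z.K.Bas
import Vale.Agent.P284Z.J.Cap

/-!
# P284Z, block K: the calculus along the leaves
-/

set_option linter.all false

open scoped ContDiff Topology ComplexOrder ENNReal
open Filter Set Function Metric MeasureTheory

noncomputable section

namespace Vale.Agent.P284Z

open Vale.Agent.P272.K J Real

variable {n : ℕ} {Γ E : Type} [Group Γ] [TopologicalSpace E] [MulAction Γ E] {C : Cov n Γ E}

namespace Cov.SmAt
variable {f g : E → ℝ} {y : E}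

theorem const (c : ℝ) (y : E) : C.SmAt (fun _ => c) y := fun _ _ _ _ _ => contDiffAt_const

theorem add (hf : C.SmAt f y) (hg : C.SmAt g y) : C.SmAt (fun x => f x + g x) y :=
  fun γ a z hz e => (hf γ a z hz e).add (hg γ a z hz e)

theorem sub (hf : C.SmAt f y) (hg : C.SmAt g y) : C.SmAt (fun x => f x - g x) y :=
  fun γ a z hz e => (hf γ a z hz e).sub (hg γ a z hz e)

theorem mul (hf : C.SmAt f y) (hg : C.SmAt g y) : C.SmAt (fun x => f x * g x) y :=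
  fun γ a z hz e => (hf γ a z hz e).mul (hg γ a z hz e)

theorem comp (hf : C.SmAt f y) {φ : ℝ → ℝ} (hφ : ContDiffAt ℝ ∞ φ (f y)) :
    C.SmAt (fun x => φ (f x)) y := fun γ a z hz e =>
  ContDiffAt.comp (g := φ) (f := fun w => f (C.pt γ a w)) z (by rwa [e]) (hf γ a z hz e)

theorem congr (hf : C.SmAt f y) (h : g =ᶠ[𝓝 y] f) : C.SmAt g y := fun γ a z hz e =>
  (hf γ a z hz e).congr_of_eventuallyEq ((C.continuousAt_pt hz γ).eventually (p := fun x => g x = f x) (e ▸ h))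

theorem sum {ι : Type} (s : Finset ι) {f : ι → E → ℝ} (hf : ∀ i ∈ s, C.SmAt (f i) y) :
    C.SmAt (fun x => ∑ i ∈ s, f i x) y :=
  fun γ a z hz e => ContDiffAt.sum fun i hi => hf i hi γ a z hz e

theorem smul (g : Γ) (hf : C.SmAt f (g • y)) : C.SmAt (fun x => f (g • x)) y := fun γ a z hz e => by
  simp only [C.smul_pt]
  exact hf _ a z hz (by rw [← C.smul_pt, e])

theorem cont (hf : C.SmAt f y) : ContinuousAt f y := by
  obtain ⟨γ, a, z, hz, rfl⟩ := C.exists_pt y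
  have hz' := C.B_mono (k' := 4) (by norm_num) a hz
  rw [ContinuousAt, ← C.map_pt' hz' γ, tendsto_map'_iff]
  exact (hf γ a z hz' rfl).continuousAt

theorem of_chart {γ : Γ} {a : C.I} {z : Cm n} (hz : z ∈ C.B 4 a)
    (h : ContDiffAt ℝ ∞ (fun w => f (C.pt γ a w)) z) : C.SmAt f (C.pt γ a z) := by
  intro γ' b z' hz' e
  obtain ⟨h1, h2⟩ := C.Ov_of_eq hz' hz e
  refine (ContDiffAt.comp (g := fun w => f (C.pt γ a w)) z' (h2.symm ▸ h)
    (K.an_sm (C.an_tr h1))).congr_of_eventuallyEq ?_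
  filter_upwards [C.ev_Ov h1] with w hw
  rw [comp_apply, C.pt_tr hw, mul_inv_cancel_left]

end Cov.SmAt

namespace K

/-- the wedge product with the form `H` in the slot `k`, divided by the volume form -/
def Xi (X : Fin n → C.Fm) (k : Fin n) (H : C.Fm) (y : E) : ℝ := (C.mD (update X k H) y).re

/-- the forms `ω, …, ω, s^* β, …, s^* β` -/
def XT {D : LD C} {L : Lim D} {Z : ZD L} {Φ : FD Z} {N : NC Z Φ.d Φ.q Φ.l₁} (T : TD Φ N)
    (e : Fin Φ.d ⊕ Fin Φ.q ≃ Fin n) : Fin n → C.Fm := blk e (C.om 1 0) (C.pbs T.s)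

/-- the calculus along the leaves, for the measure `ν` -/
structure LF [MeasurableSpace E] (Ω En : Set E) (ν : Measure E) (X : Fin n → C.Fm) (k : Fin n) :
    Prop where
  opn : IsOpen Ω
  psd : ∀ i, i ≠ k → ∀ γ a, ∀ z ∈ C.B 4 a, C.pt γ a z ∈ Ω → (X i γ a z).PosSemidef
  bdd : ∃ K, IsCompact K ∧ ∀ᵐ y ∂ν, y ∈ Ω ∧ y ∈ K
  ac : ∀ S : Set E, (∀ γ a, volume {z ∈ C.B 4 a | C.pt γ a z ∈ S} = 0) → ν S = 0
  int : Integrable (Xi X k (C.om 1 0)) ν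
  meas : ∀ (A : ℝ) (f : E → ℝ), (∀ y ∈ Ω, C.SmAt f y) → AEMeasurable (Xi X k (C.om A f)) ν
  ibp : ∀ (O K : Set E) (f h : E → ℝ), IsOpen O → IsCompact K → K ⊆ O ∩ En →
    (∀ y ∈ O ∩ Ω, C.SmAt f y ∧ C.SmAt h y) → (∀ y ∉ K, h y = 0) →
    Integrable (fun y => h y * Xi X k (C.om 0 f) y) ν ∧ Integrable (Xi X k (C.gg h f)) ν ∧
      ∫ y, h y * Xi X k (C.om 0 f) y ∂ν = -∫ y, Xi X k (C.gg h f) y ∂ν

variable {X : Fin n → C.Fm} {k : Fin n} {y : E} {f g h : E → ℝ}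

theorem ch_mem₁ (y : E) : (C.ch₀ y).2.2 ∈ C.B 1 (C.ch₀ y).2.1 := by
  rw [Cov.B, one_mul]
  exact (C.cover y).choose_spec.choose_spec.choose_spec.1

theorem ch_mem (y : E) : (C.ch₀ y).2.2 ∈ C.B 4 (C.ch₀ y).2.1 :=
  C.B_mono (by norm_num) _ (ch_mem₁ y)

theorem ch_pt (y : E) : C.pt (C.ch₀ y).1 (C.ch₀ y).2.1 (C.ch₀ y).2.2 = y :=
  (C.cover y).choose_spec.choose_spec.choose_spec.2.symm

variable (C) in
/-- a function in the chart at `y` -/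
def lc (f : E → ℝ) (y : E) (w : Cm n) : ℝ := f (C.pt (C.ch₀ y).1 (C.ch₀ y).2.1 w)

/-- a form in the chart at `y` -/
def fa (H : C.Fm) (y : E) : Mx n := H (C.ch₀ y).1 (C.ch₀ y).2.1 (C.ch₀ y).2.2

/-- the functional given by the slot `k` -/
def ell (X : Fin n → C.Fm) (k : Fin n) (y : E) : Mx n →ₗ[ℝ] ℝ :=
  (cHess (C.ρ (C.ch₀ y).2.1) (C.ch₀ y).2.2).det.re⁻¹ • sl (fun i => fa (X i) y) k

theorem det_real {M : Mx n} (h : M.PosDef) : 0 < M.det.re ∧ M.det = (M.det.re : ℂ) := by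
  have := Complex.pos_iff.1 h.det_pos
  exact ⟨this.1, Complex.ext rfl (by simpa using this.2.symm)⟩

theorem Xi_eq (X : Fin n → C.Fm) (k : Fin n) (H : C.Fm) (y : E) :
    Xi X k H y = ell X k y (fa H y) := by
  have e : (fun i => update X k H i (C.ch₀ y).1 (C.ch₀ y).2.1 (C.ch₀ y).2.2) =
      update (fun i => fa (X i) y) k (fa H y) :=
    funext fun i => apply_update (fun _ H => fa H y) X k H i
  rw [Xi, Cov.mD, e, (det_real (C.ρ_pos _ _ (ch_mem y))).2, Complex.div_ofReal_re, div_eq_inv_mul]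
  rfl

/-- the forms in the slots other than `k` are nonnegative at `y` -/
def Ps (X : Fin n → C.Fm) (k : Fin n) (y : E) : Prop := ∀ i, i ≠ k → (fa (X i) y).PosSemidef

theorem LF.ps [MeasurableSpace E] {Ω En : Set E} {ν : Measure E} (hL : LF Ω En ν X k)
    (hy : y ∈ Ω) : Ps X k y := fun i hi => hL.psd i hi _ _ _ (ch_mem y) ((ch_pt (C := C) y).symm ▸ hy)

theorem Ps.pf (hp : Ps X k y) : Pf (ell X k y) := by
  have h0 := inv_nonneg.2 (det_real (C.ρ_pos _ _ (ch_mem (C := C) y))).1.le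
  exact ⟨fun M hM => mul_nonneg h0 ((pf_sl hp).pos M hM), fun M => congrArg (_ * ·) ((pf_sl hp).ct M)⟩

theorem lc_self (f : E → ℝ) (y : E) : lc C f y (C.ch₀ y).2.2 = f y := congrArg f (ch_pt y)

theorem lc_sm (hf : C.SmAt f y) : ContDiffAt ℝ ∞ (lc C f y) (C.ch₀ y).2.2 :=
  hf _ _ _ (ch_mem y) (ch_pt y)

theorem lc_diff (hf : C.SmAt f y) : DifferentiableAt ℝ (lc C f y) (C.ch₀ y).2.2 :=
  (lc_sm hf).differentiableAt (by simp)

theorem lc_congr (e : f =ᶠ[𝓝 y] g) : lc C f y =ᶠ[𝓝 (C.ch₀ y).2.2] lc C g y :=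
  (C.continuousAt_pt (ch_mem y) _).eventually (p := fun x => f x = g x)
    ((ch_pt (C := C) y).symm ▸ e)

theorem fa_gg (h f : E → ℝ) (y : E) :
    fa (C.gg h f) y = P284.H650.gg (lc C h y) (lc C f y) (C.ch₀ y).2.2 := rfl

theorem fa_om0 (f : E → ℝ) (y : E) : fa (C.om 0 f) y = cHess (lc C f y) (C.ch₀ y).2.2 :=
  congrArg (cHess · _) (funext fun w => by simp [lc])

theorem fa_w (y : E) : fa (C.om 1 0) y = cHess (C.ρ (C.ch₀ y).2.1) (C.ch₀ y).2.2 :=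
  congrArg (cHess · _) (funext fun w => by simp)

theorem Xi_nonneg (hp : Ps X k y) {H : C.Fm} (hH : (fa H y).PosSemidef) : 0 ≤ Xi X k H y :=
  Xi_eq X k H y ▸ hp.pf.pos _ hH

theorem w_nonneg (hp : Ps X k y) : 0 ≤ Xi X k (C.om 1 0) y :=
  Xi_nonneg hp (fa_w (C := C) y ▸ (sp_rho (ch_mem y)).psd)

theorem Xi_om (A : ℝ) (hf : C.SmAt f y) :
    Xi X k (C.om A f) y = A * Xi X k (C.om 1 0) y + Xi X k (C.om 0 f) y := by
  have h1 := two (C.ρ_sm _ _ (ch_mem (C := C) y))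
  rw [Xi_eq, Xi_eq, Xi_eq, fa_om0, fa_w, ← lin_csmul, ← map_add, ← C2.cHess_const_mul A h1,
    ← C2.cHess_add (contDiffAt_const.mul h1) (two (lc_sm hf))]
  rfl

theorem Q_nonneg (hp : Ps X k y) (f : E → ℝ) : 0 ≤ Xi X k (C.gg f f) y :=
  Xi_nonneg hp (gg_psd _ _)

theorem Q_symm (hp : Ps X k y) (f g : E → ℝ) : Xi X k (C.gg f g) y = Xi X k (C.gg g f) y := by
  rw [Xi_eq, Xi_eq, fa_gg, fa_gg, hp.pf.symm]

theorem Q_cs (hp : Ps X k y) (f g : E → ℝ) (a b : ℝ) : 2 * (a * b) * Xi X k (C.gg f g) y ≤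
    a ^ 2 * Xi X k (C.gg f f) y + b ^ 2 * Xi X k (C.gg g g) y := by
  simp only [Xi_eq, fa_gg]
  exact hp.pf.cs _ _ _ a b

theorem Q_congr (e : f =ᶠ[𝓝 y] g) (h : E → ℝ) : Xi X k (C.gg f h) y = Xi X k (C.gg g h) y := by
  rw [Xi_eq, Xi_eq, fa_gg, fa_gg, gg_congr_left (lc_congr e)]

theorem Q_const (c : ℝ) (h : E → ℝ) : Xi X k (C.gg (fun _ => c) h) y = 0 := by
  rw [Xi_eq, fa_gg]
  exact (congrArg _ (gg_const_left c _)).trans (map_zero _)

theorem Q_add (hf : C.SmAt f y) (hg : C.SmAt g y) (h : E → ℝ) :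
    Xi X k (C.gg (fun x => f x + g x) h) y = Xi X k (C.gg f h) y + Xi X k (C.gg g h) y := by
  simp only [Xi_eq, fa_gg, ← map_add]
  exact congrArg _ (gg_add_left (lc_diff hf) (lc_diff hg) _)

theorem Q_mul (hf : C.SmAt f y) (hg : C.SmAt g y) (h : E → ℝ) :
    Xi X k (C.gg (fun x => f x * g x) h) y =
      f y * Xi X k (C.gg g h) y + g y * Xi X k (C.gg f h) y := by
  simp only [Xi_eq, fa_gg, ← lin_csmul, ← map_add]
  rw [← lc_self (C := C) f y, ← lc_self (C := C) g y]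
  exact congrArg _ (gg_mul_left (lc_diff hf) (lc_diff hg) _)

theorem Q_comp (hf : C.SmAt f y) {φ : ℝ → ℝ} (hφ : DifferentiableAt ℝ φ (f y)) (h : E → ℝ) :
    Xi X k (C.gg (fun x => φ (f x)) h) y = deriv φ (f y) * Xi X k (C.gg f h) y := by
  simp only [Xi_eq, fa_gg, ← lin_csmul]
  rw [← lc_self (C := C) f y] at hφ ⊢
  exact congrArg _ (gg_comp_left hφ (lc_diff hf) _)

theorem L_comp (hf : C.SmAt f y) {φ : ℝ → ℝ} (hφ : ContDiffAt ℝ 2 φ (f y)) :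
    Xi X k (C.om 0 fun x => φ (f x)) y =
      deriv φ (f y) * Xi X k (C.om 0 f) y + deriv (deriv φ) (f y) * Xi X k (C.gg f f) y := by
  simp only [Xi_eq, fa_gg, fa_om0, ← lin_csmul, ← map_add]
  rw [← lc_self (C := C) f y] at hφ ⊢
  exact congrArg _ (cHess_comp' hφ (two (lc_sm hf)))

theorem L_congr (e : f =ᶠ[𝓝 y] g) : Xi X k (C.om 0 f) y = Xi X k (C.om 0 g) y := by
  rw [Xi_eq, Xi_eq, fa_om0, fa_om0, C2.cHess_congr (lc_congr e)]

theorem Q_add_le (hp : Ps X k y) (hf : C.SmAt f y) (hg : C.SmAt g y) :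
    Xi X k (C.gg (fun x => f x + g x) fun x => f x + g x) y ≤
      2 * Xi X k (C.gg f f) y + 2 * Xi X k (C.gg g g) y := by
  rw [Q_add hf hg, Q_symm hp f, Q_symm hp g, Q_add hf hg, Q_add hf hg, Q_symm hp g f]
  linarith [Q_cs hp f g 1 1]

theorem Q_congr₂ (hp : Ps X k y) (e : f =ᶠ[𝓝 y] g) : Xi X k (C.gg f f) y = Xi X k (C.gg g g) y := by
  rw [Q_congr e, Q_symm hp, Q_congr e]

/-- the energy density of a smooth function is bounded on compact sets -/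
theorem Q_dom {K : Set E} (hK : IsCompact K) (hf : ∀ y, C.SmAt f y) : ∃ c : ℝ, 0 ≤ c ∧
    ∀ y ∈ K, Ps X k y → Xi X k (C.gg f f) y ≤ c * Xi X k (C.om 1 0) y := by
  have hB : ∀ a, C.cB 1 a ⊆ C.B 4 a := C.cB_sub_B (by norm_num)
  have h1 : ∀ γ a, ∃ c : ℝ, 1 ≤ c ∧ ∀ z ∈ C.cB 1 a,
      ((c : ℂ) • cHess (C.ρ a) z - C.gg f f γ a z).PosSemidef := fun γ a =>
    rho_dom a (C.isCompact_cB 1 a) (hB a) (fun z hz => (continuousAt_pi.2 fun i =>
      continuousAt_pi.2 fun j => (P284.H650.smooth_gg (hf _ γ a z (hB a hz) rfl)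
        (hf _ γ a z (hB a hz) rfl) i j).continuousAt).continuousWithinAt)
      fun z _ => (gg_psd _ z).isHermitian
  choose c hc1 hc using h1
  have h2 := C.proper _ (hK.union C.isCompact_K₁)
  obtain ⟨M, hM⟩ := ((h2.prod (finite_univ (α := C.I))).image fun p => c p.1 p.2).bddAbove
  refine ⟨|M|, abs_nonneg _, fun y hy hp => ?_⟩
  have h3 : c (C.ch₀ y).1 (C.ch₀ y).2.1 ≤ M := hM ⟨((C.ch₀ y).1, (C.ch₀ y).2.1),
    ⟨⟨_, .inr (mem_iUnion.2 ⟨_, _, C.B_sub_cB _ _ (ch_mem₁ y), rfl⟩), .inl (by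
      rw [← C.pt_eq, ch_pt]; exact hy)⟩, trivial⟩, rfl⟩
  refine le_trans ?_ (mul_le_mul_of_nonneg_right (h3.trans (le_abs_self M)) (w_nonneg hp))
  rw [Xi_eq, Xi_eq, fa_w, ← lin_csmul]
  exact hp.pf.mono (hc _ _ _ (C.B_sub_cB _ _ (ch_mem₁ y)))

/-- the energies of the functions `u i` tend to zero -/
def Sml [MeasurableSpace E] (ν : Measure E) (X : Fin n → C.Fm) (k : Fin n) (u : ℕ → E → ℝ) : Prop :=
  ∃ g : ℕ → E → ℝ, (∀ i, Integrable (g i) ν) ∧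
    (∀ i, ∀ᵐ y ∂ν, Xi X k (C.gg (u i) (u i)) y ≤ g i y) ∧
    Tendsto (fun i => ∫ y, g i y ∂ν) atTop (𝓝 0)

/-- cut-off functions with small energy -/
def Cut [MeasurableSpace E] (En : Set E) (ν : Measure E) (X : Fin n → C.Fm) (k : Fin n) : Prop :=
  ∃ Θ : ℕ → E → ℝ, (∀ i y, C.SmAt (Θ i) y) ∧ (∀ i y, |Θ i y| ≤ 1) ∧
    (∀ i, ∃ K, IsCompact K ∧ K ⊆ En ∧ ∀ y ∉ K, Θ i y = 0) ∧
    (∀ᵐ y ∂ν, Tendsto (fun i => Θ i y) atTop (𝓝 1)) ∧ Sml ν X k Θ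

end K

end Vale.Agent.P284Z
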